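import Mathlib
import Vale.Agent.P262.H118.Rot

/-!
# P262, milestone 2: splitting a rotation into coordinate steps by convexity

If `x` is in the convex set `K` and `x + ∑ v_i` is not, then for weights `lam_i > 0` of sum at most
`1` one of the points `x + v_i / lam_i` is not in `K`.  So a plane rotation which throws `x` out of
`K` leads to an exit in one coordinate direction, with a step larger by the inverse weight; no
chain of intermediate points is needed.
-/

set_option linter.all false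

open Set
open scoped RealInnerProductSpace

namespace Vale.Agent.P262.H703

open Vale.Agent.P262.H118 (ON rotL rotE rotL_apply)

variable {E : Type*} [NormedAddCommGroup E] [InnerProductSpace ℝ E]

/-- splitting of a displacement by convexity -/
theorem split {K : Set E} (hK : Convex ℝ K) {x : E} (hx : x ∈ K) {ι : Type*} (s : Finset ι)
    (v : ι → E) (lam : ι → ℝ) (hl : ∀ i ∈ s, 0 < lam i) (hs : ∑ i ∈ s, lam i ≤ 1)
    (h : x + ∑ i ∈ s, v i ∉ K) : ∃ i ∈ s, x + (lam i)⁻¹ • v i ∉ K := by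
  by_contra hc
  push Not at hc
  apply h
  have h1 : x + ∑ i ∈ s, v i =
      (1 - ∑ i ∈ s, lam i) • x + ∑ i ∈ s, lam i • (x + (lam i)⁻¹ • v i) := by
    have h2 : ∑ i ∈ s, lam i • (x + (lam i)⁻¹ • v i) = (∑ i ∈ s, lam i) • x + ∑ i ∈ s, v i := by
      rw [Finset.sum_smul, ← Finset.sum_add_distrib]
      refine Finset.sum_congr rfl fun i hi => ?_
      rw [smul_add, smul_smul, mul_inv_cancel₀ (hl i hi).ne', one_smul]
    rw [h2, sub_smul, one_smul]
    abel
  rw [h1]
  rcases (Finset.sum_nonneg fun i hi => (hl i hi).le).eq_or_lt with h0 | h0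
  · have h3 : s = ∅ := by
      by_contra hne
      have := Finset.sum_pos hl (Finset.nonempty_iff_ne_empty.mpr hne)
      linarith
    subst h3
    simpa using hx
  · set L := ∑ i ∈ s, lam i with hL
    have h4 : ∑ i ∈ s, (L⁻¹ * lam i) • (x + (lam i)⁻¹ • v i) ∈ K := by
      refine hK.sum_mem (fun i hi => ?_) ?_ hc
      · exact mul_nonneg (inv_nonneg.mpr h0.le) (hl i hi).le
      · rw [← Finset.mul_sum, ← hL, inv_mul_cancel₀ h0.ne']
    have h5 : ∑ i ∈ s, lam i • (x + (lam i)⁻¹ • v i) =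
        L • ∑ i ∈ s, (L⁻¹ * lam i) • (x + (lam i)⁻¹ • v i) := by
      rw [Finset.smul_sum]
      refine Finset.sum_congr rfl fun i hi => ?_
      rw [smul_smul, ← mul_assoc, mul_inv_cancel₀ h0.ne', one_mul]
    rw [h5]
    exact hK hx h4 (by linarith) h0.le (by ring)

/-- an exit along a line at distance at most `h` -/
theorem exit_dir {K : Set E} (hK : Convex ℝ K) {x e : E} {a h : ℝ} (ha : |a| ≤ h)
    (hn : x + a • e ∉ K) : x + h • e ∉ K ∨ x - h • e ∉ K := by
  by_contra hc
  push Not at hc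
  obtain ⟨h1, h2⟩ := hc
  apply hn
  have hh : 0 ≤ h := (abs_nonneg a).trans ha
  rcases hh.eq_or_lt with h0 | h0
  · have ha0 : a = 0 := by
      rw [← h0] at ha
      exact abs_nonpos_iff.mp ha
    rw [ha0, zero_smul, add_zero]
    rw [← h0, zero_smul, add_zero] at h1
    exact h1
  · have h3 := abs_le.mp ha
    have h4 : x + a • e = ((h + a) / (2 * h)) • (x + h • e) + ((h - a) / (2 * h)) • (x - h • e) := by
      have e1 : (h + a) / (2 * h) + (h - a) / (2 * h) = 1 := by field_simp; ring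
      have e2 : (h + a) / (2 * h) * h - (h - a) / (2 * h) * h = a := by field_simp; ring
      calc x + a • e = ((h + a) / (2 * h) + (h - a) / (2 * h)) • x +
            ((h + a) / (2 * h) * h - (h - a) / (2 * h) * h) • e := by rw [e1, e2, one_smul]
        _ = _ := by module
    rw [h4]
    exact hK h1 h2 (div_nonneg (by linarith) (by linarith)) (div_nonneg (by linarith) (by linarith))
      (by field_simp; ring)

/-- an exit stays an exit for longer steps -/
theorem exit_mono {K : Set E} (hK : Convex ℝ K) {x e : E} (hx : x ∈ K) {s t : ℝ} (hs : 0 ≤ s)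
    (hst : s ≤ t) (hn : x + s • e ∉ K) : x + t • e ∉ K := by
  intro ht
  apply hn
  rcases (hs.trans hst).eq_or_lt with h0 | h0
  · have : s = 0 := le_antisymm (h0 ▸ hst) hs
    rw [this, zero_smul, add_zero]
    exact hx
  · have h4 : x + s • e = (1 - s / t) • x + (s / t) • (x + t • e) := by
      have e1 : s / t * t = s := by field_simp
      calc x + s • e = x + (s / t * t) • e := by rw [e1]
        _ = _ := by module
    rw [h4]
    exact hK hx ht (by rw [sub_nonneg, div_le_one h0]; exact hst) (div_nonneg hs h0.le) (by ring)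

lemma geom_half (n : ℕ) : ∑ r ∈ Finset.range n, (1 / 2 : ℝ) ^ (r + 2) ≤ 1 / 2 := by
  have h : ∀ n : ℕ, ∑ r ∈ Finset.range n, (1 / 2 : ℝ) ^ (r + 2) = 1 / 2 - (1 / 2) ^ (n + 1) := by
    intro n
    induction n with
    | zero => norm_num
    | succ n ih =>
      rw [Finset.sum_range_succ, ih]
      ring
  rw [h]
  have : (0:ℝ) < (1 / 2) ^ (n + 1) := by positivity
  linarith

/-- **split of a plane rotation**: `b = ∑ t_r u_r` with `|t_r| ≤ 1` (the last term may be the
component in the fibre) -/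
theorem rot_split {K : Set E} (hK : Convex ℝ K) {θ b : E} (h : ON θ b) {φ : ℝ} {x : E}
    (hφ : |φ| * ‖x‖ ≤ 2) (n : ℕ) (t : ℕ → ℝ) (u : ℕ → E)
    (ht : ∀ r, r < n → |t r| ≤ 1) (hb : b = ∑ r ∈ Finset.range n, t r • u r)
    (hx : x ∈ K) (hx' : rotL θ b φ x ∉ K) :
    (x + (2 * (|φ| * (1 + |⟪b, x⟫|))) • θ ∉ K ∨ x - (2 * (|φ| * (1 + |⟪b, x⟫|))) • θ ∉ K) ∨
      ∃ r < n, x + ((2:ℝ) ^ (r + 2) * (|φ| * (1 + |⟪θ, x⟫|))) • u r ∉ K ∨
        x - ((2:ℝ) ^ (r + 2) * (|φ| * (1 + |⟪θ, x⟫|))) • u r ∉ K := by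
  have hθ : |⟪θ, x⟫| ≤ ‖x‖ := by
    have := abs_real_inner_le_norm θ x
    rwa [h.hp, one_mul] at this
  have hbx : |⟪b, x⟫| ≤ ‖x‖ := by
    have := abs_real_inner_le_norm b x
    rwa [h.hq, one_mul] at this
  have hcos : |Real.cos φ - 1| ≤ |φ| * (|φ| / 2) := by
    have h1 := Real.one_sub_sq_div_two_le_cos (x := φ)
    have h2 := Real.cos_le_one φ
    rw [abs_of_nonpos (by linarith)]
    have h3 : |φ| * (|φ| / 2) = φ ^ 2 / 2 := by
      rw [← sq_abs φ]; ring
    rw [h3]
    linarith
  have hsin : |Real.sin φ| ≤ |φ| := Real.abs_sin_le_abs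
  have hc : ∀ y : ℝ, |y| ≤ ‖x‖ → |(Real.cos φ - 1) * y| ≤ |φ| := by
    intro y hy
    rw [abs_mul]
    have h1 : |Real.cos φ - 1| * |y| ≤ |φ| * (|φ| / 2) * ‖x‖ := by gcongr
    have h2 : |φ| * (|φ| / 2) * ‖x‖ = |φ| * (|φ| * ‖x‖ / 2) := by ring
    have h3 : |φ| * (|φ| * ‖x‖ / 2) ≤ |φ| * 1 := by
      have := abs_nonneg φ
      gcongr
      linarith
    linarith
  set a := (Real.cos φ - 1) * ⟪θ, x⟫ - Real.sin φ * ⟪b, x⟫ with ha
  set c := Real.sin φ * ⟪θ, x⟫ + (Real.cos φ - 1) * ⟪b, x⟫ with hcdef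
  have ha1 : |a| ≤ |φ| * (1 + |⟪b, x⟫|) := by
    calc |a| ≤ |(Real.cos φ - 1) * ⟪θ, x⟫| + |Real.sin φ * ⟪b, x⟫| := abs_sub _ _
      _ ≤ |φ| + |φ| * |⟪b, x⟫| := by
          refine add_le_add (hc _ hθ) ?_
          rw [abs_mul]
          gcongr
      _ = _ := by ring
  have hc1 : |c| ≤ |φ| * (1 + |⟪θ, x⟫|) := by
    calc |c| ≤ |Real.sin φ * ⟪θ, x⟫| + |(Real.cos φ - 1) * ⟪b, x⟫| := abs_add_le _ _
      _ ≤ |φ| * |⟪θ, x⟫| + |φ| := by
          refine add_le_add ?_ (hc _ hbx)
          rw [abs_mul]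
          gcongr
      _ = _ := by ring
  have hrot : rotL θ b φ x = x + (a • θ + ∑ r ∈ Finset.range n, (c * t r) • u r) := by
    have h1 : ∑ r ∈ Finset.range n, (c * t r) • u r = c • b := by
      rw [hb, Finset.smul_sum]
      refine Finset.sum_congr rfl fun r _ => ?_
      rw [smul_smul]
    rw [h1, rotL_apply, add_assoc]
  -- index set: `none` for `θ`, `some r` for the pieces of `b`
  have key := split hK hx (insert none ((Finset.range n).image some))
    (fun o : Option ℕ => match o with | none => a • θ | some r => (c * t r) • u r)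
    (fun o : Option ℕ => match o with | none => (1 / 2 : ℝ) | some r => (1 / 2 : ℝ) ^ (r + 2))
    (by
      intro o _
      cases o with
      | none => norm_num
      | some r => positivity)
    (by
      rw [Finset.sum_insert (by simp), Finset.sum_image (by simp)]
      have := geom_half n
      linarith)
    (by
      rw [Finset.sum_insert (by simp), Finset.sum_image (by simp)]
      rwa [← hrot])
  obtain ⟨o, ho, hk⟩ := key
  cases o with
  | none =>
    left
    simp only [smul_smul] at hk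
    refine exit_dir hK ?_ hk
    rw [abs_mul]
    norm_num
    linarith
  | some r =>
    right
    simp only [Finset.mem_insert, reduceCtorEq, Finset.mem_image, Finset.mem_range,
      Option.some.injEq, exists_eq_right, false_or] at ho
    refine ⟨r, ho, ?_⟩
    simp only [smul_smul] at hk
    refine exit_dir hK ?_ hk
    have h1 : (((1:ℝ) / 2) ^ (r + 2))⁻¹ = 2 ^ (r + 2) := by
      rw [one_div, inv_pow, inv_inv]
    rw [h1, abs_mul, abs_mul, abs_of_pos (by positivity : (0:ℝ) < 2 ^ (r + 2))]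
    have h2 : |c| * |t r| ≤ |φ| * (1 + |⟪θ, x⟫|) * 1 := by
      gcongr
      exact ht r ho
    have h3 : (0:ℝ) < 2 ^ (r + 2) := by positivity
    nlinarith

end Vale.Agent.P262.H703
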