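import Mathlib
import Vale.Agent.P262.Defs
import Vale.Agent.P262.H493.Flag

set_option linter.all false

open Set
open scoped ENNReal RealInnerProductSpace

/-! Wrap-up: from the bodies `K_{t-1} = (K_t * v_t) ∩ B` to signs and to `signedConst`. -/

namespace Vale.Agent.P262.H703

open Vale.Agent.P262 Vale.Agent.P262.H493

section abstract

variable {E : Type*} [NormedAddCommGroup E] [InnerProductSpace ℝ E]

/-- the bodies computed backwards: `bodies B (v_1 :: v_2 :: ... )` is `K_0`,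
`K_{t-1} = star K_t v_t ∩ B`, `K_n = B`. -/
def bodies (B : Set E) : List E → Set E
  | [] => B
  | v :: l => star (bodies B l) v ∩ B

@[simp] theorem bodies_nil (B : Set E) : bodies B [] = B := rfl
@[simp] theorem bodies_cons (B : Set E) (v : E) (l : List E) :
    bodies B (v :: l) = star (bodies B l) v ∩ B := rfl

theorem bodies_subset (B : Set E) (l : List E) : bodies B l ⊆ B := by
  cases l with
  | nil => exact subset_rfl
  | cons v l => exact inter_subset_right

/-- Banaszczyk's star is convex -/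
theorem convex_star {K : Set E} (hK : Convex ℝ K) (v : E) : Convex ℝ (star K v) := by
  rintro x ⟨a, b, h1, h2, h3, h4, h5⟩ y ⟨a', b', h1', h2', h3', h4', h5'⟩ s t hs ht hst
  refine ⟨s * a + t * a', s * b + t * b', ?_, ?_, ?_, ?_, ?_⟩
  · have := hK h1 h1' hs ht hst
    convert this using 1
    simp only [smul_add, add_smul, smul_smul]; abel
  · have := hK h2 h2' hs ht hst
    convert this using 1
    simp only [smul_add, add_smul, smul_smul]; abel
  · nlinarith
  · nlinarith
  · nlinarith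

theorem convex_bodies {B : Set E} (hB : Convex ℝ B) (l : List E) : Convex ℝ (bodies B l) := by
  induction l with
  | nil => exact hB
  | cons v l ih => exact (convex_star ih v).inter hB

/-- a point of the star can be moved into `K` by `+ v` or by `- v` -/
theorem star_step {K : Set E} (hK : Convex ℝ K) {v x : E} (hx : x ∈ star K v) :
    x + v ∈ K ∨ x - v ∈ K := by
  obtain ⟨a, b, h1, h2, h3, h4, h5⟩ := hx
  have key : ∀ c : ℝ, a ≤ c → c ≤ b → x + c • v ∈ K := by
    intro c hac hcb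
    have hab : 0 < b - a := by linarith
    have hs : 0 ≤ (b - c) / (b - a) := div_nonneg (by linarith) hab.le
    have ht : 0 ≤ (c - a) / (b - a) := div_nonneg (by linarith) hab.le
    have hst : (b - c) / (b - a) + (c - a) / (b - a) = 1 := by
      rw [← add_div, div_eq_one_iff_eq hab.ne']; ring
    have := hK h1 h2 hs ht hst
    convert this using 1
    have e1 : (b - c) / (b - a) * a + (c - a) / (b - a) * b = c := by
      field_simp; ring
    rw [smul_add, smul_add, smul_smul, smul_smul]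
    have : ((b - c) / (b - a)) • x + ((b - c) / (b - a) * a) • v +
        (((c - a) / (b - a)) • x + ((c - a) / (b - a) * b) • v) =
        ((b - c) / (b - a) + (c - a) / (b - a)) • x +
        ((b - c) / (b - a) * a + (c - a) / (b - a) * b) • v := by
      simp only [add_smul]; abel
    rw [this, hst, e1, one_smul]
  by_cases hb : 1 ≤ b
  · left
    have := key 1 h4 hb
    simpa using this
  · right
    push Not at hb
    have := key (-1) (by linarith) h5
    simpa [sub_eq_add_neg] using this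

/-- signs from the bodies -/
theorem exists_signs {B : Set E} (hB : Convex ℝ B) : ∀ (N : ℕ) (v : Fin N → E) (x : E),
    x ∈ bodies B (List.ofFn v) →
    ∃ ε : Fin N → ℤˣ, ∀ k : ℕ, k ≤ N →
      x + ∑ i : Fin N with i.val < k, ((ε i : ℤ) : ℝ) • v i ∈ B := by
  intro N
  induction N with
  | zero =>
    intro v x hx
    refine ⟨fun _ => 1, fun k hk => ?_⟩
    simpa using hx
  | succ N ih =>
    intro v x hx
    rw [List.ofFn_succ, bodies_cons] at hx
    have hstep := star_step (convex_bodies hB _) hx.1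
    have main : ∃ s : ℤˣ, x + ((s : ℤ) : ℝ) • v 0 ∈ bodies B (List.ofFn fun i : Fin N => v i.succ) := by
      rcases hstep with h | h
      · exact ⟨1, by simpa using h⟩
      · exact ⟨-1, by simpa [sub_eq_add_neg] using h⟩
    obtain ⟨s, hs⟩ := main
    obtain ⟨ε, hε⟩ := ih (fun i => v i.succ) _ hs
    refine ⟨Fin.cons s ε, fun k hk => ?_⟩
    rcases Nat.eq_zero_or_pos k with rfl | hk0
    · simpa using hx.2
    · obtain ⟨m, rfl⟩ : ∃ m, k = m + 1 := ⟨k - 1, by omega⟩
      have h1 := hε m (by omega)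
      have h2 : (∑ i : Fin (N + 1) with i.val < m + 1, (((Fin.cons s ε : Fin (N + 1) → ℤˣ) i : ℤ) : ℝ) • v i)
          = ((s : ℤ) : ℝ) • v 0 + ∑ i : Fin N with i.val < m, ((ε i : ℤ) : ℝ) • v i.succ := by
        rw [Finset.sum_filter, Fin.sum_univ_succ, Finset.sum_filter]
        simp
      rw [h2, ← add_assoc]
      exact h1

end abstract

/-- `σ(d) ≤ 2 R / δ` as soon as, for every sequence of vectors of norm at most `δ` in `ℝ^d`, the
recursion `K_{t-1} = (K_t * v_t) ∩ closedBall 0 R` stays nonempty. -/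
theorem signedConst_le_of_bodies {d : ℕ} {R δ : ℝ} (hδ : 0 < δ) 
    (h : ∀ l : List (EuclideanSpace ℝ (Fin d)), (∀ v ∈ l, ‖v‖ ≤ δ) →
      (bodies (Metric.closedBall (0 : EuclideanSpace ℝ (Fin d)) R) l).Nonempty) :
    signedConst d ≤ ENNReal.ofReal (2 * R / δ) := by
  have hR : 0 ≤ R := by
    obtain ⟨x, hx⟩ := h [] (by simp)
    rw [bodies_nil, Metric.mem_closedBall] at hx
    exact dist_nonneg.trans hx
  unfold signedConst
  refine iSup_le fun N => iSup_le fun v => iSup_le fun hv => ?_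
  obtain ⟨x, hx⟩ := h (List.ofFn fun i => δ • v i) (by
    intro w hw
    rw [List.mem_ofFn] at hw
    obtain ⟨i, rfl⟩ := hw
    rw [norm_smul, Real.norm_of_nonneg hδ.le]
    nlinarith [hv i])
  obtain ⟨ε, hε⟩ := exists_signs (convex_closedBall _ _) N _ x hx
  refine (iInf_le _ ε).trans (iSup_le fun k => ?_)
  have hk := hε k.val (by omega)
  have h0 : x ∈ Metric.closedBall (0 : EuclideanSpace ℝ (Fin d)) R := bodies_subset _ _ hx
  rw [mem_closedBall_zero_iff] at hk h0
  set S := ∑ i : Fin N with i.val < k.val, ((ε i : ℤ) : ℝ) • v i with hS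
  have e1 : ∑ i : Fin N with i.val < k.val, ((ε i : ℤ) : ℝ) • (δ • v i) = δ • S := by
    rw [hS, Finset.smul_sum]
    refine Finset.sum_congr rfl fun i _ => ?_
    rw [smul_comm]
  rw [e1] at hk
  have h3 : ‖δ • S‖ ≤ 2 * R := by
    calc ‖δ • S‖ = ‖(x + δ • S) - x‖ := by rw [add_sub_cancel_left]
      _ ≤ ‖x + δ • S‖ + ‖x‖ := norm_sub_le _ _
      _ ≤ 2 * R := by linarith
  rw [norm_smul, Real.norm_of_nonneg hδ.le] at h3
  have h4 : ‖S‖ ≤ 2 * R / δ := by
    rw [le_div_iff₀ hδ]; linarith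
  change ‖partialSum (fun i => ((ε i : ℤ) : ℝ) • v i) k.val‖ₑ ≤ _
  have : partialSum (fun i => ((ε i : ℤ) : ℝ) • v i) k.val = S := rfl
  rw [this, ← ofReal_norm_eq_enorm]
  exact ENNReal.ofReal_le_ofReal h4

/-- first-component bound in `E × ℝ` -/
theorem norm_fst_le {d : ℕ} (x : WithLp 2 (EuclideanSpace ℝ (Fin d) × ℝ)) : ‖x.fst‖ ≤ ‖x‖ := by
  have h := WithLp.prod_norm_sq_eq_of_L2 x
  have h2 : ‖x.fst‖ ^ 2 ≤ ‖x‖ ^ 2 := by
    rw [h]; nlinarith [sq_nonneg ‖x.snd‖]
  exact le_of_sq_le_sq h2 (norm_nonneg _)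

/-- Same as `signedConst_le_of_bodies`, but only vectors of norm EXACTLY `δ` in dimension `d + 1`
are needed. -/
theorem signedConst_le_of_bodies_eq {d : ℕ} {R δ : ℝ} (hδ : 0 < δ)
    (h : ∀ l : List (WithLp 2 (EuclideanSpace ℝ (Fin d) × ℝ)), (∀ v ∈ l, ‖v‖ = δ) →
      (bodies (Metric.closedBall (0 : WithLp 2 (EuclideanSpace ℝ (Fin d) × ℝ)) R) l).Nonempty) :
    signedConst d ≤ ENNReal.ofReal (2 * R / δ) := by
  have hR : 0 ≤ R := by
    obtain ⟨x, hx⟩ := h [] (by simp)
    rw [bodies_nil, Metric.mem_closedBall] at hx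
    exact dist_nonneg.trans hx
  unfold signedConst
  refine iSup_le fun N => iSup_le fun v => iSup_le fun hv => ?_
  set w : Fin N → WithLp 2 (EuclideanSpace ℝ (Fin d) × ℝ) := fun i =>
    WithLp.toLp 2 (δ • v i, δ * Real.sqrt (1 - ‖v i‖ ^ 2)) with hw
  have hwn : ∀ i, ‖w i‖ = δ := by
    intro i
    have h1 : ‖w i‖ ^ 2 = δ ^ 2 := by
      rw [WithLp.prod_norm_sq_eq_of_L2]
      change ‖δ • v i‖ ^ 2 + ‖δ * Real.sqrt (1 - ‖v i‖ ^ 2)‖ ^ 2 = δ ^ 2
      rw [norm_smul, Real.norm_eq_abs, Real.norm_eq_abs, abs_mul, mul_pow, mul_pow, sq_abs, sq_abs,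
        Real.sq_sqrt (by nlinarith [hv i, norm_nonneg (v i)])]
      ring
    exact (sq_eq_sq₀ (norm_nonneg _) hδ.le).mp h1
  obtain ⟨x, hx⟩ := h (List.ofFn w) (by
    intro u hu
    rw [List.mem_ofFn] at hu
    obtain ⟨i, rfl⟩ := hu
    exact hwn i)
  obtain ⟨ε, hε⟩ := exists_signs (convex_closedBall _ _) N _ x hx
  refine (iInf_le _ ε).trans (iSup_le fun k => ?_)
  have hk := hε k.val (by omega)
  have h0 : x ∈ Metric.closedBall (0 : WithLp 2 (EuclideanSpace ℝ (Fin d) × ℝ)) R :=
    bodies_subset _ _ hx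
  rw [mem_closedBall_zero_iff] at hk h0
  set S := ∑ i : Fin N with i.val < k.val, ((ε i : ℤ) : ℝ) • v i with hS
  set T := ∑ i : Fin N with i.val < k.val, ((ε i : ℤ) : ℝ) • w i with hT
  have e1 : T.fst = δ • S := by
    have hmap : ∀ s : Finset (Fin N), (∑ i ∈ s, ((ε i : ℤ) : ℝ) • w i).fst =
        ∑ i ∈ s, ((ε i : ℤ) : ℝ) • (δ • v i) := by
      intro s
      induction s using Finset.induction_on with
      | empty => simp
      | insert a s ha ih =>
        rw [Finset.sum_insert ha, Finset.sum_insert ha, WithLp.add_fst, ih, WithLp.smul_fst]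
        rfl
    rw [hT, hS, Finset.smul_sum, hmap]
    refine Finset.sum_congr rfl fun i _ => ?_
    rw [smul_comm]
  have h3 : ‖δ • S‖ ≤ 2 * R := by
    rw [← e1]
    calc ‖T.fst‖ ≤ ‖T‖ := norm_fst_le T
      _ = ‖(x + T) - x‖ := by rw [add_sub_cancel_left]
      _ ≤ ‖x + T‖ + ‖x‖ := norm_sub_le _ _
      _ ≤ 2 * R := by linarith
  rw [norm_smul, Real.norm_of_nonneg hδ.le] at h3
  have h4 : ‖S‖ ≤ 2 * R / δ := by
    rw [le_div_iff₀ hδ]; linarith
  change ‖partialSum (fun i => ((ε i : ℤ) : ℝ) • v i) k.val‖ₑ ≤ _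
  have : partialSum (fun i => ((ε i : ℤ) : ℝ) • v i) k.val = S := rfl
  rw [this, ← ofReal_norm_eq_enorm]
  exact ENNReal.ofReal_le_ofReal h4

end Vale.Agent.P262.H703
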