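import Vale.Agent.P262.H703.Rg1

/-!
# P262, milestone 2: the block maxima `DD`, `Dk` and the pointwise Harnack inequality on `M2.Sys`
-/

set_option linter.all false

open MeasureTheory ProbabilityTheory Set
open scoped ENNReal NNReal RealInnerProductSpace
open Vale.Agent.P262.H118 (Iv st en ON rotE tau wd wrd Mg Piece K2 El2 paths)
open Vale.Agent.P262.H395 (fib mix Inv inv_fib fib_add)
open Vale.Agent.P262.H606 (df)

namespace Vale.Agent.P262.H703

variable {E : Type*} [NormedAddCommGroup E] [InnerProductSpace ℝ E] [FiniteDimensional ℝ E]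
  [MeasurableSpace E] [BorelSpace E]

/-- lower bound of the Gaussian tail with the exponent `8/15` -/
lemma tail_ge15 {t : ℝ} (ht : 0 ≤ t) :
    ENNReal.ofReal (Real.exp (-(9 + 8 / 15 * t ^ 2))) ≤ gaussianReal 0 1 (Ici t) := by
  refine le_trans ?_ (H698.tail_lower (M := 1) ht le_rfl)
  apply ENNReal.ofReal_le_ofReal
  rw [H698.gpdf_form, div_one, one_div_one]
  have h1 : Real.exp (-1) ≤ (√(2 * Real.pi))⁻¹ := by
    rw [Real.exp_neg]
    apply inv_anti₀ (by have := Real.pi_pos; positivity)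
    rw [Real.sqrt_le_left (Real.exp_pos 1).le]
    have h3 : (2.7182818283 : ℝ) ≤ Real.exp 1 := Real.exp_one_gt_d9.le
    have h4 : Real.pi ≤ 3.15 := Real.pi_lt_d2.le
    nlinarith
  calc Real.exp (-(9 + 8 / 15 * t ^ 2)) ≤ Real.exp (-1) * Real.exp (-(t + 1) ^ 2 / 2) := by
        rw [← Real.exp_add]
        apply Real.exp_le_exp.mpr
        nlinarith [sq_nonneg (t - 15)]
    _ ≤ _ := mul_le_mul_of_nonneg_right h1 (Real.exp_pos _).le

/-- **Harnack** for one body -/
theorem harnack_df {W W' : Submodule ℝ E} (h : W ≤ W') {K : Set E} (hK : IsClosed K)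
    (hKc : Convex ℝ K) (x : E) :
    df W' K x ≤ ENNReal.ofReal (Real.exp (9 + 8 / 15 *
      ‖W'.starProjection x - W.starProjection x‖ ^ 2)) * df W K x := by
  set t := ‖W'.starProjection x - W.starProjection x‖ with ht
  have h3 := H606.floor h hK hKc x
  have h4 := tail_ge15 (norm_nonneg (W'.starProjection x - W.starProjection x))
  rw [← ht] at h4
  have h5 : df W' K x * ENNReal.ofReal (Real.exp (-(9 + 8 / 15 * t ^ 2))) ≤ df W K x :=
    (mul_le_mul' le_rfl h4).trans h3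
  calc df W' K x = ENNReal.ofReal (Real.exp (9 + 8 / 15 * t ^ 2)) *
        (df W' K x * ENNReal.ofReal (Real.exp (-(9 + 8 / 15 * t ^ 2)))) := by
        rw [mul_left_comm, ← ENNReal.ofReal_mul (Real.exp_nonneg _), ← Real.exp_add, add_neg_cancel,
          Real.exp_zero, ENNReal.ofReal_one, mul_one]
    _ ≤ _ := mul_le_mul' le_rfl h5

end Vale.Agent.P262.H703

namespace Vale.Agent.P262.M2

namespace Sys

variable {E : Type*} [NormedAddCommGroup E] [InnerProductSpace ℝ E] [FiniteDimensional ℝ E]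
  [MeasurableSpace E] [BorelSpace E] (S : Sys E)

/-- maximal deficit over the life of the node, and the cap -/
noncomputable def DD (r : List ℕ) (m : ℕ) (x : E) : ℝ≥0∞ :=
  max ((Finset.Icc (S.l0 r m) (S.l1 r m)).sup fun k => S.Dc r k x) (S.A r m x)

/-- maximal deficit over the class-`c` window, and the cap -/
noncomputable def Dk (c : ℕ) (r : List ℕ) (m : ℕ) (x : E) : ℝ≥0∞ :=
  max (S.Dw r c m x) (S.A r m x)

lemma DD_quasi (r : List ℕ) (m : ℕ) {x y : E} {s t : ℝ} (hs : 0 ≤ s) (ht : 0 ≤ t)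
    (hst : s + t = 1) : S.DD r m (s • x + t • y) ≤ max (S.DD r m x) (S.DD r m y) := by
  unfold DD
  refine max_le (Finset.sup_le fun k hk => (S.Dc_quasi r k hs ht hst).trans ?_)
    ((S.A_quasi r m hs ht hst).trans (max_le_max (le_max_right _ _) (le_max_right _ _)))
  exact max_le_max ((Finset.le_sup (f := fun k => S.Dc r k x) hk).trans (le_max_left _ _))
    ((Finset.le_sup (f := fun k => S.Dc r k y) hk).trans (le_max_left _ _))

lemma Dk_quasi (c : ℕ) (r : List ℕ) (m : ℕ) {x y : E} {s t : ℝ} (hs : 0 ≤ s) (ht : 0 ≤ t)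
    (hst : s + t = 1) : S.Dk c r m (s • x + t • y) ≤ max (S.Dk c r m x) (S.Dk c r m y) := by
  unfold Dk
  exact max_le ((S.Dw_quasi r c m hs ht hst).trans (max_le_max (le_max_left _ _) (le_max_left _ _)))
    ((S.A_quasi r m hs ht hst).trans (max_le_max (le_max_right _ _) (le_max_right _ _)))

lemma Dk_meas (c : ℕ) (r : List ℕ) (m : ℕ) : Measurable (S.Dk c r m) :=
  (Dw_meas r c m).max (S.A_meas r m)

lemma DD_meas (r : List ℕ) (m : ℕ) : Measurable (S.DD r m) :=
  (measurable_finset_sup _ fun k => S.Dc_meas r k).max (S.A_meas r m)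

lemma Dk_inv (c : ℕ) (r : List ℕ) {m : ℕ} (hm : S.mv.tm m < S.T) :
    Inv (S.W r m) (S.Dk c r m) := by
  intro x w hw
  unfold Dk
  rw [Dw_inv r c hm x w hw, S.A_inv r m x w hw]

lemma DD_inv (r : List ℕ) {m : ℕ} (hm : S.mv.tm m < S.T) : Inv (S.W r m) (S.DD r m) := by
  intro x w hw
  unfold DD
  rw [S.A_inv r m x w hw]
  congr 1
  refine Finset.sup_congr rfl fun k hk => ?_
  have h : S.Same (S.K.nw r) m k := Finset.mem_Icc.1 hk
  have h1 := S.Dc_inv r k
  rw [h.W le_rfl hm] at h1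
  exact h1 x w hw

lemma A_le_DD (r : List ℕ) (m : ℕ) (x : E) : S.A r m x ≤ S.DD r m x := le_max_right _ _
lemma A_le_Dk (c : ℕ) (r : List ℕ) (m : ℕ) (x : E) : S.A r m x ≤ S.Dk c r m x := le_max_right _ _
lemma Dw_le_Dk (c : ℕ) (r : List ℕ) (m : ℕ) (x : E) : S.Dw r c m x ≤ S.Dk c r m x :=
  le_max_left _ _

lemma Dk_pos (c : ℕ) (r : List ℕ) (m : ℕ) (x : E) : 0 < S.Dk c r m x :=
  (S.A_pos r m x).trans_le (S.A_le_Dk c r m x)

lemma DD_pos (r : List ℕ) (m : ℕ) (x : E) : 0 < S.DD r m x :=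
  (S.A_pos r m x).trans_le (S.A_le_DD r m x)

lemma Dk_ne_top (c : ℕ) (r : List ℕ) (m : ℕ) (x : E) : S.Dk c r m x ≠ ⊤ := by
  have h1 : S.Dw r c m x ≠ ⊤ := ne_top_of_le_ne_top ENNReal.one_ne_top (Dw_le_one r c m x)
  unfold Dk
  rcases max_choice (S.Dw r c m x) (S.A r m x) with h | h <;> rw [h]
  · exact h1
  · exact S.A_ne_top r m x

/-- a state of the life -/
lemma Dc_le_DD {r : List ℕ} {m k : ℕ} (h : S.Same (S.K.nw r) m k) (x : E) :
    S.Dc r k x ≤ S.DD r m x :=
  (Finset.le_sup (f := fun k => S.Dc r k x) (Finset.mem_Icc.2 ⟨h.1, h.2⟩)).trans (le_max_left _ _)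

lemma Dc_self_le_DD (r : List ℕ) {m : ℕ} (hm : S.mv.tm m < S.T) (x : E) :
    S.Dc r m x ≤ S.DD r m x := S.Dc_le_DD (Same.refl (S.K.zero_mem_nw r) hm) x

lemma Dc_self_le_Dk (c : ℕ) (r : List ℕ) {m : ℕ} (hm : S.mv.tm m < S.T) (x : E) :
    S.Dc r m x ≤ S.Dk c r m x :=
  (Dc_le_Dw (Same.refl (S.K.zero_mem_B r c) hm) x).trans (le_max_left _ _)

/-- the class window is contained in the life -/
lemma Dk_le_DD (c : ℕ) (r : List ℕ) {m : ℕ} (hm : S.mv.tm m < S.T) (x : E) :
    S.Dk c r m x ≤ S.DD r m x := by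
  refine max_le ?_ (le_max_right _ _)
  unfold Sys.Dw
  refine Finset.sup_le fun k hk => ?_
  have h : S.Same (S.K.B r c) m k := Finset.mem_Icc.1 hk
  exact S.Dc_le_DD (h.mono (S.K.nw_sub_B r c) (S.K.zero_mem_nw r) hm) x

/-- **(fact 1)** the class threshold is reached -/
lemma thr_le_Dk (r : List ℕ) (m : ℕ) (x : E) : S.thr (S.kl r m x) ≤ S.Dk (S.kl r m x) r m x := by
  rcases kl_spec (S := S) r m x with h | h
  · exact h.trans (le_max_left _ _)
  · exact h.trans (le_max_right _ _)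

/-- **(fact 2)** below the next threshold -/
lemma Dk_lt_thr {r : List ℕ} {m : ℕ} (hm : S.mv.tm m < S.T) {x : E} (h : 1 ≤ S.kl r m x) :
    S.Dk (S.kl r m x) r m x < S.thr (S.kl r m x - 1) := by
  obtain ⟨h1, h2⟩ := lt_of_lt_kl (S := S) (p := r) (m := m) (x := x) (c := S.kl r m x - 1)
    (by omega)
  exact max_lt ((Dw_anti (Nat.sub_le _ 1) hm x).trans_lt h1) h2

/-- at an active move: child deficit against parent deficit -/
lemma Dc_child_le {p : List ℕ} {k c : ℕ} (x : E) :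
    S.Dc (c :: p) k x ≤ ENNReal.ofReal (2 * Real.exp (9 + 8 / 15 *
      ‖(S.W (c :: p) k).starProjection x - (S.W p k).starProjection x‖ ^ 2)) * S.Dc p k x := by
  set t := ‖(S.W (c :: p) k).starProjection x - (S.W p k).starProjection x‖
  have e2 : ENNReal.ofReal (2 * Real.exp (9 + 8 / 15 * t ^ 2)) =
      ENNReal.ofReal (Real.exp (9 + 8 / 15 * t ^ 2)) * 2 := by
    rw [mul_comm (2:ℝ), ENNReal.ofReal_mul (Real.exp_nonneg _)]
    norm_num
  rw [e2, mul_assoc]
  by_cases hre : S.mv.IsRe k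
  · rw [S.Dc_re hre, S.Dc_re hre]
    refine (H703.harnack_df (S.W_le c p k) (S.isClosed_X (c :: p) k) (S.convex_X (c :: p) k)
      x).trans ?_
    have h2 : df (S.W p k) (S.X (c :: p) k) x = S.De p k x :=
      S.mv.fib_Bd_compl S.measurableSet_Kt k (List.suffix_cons c p) x
    rw [h2]
    refine mul_le_mul' le_rfl ?_
    rw [two_mul]
    exact le_self_add
  · have hact := S.not_re_iff.1 hre
    rw [S.Dc_active hact]
    refine (H703.harnack_df (S.W_le c p k)
      ((S.isClosed_X (c :: p) k).inter (S.isClosed_X (c :: p) (k + 1)))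
      ((S.convex_X (c :: p) k).inter (S.convex_X (c :: p) (k + 1))) x).trans ?_
    refine mul_le_mul' le_rfl ((S.df_child_le hact x).trans ?_)
    rw [two_mul]
    exact add_le_add (S.De_le_Dc p k x) (S.De_succ_le_Dc hact x)

/-- **(fact 3), Harnack**: the life maximum of the child against the window maximum of the parent,
at the same vector -/
theorem harnack {m : ℕ} (hm : S.mv.tm m < S.T) (c : ℕ) (r : List ℕ) (x : E) :
    S.DD (c :: r) m x ≤
      ENNReal.ofReal (2 * Real.exp (9 + 8 / 15 * ‖S.ow r c m x‖ ^ 2)) * S.Dk c r m x := by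
  unfold DD
  refine max_le (Finset.sup_le fun k hk => ?_) ?_
  · have h : S.Same (S.K.nw (c :: r)) m k := Finset.mem_Icc.1 hk
    have h2 : S.Same (S.K.B r c) m k := h.mono (S.K.B_sub_nw r c) (S.K.zero_mem_B r c) hm
    have h3 := S.Dc_child_le (p := r) (k := k) (c := c) x
    rw [norm_ow_congr x (h.W le_rfl hm) (h2.W (S.K.nw_sub_B r c) hm)] at h3
    exact h3.trans (mul_le_mul' le_rfl ((Dc_le_Dw h2 x).trans (le_max_left _ _)))
  · have h3 := S.A_child_le c r m zero_le_one x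
    refine h3.trans (mul_le_mul' (ENNReal.ofReal_le_ofReal ?_) (le_max_right _ _))
    rw [Real.rpow_one]
    have h5 : S.kap ^ (Module.finrank ℝ (S.W (c :: r) m) - Module.finrank ℝ (S.W r m)) ≤ 1 :=
      pow_le_one₀ S.hkap.le S.hkap1
    have h6 : Real.exp (‖S.ow r c m x‖ ^ 2 / 8) ≤ Real.exp (9 + 8 / 15 * ‖S.ow r c m x‖ ^ 2) := by
      apply Real.exp_le_exp.mpr
      nlinarith [sq_nonneg ‖S.ow r c m x‖]
    have h7 := Real.exp_pos (‖S.ow r c m x‖ ^ 2 / 8)
    have h8 := Real.exp_pos (9 + 8 / 15 * ‖S.ow r c m x‖ ^ 2)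
    nlinarith

/-- the life maximum of the child against that of the parent -/
theorem harnack' {m : ℕ} (hm : S.mv.tm m < S.T) (c : ℕ) (r : List ℕ) (x : E) :
    S.DD (c :: r) m x ≤
      ENNReal.ofReal (2 * Real.exp (9 + 8 / 15 * ‖S.ow r c m x‖ ^ 2)) * S.DD r m x :=
  (S.harnack hm c r x).trans (mul_le_mul' le_rfl (S.Dk_le_DD c r hm x))

/-! ### lattices on a line -/

/-- a quasi-convex function on a lattice interval is at most the maximum of its end values -/
lemma lattice_le {f : E → ℝ≥0∞} (hf : ∀ {x y : E} {s t : ℝ}, 0 ≤ s → 0 ≤ t → s + t = 1 →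
    f (s • x + t • y) ≤ max (f x) (f y)) (x e : E) {a j b : ℕ} (haj : a ≤ j) (hjb : j ≤ b) (h : ℝ) :
    f (x + (j * h) • e) ≤ max (f (x + (a * h) • e)) (f (x + (b * h) • e)) := by
  rcases haj.eq_or_lt with h1 | h1
  · rw [h1]; exact le_max_left _ _
  have hab : (a:ℝ) < b := by exact_mod_cast h1.trans_le hjb
  have h2 : (0:ℝ) < b - a := by linarith
  have haj' : (a:ℝ) ≤ j := by exact_mod_cast haj
  have hjb' : (j:ℝ) ≤ b := by exact_mod_cast hjb
  have e1 : x + ((j:ℝ) * h) • e = (((b:ℝ) - j) / (b - a)) • (x + ((a:ℝ) * h) • e) +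
      (((j:ℝ) - a) / (b - a)) • (x + ((b:ℝ) * h) • e) := by
    have e2 : ((b:ℝ) - j) / (b - a) + (j - a) / (b - a) = 1 := by field_simp; ring
    have e3 : ((b:ℝ) - j) / (b - a) * (a * h) + (j - a) / (b - a) * (b * h) = j * h := by
      field_simp; ring
    calc x + ((j:ℝ) * h) • e = (((b:ℝ) - j) / (b - a) + (j - a) / (b - a)) • x +
          (((b:ℝ) - j) / (b - a) * (a * h) + (j - a) / (b - a) * (b * h)) • e := by
          rw [e2, e3, one_smul]
      _ = _ := by module
  rw [e1]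
  exact hf (div_nonneg (by linarith) h2.le) (div_nonneg (by linarith) h2.le)
    (by field_simp; ring)

lemma DD_lattice (r : List ℕ) (m : ℕ) (x e : E) {a j b : ℕ} (haj : a ≤ j) (hjb : j ≤ b) (h : ℝ) :
    S.DD r m (x + (j * h) • e) ≤ max (S.DD r m (x + (a * h) • e)) (S.DD r m (x + (b * h) • e)) :=
  lattice_le (fun hs ht hst => S.DD_quasi r m hs ht hst) x e haj hjb h

/-- the class on a lattice line: `{c ≤ kl}` is an interval of indices -/
lemma kl_lattice (r : List ℕ) (m c : ℕ) (x e : E) {a j b : ℕ} (haj : a ≤ j) (hjb : j ≤ b) (h : ℝ)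
    (ha : c ≤ S.kl r m (x + (a * h) • e)) (hb : c ≤ S.kl r m (x + (b * h) • e)) :
    c ≤ S.kl r m (x + (j * h) • e) := by
  by_contra hcon
  have hf : ∀ {x y : E} {s t : ℝ}, 0 ≤ s → 0 ≤ t → s + t = 1 →
      (if c ≤ S.kl r m (s • x + t • y) then (0:ℝ≥0∞) else 1) ≤
        max (if c ≤ S.kl r m x then 0 else 1) (if c ≤ S.kl r m y then 0 else 1) := by
    intro x y s t hs ht hst
    by_cases h1 : c ≤ S.kl r m x
    · by_cases h2 : c ≤ S.kl r m y
      · have h3 : c ≤ S.kl r m (s • x + t • y) := S.convex_kl r m c h1 h2 hs ht hst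
        rw [if_pos h3]
        exact bot_le
      · rw [if_neg h2]
        refine le_trans ?_ (le_max_right _ _)
        split_ifs <;> simp
    · rw [if_neg h1]
      refine le_trans ?_ (le_max_left _ _)
      split_ifs <;> simp
  have := lattice_le (f := fun x => if c ≤ S.kl r m x then (0:ℝ≥0∞) else 1) hf x e haj hjb h
  simp only [if_pos ha, if_pos hb, if_neg hcon, max_self] at this
  exact absurd this (by norm_num)

end Sys

end Vale.Agent.P262.M2
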