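import Vale.Agent.P262.H703.AccAlg
import Vale.Agent.P262.H148.SFd
import Vale.Agent.P262.H59.PsiE
import Vale.Agent.P262.M2.Nodes

/-!
# P262, milestone 2: the accounting closed, from the integrated accounts
-/

set_option linter.all false

open MeasureTheory ProbabilityTheory Set
open scoped ENNReal RealInnerProductSpace

namespace Vale.Agent.P262.M2.Sys

variable {E : Type*} [NormedAddCommGroup E] [InnerProductSpace ℝ E] [FiniteDimensional ℝ E]
  [MeasurableSpace E] [BorelSpace E] {S : Sys E}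

lemma nl_pos_F (S : Sys E) : 0 < S.nl := by
  have := S.hd2
  unfold nl
  omega

/-- (STARF), summed over the stars -/
lemma star_sum_SF {G : List ℕ → ℕ → E → ℝ≥0∞} {C : ℝ} (hS : S.STARF G C) {j : ℕ}
    (hj : j < S.nl) :
    S.Rt G j + ENNReal.ofReal C * S.SF' j ≤ ENNReal.ofReal C * S.SF j := by
  classical
  unfold Rt SF SF'
  rw [Finset.mul_sum, Finset.mul_sum, ← Finset.sum_add_distrib]
  refine Finset.sum_le_sum fun m hm => ?_
  by_cases h : S.mv.IsStar m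
  · rw [if_pos h, if_pos h, if_pos h]
    exact hS j hj m (Finset.mem_range.1 hm) h
  · rw [if_neg h, if_neg h, if_neg h]; simp

lemma PsiE_le_one_F (p : List ℕ) (m : ℕ) (x : E) {s : ℝ≥0∞} (hs : s ≤ 1) :
    S.PsiE p m x s ≤ 1 := by
  have hs1 : s.toReal ≤ 1 := by
    have := ENNReal.toReal_mono ENNReal.one_ne_top hs
    simpa using this
  rw [PsiE_eq, ← ENNReal.ofReal_one]
  refine ENNReal.ofReal_le_ofReal ?_
  have hA := AR_pos (S := S) p m x
  have h1 := H148.Psi_sub_le (th := S.th) S.hth.le hA (a := 0) (b := s.toReal)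
    ENNReal.toReal_nonneg
  rw [H148.Psi_zero] at h1
  have h2 := H148.slope_le_one (th := S.th) S.hth.le hA 0
  have h3 : (0 : ℝ) ≤ s.toReal := ENNReal.toReal_nonneg
  nlinarith

lemma SF_ne_top_F (j : ℕ) : S.SF j ≠ ⊤ := by
  classical
  unfold SF
  refine ENNReal.sum_ne_top.2 fun m _ => ?_
  split_ifs
  · refine ne_top_of_le_ne_top ENNReal.one_ne_top ?_
    calc ∫⁻ x, iw (S.omj j m) x * S.PsiE (S.nd m x j) m x (S.F (S.nd m x j) m x) ∂stdGaussian E
        ≤ ∫⁻ _, 1 ∂stdGaussian E := by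
          refine lintegral_mono fun x => ?_
          refine mul_le_one' ?_ (PsiE_le_one_F _ _ _ (S.F_le_one _ _ _))
          exact indicator_le_self' (fun _ _ => bot_le) x
      _ = 1 := by rw [lintegral_one, measure_univ]
  · exact ENNReal.zero_ne_top

/-- **the accounting**, from the integrated accounts (T1), (T2), (ROOT) -/
theorem acc2_of {G : List ℕ → ℕ → E → ℝ≥0∞} {C KU kp ep b k2 lam et : ℝ}
    (T1 : ∀ j, j < S.nl → S.SF j ≤ S.SF' j + 20 * S.Bt j + 4 * S.It G j +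
      ENNReal.ofReal (2 * et) * S.Rt G j)
    (hroot : ENNReal.ofReal (H148.Psi S.th S.A0 (max S.A0 (S.De [] S.mT 0).toReal)) +
      S.SF 0 ≤ ENNReal.ofReal S.A0 + S.SF' 0 + 4 * S.It G 0 +
        ENNReal.ofReal (2 * et) * S.Rt G 0)
    (T2 : ∀ j, j < S.nl → S.Ut j ≤ ENNReal.ofReal KU *
      (S.Bt j + ENNReal.ofReal (2 * (2 + et)) * (S.Rt G j + S.It G j)))
    (hU : ∀ j, j < S.nl → S.Ut j ≠ ⊤) (hB0 : S.Bt 0 ≤ ENNReal.ofReal S.A0)
    (hst : S.STARF G C) (hcons : S.CONS kp) (hIB : S.IB G ep b k2)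
    (hth1 : S.th ≤ 1 / 2) (het0 : 0 ≤ et) (het1 : et ≤ 1) (hC : 0 < C) (hKU : 0 ≤ KU)
    (hkp : 0 ≤ kp) (hep : 0 ≤ ep) (hb : 0 ≤ b) (hk2 : 0 ≤ k2) (hlam : 0 < lam)
    (c1 : 2 * b ≤ lam) (c2 : lam * k2 ≤ 1 / 2)
    (c3 : (6 * KU + 40 * C * (6 * KU + 1) + 1) * (lam * kp + 3 * ep) ≤ 1 / 2)
    (c4 : 640 * C * et ≤ 1) (c5 : 256 * (6 * KU + 40 * C * (6 * KU + 1) + 1) * ep ≤ 1) :
    S.De [] S.mT 0 ≤ ENNReal.ofReal (2 * S.A0) := by
  have h := H703.acc_alg (nl_pos_F S) hU (fun l _ => SF_ne_top_F l) T1 hroot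
    (fun l hl => star_sum_SF hst hl) T2 hB0 hcons hIB S.hA0.le het0 het1 hC hKU hkp hep hb hk2
    hlam c1 c2 c3 c4 c5
  have hA := S.hA0
  have hA2 : 2 * S.A0 ≤ 1 / 8 := by
    have h1 := S.hAb
    have h2 := S.hMb
    have h3 := S.hM
    have h4 : 0 ≤ S.b0 := hA.le.trans h1
    nlinarith
  rw [ENNReal.ofReal_le_ofReal_iff (by positivity)] at h
  have h2 := H703.le_two_of_Psi S.hth.le hth1 hA hA2 h
  have h3 : S.De [] S.mT 0 ≠ ⊤ := ne_top_of_le_ne_top ENNReal.one_ne_top (S.De_le_one _ _ _)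
  rw [← ENNReal.ofReal_toReal h3]
  exact ENNReal.ofReal_le_ofReal h2

end Vale.Agent.P262.M2.Sys
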