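import Vale.Agent.P262.H148.LinSys
import Vale.Agent.P262.H148.Life

/-!
# P262, milestone 2: the final algebra of the accounting

From the two integrated accounts of a level (activity of the stars, units), the star inequality, the
bound of the entrances and of the other moves: the potential at the last state is at most
`3/2` of its start.
-/

set_option linter.all false

open Finset
open scoped ENNReal

namespace Vale.Agent.P262.H703

variable {n : ℕ} {U R B I SS SS' : ℕ → ℝ≥0∞} {C KU kp ep b k2 lam et A : ℝ} {P : ℝ≥0∞}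

/-- **the final algebra** -/
theorem acc_alg (hn : 0 < n) (hU : ∀ l, l < n → U l ≠ ⊤) (hS : ∀ l, l < n → SS l ≠ ⊤)
    (T1 : ∀ l, l < n → SS l ≤ SS' l + 20 * B l + 4 * I l + ENNReal.ofReal (2 * et) * R l)
    (hroot : P + SS 0 ≤ ENNReal.ofReal A + SS' 0 + 4 * I 0 + ENNReal.ofReal (2 * et) * R 0)
    (hst : ∀ l, l < n → R l + ENNReal.ofReal C * SS' l ≤ ENNReal.ofReal C * SS l)
    (T2 : ∀ l, l < n → U l ≤ ENNReal.ofReal KU *
      (B l + ENNReal.ofReal (2 * (2 + et)) * (R l + I l)))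
    (hB0 : B 0 ≤ ENNReal.ofReal A)
    (hcons : ∀ l, l + 1 < n → B (l + 1) ≤ ENNReal.ofReal kp * U l)
    (hIB : ∀ l, l < n → I l ≤
      ENNReal.ofReal ep * ∑ i ∈ Ico l n, ENNReal.ofReal (b ^ (i - l)) * U i +
        ENNReal.ofReal ep * ∑ i ∈ range l, ENNReal.ofReal (k2 ^ (l - i)) * U i)
    (hA : 0 ≤ A) (het0 : 0 ≤ et) (het1 : et ≤ 1) (hC : 0 < C) (hKU : 0 ≤ KU) (hkp : 0 ≤ kp)
    (hep : 0 ≤ ep) (hb : 0 ≤ b) (hk2 : 0 ≤ k2) (hlam : 0 < lam) (c1 : 2 * b ≤ lam)
    (c2 : lam * k2 ≤ 1 / 2)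
    (c3 : (6 * KU + 40 * C * (6 * KU + 1) + 1) * (lam * kp + 3 * ep) ≤ 1 / 2)
    (c4 : 640 * C * et ≤ 1) (c5 : 256 * (6 * KU + 40 * C * (6 * KU + 1) + 1) * ep ≤ 1) :
    P ≤ ENNReal.ofReal (3 / 2 * A) := by
  set K : ℝ := 6 * KU + 40 * C * (6 * KU + 1) with hK
  have hK0 : 0 ≤ K := by positivity
  have ofne : ∀ x : ℝ, ENNReal.ofReal x ≠ ⊤ := fun x => ENNReal.ofReal_ne_top
  have hR : ∀ l, l < n → R l ≠ ⊤ := fun l hl =>
    ne_top_of_le_ne_top (ENNReal.mul_ne_top (ofne C) (hS l hl)) (le_self_add.trans (hst l hl))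
  have hS' : ∀ l, l < n → SS' l ≠ ⊤ := by
    intro l hl h
    have h1 := (le_add_self).trans (hst l hl)
    rw [h, ENNReal.mul_top (ENNReal.ofReal_pos.2 hC).ne', top_le_iff] at h1
    exact ENNReal.mul_ne_top (ofne C) (hS l hl) h1
  have hB : ∀ l, l < n → B l ≠ ⊤ := by
    intro l hl
    rcases l with _ | l
    · exact ne_top_of_le_ne_top (ofne A) hB0
    · exact ne_top_of_le_ne_top (ENNReal.mul_ne_top (ofne kp) (hU l (by omega))) (hcons l hl)
  have s1 : ∀ l, l < n → ∑ i ∈ Ico l n, ENNReal.ofReal (b ^ (i - l)) * U i ≠ ⊤ := fun l hl =>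
    ENNReal.sum_ne_top.2 fun i hi => ENNReal.mul_ne_top (ofne _) (hU i (mem_Ico.1 hi).2)
  have s2 : ∀ l, l < n → ∑ i ∈ range l, ENNReal.ofReal (k2 ^ (l - i)) * U i ≠ ⊤ := fun l hl =>
    ENNReal.sum_ne_top.2 fun i hi => ENNReal.mul_ne_top (ofne _)
      (hU i ((mem_range.1 hi).trans hl))
  have hI : ∀ l, l < n → I l ≠ ⊤ := fun l hl =>
    ne_top_of_le_ne_top (ENNReal.add_ne_top.2 ⟨ENNReal.mul_ne_top (ofne _) (s1 l hl),
      ENNReal.mul_ne_top (ofne _) (s2 l hl)⟩) (hIB l hl)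
  -- real sequences
  set u : ℕ → ℝ := fun l => (U l).toReal with hu
  set r : ℕ → ℝ := fun l => (R l).toReal with hr
  set e : ℕ → ℝ := fun l => (B l).toReal with he
  set w : ℕ → ℝ := fun l => (I l).toReal with hw
  set s : ℕ → ℝ := fun l => (SS l).toReal with hs
  set s' : ℕ → ℝ := fun l => (SS' l).toReal with hs'
  have u0 : ∀ l, 0 ≤ u l := fun l => ENNReal.toReal_nonneg
  have r0 : ∀ l, 0 ≤ r l := fun l => ENNReal.toReal_nonneg
  have e0 : ∀ l, 0 ≤ e l := fun l => ENNReal.toReal_nonneg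
  have w0 : ∀ l, 0 ≤ w l := fun l => ENNReal.toReal_nonneg
  have U' : ∀ l, l < n → U l = ENNReal.ofReal (u l) := fun l hl =>
    (ENNReal.ofReal_toReal (hU l hl)).symm
  have R' : ∀ l, l < n → R l = ENNReal.ofReal (r l) := fun l hl =>
    (ENNReal.ofReal_toReal (hR l hl)).symm
  have B' : ∀ l, l < n → B l = ENNReal.ofReal (e l) := fun l hl =>
    (ENNReal.ofReal_toReal (hB l hl)).symm
  have I' : ∀ l, l < n → I l = ENNReal.ofReal (w l) := fun l hl =>
    (ENNReal.ofReal_toReal (hI l hl)).symm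
  have Z : ∀ l, l < n → SS l = ENNReal.ofReal (s l) := fun l hl =>
    (ENNReal.ofReal_toReal (hS l hl)).symm
  have Z' : ∀ l, l < n → SS' l = ENNReal.ofReal (s' l) := fun l hl =>
    (ENNReal.ofReal_toReal (hS' l hl)).symm
  have z0 : ∀ l, 0 ≤ s l := fun l => ENNReal.toReal_nonneg
  have z'0 : ∀ l, 0 ≤ s' l := fun l => ENNReal.toReal_nonneg
  have n20 : (20 : ℝ≥0∞) = ENNReal.ofReal 20 := by norm_num
  have n4 : (4 : ℝ≥0∞) = ENNReal.ofReal 4 := by norm_num
  -- the stars
  have q1 : ∀ l, l < n → s l ≤ s' l + 20 * e l + 4 * w l + 2 * et * r l := by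
    intro l hl
    have h := T1 l hl
    rw [Z l hl, Z' l hl, B' l hl, I' l hl, R' l hl, n20, n4,
      ← ENNReal.ofReal_mul (by norm_num), ← ENNReal.ofReal_mul (by norm_num),
      ← ENNReal.ofReal_mul (by positivity), ← ENNReal.ofReal_add (z'0 l) (by have := e0 l; positivity),
      ← ENNReal.ofReal_add (by have := e0 l; have := z'0 l; positivity)
        (by have := w0 l; positivity),
      ← ENNReal.ofReal_add (by have := e0 l; have := z'0 l; have := w0 l; positivity)
        (by have := r0 l; positivity)] at h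
    exact (ENNReal.ofReal_le_ofReal_iff (by
      have := e0 l; have := z'0 l; have := w0 l; have := r0 l; positivity)).1 h
  have q2 : ∀ l, l < n → r l + C * s' l ≤ C * s l := by
    intro l hl
    have h := hst l hl
    rw [Z l hl, Z' l hl, R' l hl, ← ENNReal.ofReal_mul hC.le, ← ENNReal.ofReal_mul hC.le,
      ← ENNReal.ofReal_add (r0 l) (by have := z'0 l; positivity)] at h
    exact (ENNReal.ofReal_le_ofReal_iff (by have := z0 l; positivity)).1 h
  have q3 : ∀ l, l < n → u l ≤ KU * (e l + 2 * (2 + et) * (r l + w l)) := by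
    intro l hl
    have h := T2 l hl
    rw [U' l hl, B' l hl, I' l hl, R' l hl, ← ENNReal.ofReal_add (r0 l) (w0 l),
      ← ENNReal.ofReal_mul (by positivity),
      ← ENNReal.ofReal_add (e0 l) (by have := r0 l; have := w0 l; positivity),
      ← ENNReal.ofReal_mul hKU] at h
    exact (ENNReal.ofReal_le_ofReal_iff (by
      have := e0 l; have := w0 l; have := r0 l; positivity)).1 h
  have q4 : ∀ l, l < n → r l ≤ 40 * C * (e l + w l) := by
    intro l hl
    have a1 := mul_le_mul_of_nonneg_left (q1 l hl) hC.le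
    have a2 := q2 l hl
    have a3 : 2 * C * et * r l ≤ 1 / 2 * r l := by
      refine mul_le_mul_of_nonneg_right ?_ (r0 l)
      nlinarith only [c4]
    have a4 : 0 ≤ C * w l := mul_nonneg hC.le (w0 l)
    have a5 : 0 ≤ C * e l := mul_nonneg hC.le (e0 l)
    nlinarith only [a1, a2, a3, a4, a5]
  have q5 : ∀ l, l < n → u l + r l ≤ K * (e l + w l) := by
    intro l hl
    have a1 := q3 l hl
    have a2 := q4 l hl
    have a3 : KU * (e l + 2 * (2 + et) * (r l + w l)) ≤ KU * (e l + 6 * (r l + w l)) := by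
      refine mul_le_mul_of_nonneg_left ?_ hKU
      have : 2 * (2 + et) * (r l + w l) ≤ 6 * (r l + w l) :=
        mul_le_mul_of_nonneg_right (by linarith) (add_nonneg (r0 l) (w0 l))
      linarith
    have a4 : (6 * KU + 1) * r l ≤ (6 * KU + 1) * (40 * C * (e l + w l)) :=
      mul_le_mul_of_nonneg_left a2 (by positivity)
    have a5 : 0 ≤ KU * e l := mul_nonneg hKU (e0 l)
    rw [hK]
    nlinarith only [a1, a3, a4, a5]
  have q6 : ∀ l, l + 1 < n → e (l + 1) ≤ kp * u l := by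
    intro l hl
    have h := hcons l hl
    rw [B' _ hl, U' l (by omega), ← ENNReal.ofReal_mul hkp] at h
    exact (ENNReal.ofReal_le_ofReal_iff (by have := u0 l; positivity)).1 h
  have q7 : ∀ l, l < n → w l ≤ ep * ∑ i ∈ Ico l n, b ^ (i - l) * u i +
      ep * ∑ i ∈ range l, k2 ^ (l - i) * u i := by
    intro l hl
    have h := hIB l hl
    have x1 : ∑ i ∈ Ico l n, ENNReal.ofReal (b ^ (i - l)) * U i =
        ENNReal.ofReal (∑ i ∈ Ico l n, b ^ (i - l) * u i) := by
      rw [ENNReal.ofReal_sum_of_nonneg fun i _ => mul_nonneg (pow_nonneg hb _) (u0 i)]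
      refine sum_congr rfl fun i hi => ?_
      rw [U' i (mem_Ico.1 hi).2, ENNReal.ofReal_mul (pow_nonneg hb _)]
    have x2 : ∑ i ∈ range l, ENNReal.ofReal (k2 ^ (l - i)) * U i =
        ENNReal.ofReal (∑ i ∈ range l, k2 ^ (l - i) * u i) := by
      rw [ENNReal.ofReal_sum_of_nonneg fun i _ => mul_nonneg (pow_nonneg hk2 _) (u0 i)]
      refine sum_congr rfl fun i hi => ?_
      rw [U' i ((mem_range.1 hi).trans hl), ENNReal.ofReal_mul (pow_nonneg hk2 _)]
    have y1 : 0 ≤ ∑ i ∈ Ico l n, b ^ (i - l) * u i :=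
      sum_nonneg fun i _ => mul_nonneg (pow_nonneg hb _) (u0 i)
    have y2 : 0 ≤ ∑ i ∈ range l, k2 ^ (l - i) * u i :=
      sum_nonneg fun i _ => mul_nonneg (pow_nonneg hk2 _) (u0 i)
    rw [I' l hl, x1, x2, ← ENNReal.ofReal_mul hep, ← ENNReal.ofReal_mul hep,
      ← ENNReal.ofReal_add (mul_nonneg hep y1) (mul_nonneg hep y2)] at h
    exact (ENNReal.ofReal_le_ofReal_iff (add_nonneg (mul_nonneg hep y1) (mul_nonneg hep y2))).1 h
  have q8 : e 0 ≤ A := by
    have h := hB0
    rw [B' 0 hn] at h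
    exact (ENNReal.ofReal_le_ofReal_iff hA).1 h
  have le4 : ∀ i, u i ≤ u i + r i + e i + w i := fun i => by
    have := r0 i; have := e0 i; have := w0 i; linarith
  obtain ⟨-, hfin⟩ := H148.lin_sys (n := n) (U := u) (R := r) (B := e) (I := w) (K := K) (kp := kp)
    (ep := ep) (b := b) (k2 := k2) (lam := lam) (be := A) (fun l _ => u0 l) (fun l _ => r0 l)
    (fun l _ => e0 l) (fun l _ => w0 l) hK0 hkp hep hb hk2 hlam hA q5 q8
    (fun l hl => (q6 l hl).trans (mul_le_mul_of_nonneg_left (le4 l) hkp))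
    (fun l hl => (q7 l hl).trans (add_le_add
      (mul_le_mul_of_nonneg_left (sum_le_sum fun i _ =>
        mul_le_mul_of_nonneg_left (le4 i) (pow_nonneg hb _)) hep)
      (mul_le_mul_of_nonneg_left (sum_le_sum fun i _ =>
        mul_le_mul_of_nonneg_left (le4 i) (pow_nonneg hk2 _)) hep))) c1 c2 c3
  have hw0 : w 0 ≤ 6 * (K + 1) * ep * A := by
    have h := single_le_sum (f := fun l => lam ^ l * w l) (s := range n)
      (fun l _ => mul_nonneg (pow_nonneg hlam.le _) (w0 l)) (mem_range.2 hn)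
    simp only [pow_zero, one_mul] at h
    exact h.trans hfin
  -- the root
  have hroot' := hroot
  rw [Z' 0 hn, I' 0 hn, R' 0 hn, n4, ← ENNReal.ofReal_mul (by norm_num),
    ← ENNReal.ofReal_mul (by positivity), ← ENNReal.ofReal_add hA (z'0 0),
    ← ENNReal.ofReal_add (by have := z'0 0; positivity) (by have := w0 0; positivity),
    ← ENNReal.ofReal_add (by have := z'0 0; have := w0 0; positivity)
      (by have := r0 0; positivity)] at hroot'
  have hP : P ≠ ⊤ := ne_top_of_le_ne_top (ofne _) (le_self_add.trans hroot')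
  have hPr : P = ENNReal.ofReal P.toReal := (ENNReal.ofReal_toReal hP).symm
  rw [hPr, Z 0 hn, ← ENNReal.ofReal_add ENNReal.toReal_nonneg (z0 0),
    ENNReal.ofReal_le_ofReal_iff (by
      have := z'0 0; have := w0 0; have := r0 0; positivity)] at hroot'
  rw [hPr]
  refine ENNReal.ofReal_le_ofReal ?_
  have a1 := q2 0 hn
  have a2 : 2 * et * r 0 ≤ s 0 - s' 0 := by
    have b1 : 2 * C * et * r 0 ≤ 1 * r 0 :=
      mul_le_mul_of_nonneg_right (by nlinarith only [c4, mul_nonneg hC.le het0]) (r0 0)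
    have b2 : C * (2 * et * r 0) ≤ C * (s 0 - s' 0) := by nlinarith only [a1, b1]
    exact le_of_mul_le_mul_left b2 hC
  have a3 : 4 * w 0 ≤ 1 / 2 * A := by
    have b1 : 6 * (K + 1) * ep * A ≤ 6 / 256 * A := by
      refine mul_le_mul_of_nonneg_right ?_ hA
      nlinarith only [c5]
    linarith
  linarith

/-- the potential decides -/
lemma le_two_of_Psi {th D : ℝ} (hth : 0 ≤ th) (hth1 : th ≤ 1 / 2) (hA : 0 < A)
    (hA8 : 2 * A ≤ 1 / 8) (h : H148.Psi th A (max A D) ≤ 3 / 2 * A) : D ≤ 2 * A := by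
  by_contra hD
  rw [not_le] at hD
  have h1 : max A D = D := max_eq_right (by linarith)
  rw [h1] at h
  have h2 := H148.Psi_sub_ge (th := th) (A := A) hth hA (a := A) (b := 2 * A) (by linarith)
  have h3 := H148.Psi_sub_ge (th := th) (A := A) hth hA (a := 0) (b := A) hA.le
  rw [H148.slope_of_le hA le_rfl, H148.Psi_zero] at h3
  rw [H148.slope_mid (by linarith) hA8, show A / (2 * A) = 1 / 2 by field_simp] at h2
  have h4 := H148.Psi_mono (th := th) (A := A) hth hA (show 2 * A ≤ D by linarith)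
  have h5 : (7 / 10 : ℝ) ≤ (1 / 2) ^ th := by
    have h6 : (1 / 2 : ℝ) ^ (1 / 2 : ℝ) ≤ (1 / 2) ^ th :=
      Real.rpow_le_rpow_of_exponent_ge (by norm_num) (by norm_num) hth1
    refine le_trans ?_ h6
    rw [← Real.sqrt_eq_rpow]
    exact Real.le_sqrt_of_sq_le (by norm_num)
  have h7 : 7 / 10 * (2 * A - A) ≤ (1 / 2 : ℝ) ^ th * (2 * A - A) :=
    mul_le_mul_of_nonneg_right h5 (by linarith)
  linarith

end Vale.Agent.P262.H703
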