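import Vale.Agent.P262.H962.PCap3

/-!
# P262, milestone 2: pointwise majorant for the cap of a child

At the same vector `x` the cap of the child is at most `kap ^ k * exp (‖u‖² / 8)` times the cap of
the parent, `u` the own coordinates of the child over the parent, `k` their number.
-/

set_option linter.all false

open MeasureTheory ProbabilityTheory Set
open scoped ENNReal NNReal RealInnerProductSpace

namespace Vale.Agent.P262.H703

open Vale.Agent.P262.H395 (fib Inv)
open Vale.Agent.P262.H606 (dw)
open Vale.Agent.P262.H962 (PB capS isClosed_PB PB_nonempty proj_of_le proj_of_ge)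

variable {E : Type*} [NormedAddCommGroup E] [InnerProductSpace ℝ E] [FiniteDimensional ℝ E]
  [MeasurableSpace E] [BorelSpace E]

variable {l : List (Submodule ℝ E)} {W W' : Submodule ℝ E} {q : ℝ} {A0 kap s : ℝ}

/-- distance to the prefix ball of the child -/
theorem infDist_child_sq (hW : W ∈ l ∨ W = ⊥) (h1 : ∀ V ∈ l, V ≤ W) (hWW : W ≤ W') (hq : 0 ≤ q)
    (x : E) :
    Metric.infDist x (PB (l ++ [W']) q) ^ 2 ≤
      Metric.infDist x (PB l q) ^ 2 + ‖W'.starProjection x - W.starProjection x‖ ^ 2 := by
  obtain ⟨p, hp, hp'⟩ := (isClosed_PB l q).exists_infDist_eq_dist (PB_nonempty l hq) x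
  rw [hp', dist_eq_norm]
  set y : E := W.starProjection p + (x - W'.starProjection x) with hy
  have e0 : ∀ z : E, W'.starProjection (z - W'.starProjection z) = 0 := fun z => by
    rw [map_sub, proj_of_le le_rfl, sub_self]
  have eW : W'.starProjection (W.starProjection p) = W.starProjection p :=
    proj_of_ge hWW p
  have eW' : W'.starProjection y = W.starProjection p := by
    rw [hy, map_add, eW, e0, add_zero]
  have hyB : y ∈ PB (l ++ [W']) q := by
    intro V hV
    rcases List.mem_append.1 hV with hV | hV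
    · have h2 := h1 V hV
      have h3 : V.starProjection y = V.starProjection p := by
        rw [← proj_of_le (h2.trans hWW) y, eW', proj_of_le h2]
      rw [h3]
      exact hp V hV
    · rw [List.mem_singleton] at hV
      subst hV
      rw [eW']
      have hd : (Module.finrank ℝ W : ℝ) ≤ Module.finrank ℝ V := by
        exact_mod_cast Submodule.finrank_mono hWW
      rcases hW with hW | hW
      · exact (hp W hW).trans (mul_le_mul_of_nonneg_left hd hq)
      · subst hW
        rw [Submodule.starProjection_bot]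
        have h0 : (0:ℝ) ≤ q * Module.finrank ℝ V := mul_nonneg hq (Nat.cast_nonneg _)
        simpa using h0
  have h2 : Metric.infDist x (PB (l ++ [W']) q) ≤ ‖x - y‖ := by
    have := Metric.infDist_le_dist_of_mem (x := x) hyB
    rwa [dist_eq_norm] at this
  have h3 : x - y = W.starProjection (x - p) + (W'.starProjection x - W.starProjection x) := by
    rw [hy, map_sub]; abel
  have h4 : ⟪W.starProjection (x - p), W'.starProjection x - W.starProjection x⟫ = 0 := by
    have h5 : W'.starProjection x - W.starProjection x ∈ Wᗮ := by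
      rw [← Submodule.starProjection_apply_eq_zero_iff, map_sub, proj_of_le hWW, proj_of_le le_rfl,
        sub_self]
    exact Submodule.inner_right_of_mem_orthogonal (Submodule.starProjection_apply_mem W _) h5
  have h5 : ‖x - y‖ ^ 2 = ‖W.starProjection (x - p)‖ ^ 2 +
      ‖W'.starProjection x - W.starProjection x‖ ^ 2 := by
    rw [h3, norm_add_sq_real, h4]
    ring
  have h6 : ‖W.starProjection (x - p)‖ ≤ ‖x - p‖ := Submodule.norm_starProjection_apply_le W _
  have h7 := norm_nonneg (W.starProjection (x - p))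
  calc Metric.infDist x (PB (l ++ [W']) q) ^ 2 ≤ ‖x - y‖ ^ 2 := by
        have := Metric.infDist_nonneg (x := x) (s := PB (l ++ [W']) q)
        gcongr
    _ ≤ _ := by
        rw [h5]
        gcongr

/-- **pointwise majorant of the cap of a child** -/
theorem capS_child_le (hW : W ∈ l ∨ W = ⊥) (h1 : ∀ V ∈ l, V ≤ W) (hWW : W ≤ W') (hq : 0 ≤ q)
    (hA : 0 < A0) (hk : 0 < kap) (hs : 0 ≤ s) (x : E) :
    capS A0 kap q s (l ++ [W']) W' x ≤
      ENNReal.ofReal ((kap ^ (Module.finrank ℝ W' - Module.finrank ℝ W) *
        Real.exp (‖W'.starProjection x - W.starProjection x‖ ^ 2 / 8)) ^ s) *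
        capS A0 kap q s l W x := by
  unfold capS dw
  have h4 : kap ^ Module.finrank ℝ W' =
      kap ^ (Module.finrank ℝ W' - Module.finrank ℝ W) * kap ^ Module.finrank ℝ W := by
    rw [← pow_add, Nat.sub_add_cancel (Submodule.finrank_mono hWW)]
  set k := kap ^ (Module.finrank ℝ W' - Module.finrank ℝ W) with hkd
  have hk0 : 0 < k := by positivity
  have h5 := infDist_child_sq (q := q) hW h1 hWW hq x
  set d' := Metric.infDist x (PB (l ++ [W']) q)
  set d := Metric.infDist x (PB l q)
  set u := ‖W'.starProjection x - W.starProjection x‖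
  rw [h4, ← ENNReal.ofReal_mul (by positivity), ← ENNReal.ofReal_mul (by positivity),
    ← ENNReal.ofReal_mul (by positivity)]
  apply ENNReal.ofReal_le_ofReal
  have e1 : (A0 * (k * kap ^ Module.finrank ℝ W)) ^ s = k ^ s * (A0 * kap ^ Module.finrank ℝ W) ^ s := by
    rw [show A0 * (k * kap ^ Module.finrank ℝ W) = k * (A0 * kap ^ Module.finrank ℝ W) by ring]
    exact Real.mul_rpow hk0.le (by positivity)
  have e2 : (k * Real.exp (u ^ 2 / 8)) ^ s = k ^ s * Real.exp (s / 8 * u ^ 2) := by
    rw [Real.mul_rpow hk0.le (Real.exp_nonneg _), ← Real.exp_mul]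
    congr 2
    ring
  rw [e1, e2]
  have h6 : Real.exp (s / 8 * d' ^ 2) ≤ Real.exp (s / 8 * u ^ 2) * Real.exp (s / 8 * d ^ 2) := by
    rw [← Real.exp_add]
    apply Real.exp_le_exp.mpr
    have : 0 ≤ s / 8 := by linarith
    nlinarith [mul_le_mul_of_nonneg_left h5 this]
  have h7 : 0 ≤ k ^ s * (A0 * kap ^ Module.finrank ℝ W) ^ s := by positivity
  calc k ^ s * (A0 * kap ^ Module.finrank ℝ W) ^ s * Real.exp (s / 8 * d' ^ 2)
      ≤ k ^ s * (A0 * kap ^ Module.finrank ℝ W) ^ s *
        (Real.exp (s / 8 * u ^ 2) * Real.exp (s / 8 * d ^ 2)) :=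
        mul_le_mul_of_nonneg_left h6 h7
    _ = _ := by ring

end Vale.Agent.P262.H703
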