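import Vale.Agent.P262.H703.FamS
import Vale.Agent.P262.H606.Mom
import Vale.Agent.P262.M2.Unfold

/-!
# P262, milestone 2: `Fam.Dir` on `M2.Sys` for every weight below the cap weight

`S.famT m wt` is the family of 274's `Unfold`.  For every weight `wt c r ≤ wtf (W r) (W (c :: r))`
all fields of 711's `Fam.Dir` hold, with `D = DD`, `Dk`, `Hn = hnf` (606) and `p` = 118's mass of a
layer which is invariant along the direction.
-/

set_option linter.all false

open MeasureTheory ProbabilityTheory Set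
open scoped ENNReal NNReal RealInnerProductSpace
open Vale.Agent.P262.H118 (Iv st en ON rotE tau wd wrd Mg Piece K2 El2 paths)
open Vale.Agent.P262.H395 (fib mix Inv inv_fib fib_add)

namespace Vale.Agent.P262.M2

namespace Sys

variable {E : Type*} [NormedAddCommGroup E] [InnerProductSpace ℝ E] [FiniteDimensional ℝ E]
  [MeasurableSpace E] [BorelSpace E] (S : Sys E)

/-- Harnack factor on the system, 606's form -/
noncomputable def hnS (m c : ℕ) (r : List ℕ) (y : E) : ℝ≥0∞ :=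
  H606.hnf (S.W r m) (S.W (c :: r) m) y

lemma hnS_eq (m c : ℕ) (r : List ℕ) (y : E) :
    S.hnS m c r y = ENNReal.ofReal (2 * Real.exp (9 + 8 / 15 * ‖S.ow r c m y‖ ^ 2)) := rfl

lemma hnS_meas (m c : ℕ) (r : List ℕ) : Measurable (S.hnS m c r) := H606.measurable_hnf _ _

lemma hnS_add (m c : ℕ) (r : List ℕ) (y : E) {w : E} (hw : w ∈ S.W r m) :
    S.hnS m c r (y + w) = S.hnS m c r y := by
  rw [S.hnS_eq, S.hnS_eq, S.ow_add c r m y hw]

/-- **Harnack** in the form of the family -/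
theorem DD_child_le {m : ℕ} (hm : S.mv.tm m < S.T) (c : ℕ) (r : List ℕ) (y : E) :
    S.DD (c :: r) m y ≤ S.hnS m c r y * S.Dk c r m y := S.harnack hm c r y

/-- **all facts along a direction of the base node `q`**, the moment left as a hypothesis -/
theorem famT_dir_of {m : ℕ} (hm : S.mv.tm m < S.T) {wt : ℕ → List ℕ → E → ℝ≥0∞} {q : List ℕ}
    {e : E} (he : e ∈ S.W q m)
    {L : Set E} (hL : MeasurableSet L) (hLe : ∀ y ∈ L, ∀ t : ℝ, y + t • e ∈ L) {α β : ℝ}
    {κ : ℝ≥0∞} (hmom : ∀ r x, q <:+ r → ¬ S.Leaf r m → fib (S.W r m) (fun y =>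
      wt (S.kl r m x) r y * (S.hnS m (S.kl r m x) r y ^ α *
        S.mu q L (S.kl r m x :: r) m y ^ β)) x ≤ κ * S.mu q L r m x ^ β) :
    (S.famT m wt).Dir (fun r => q <:+ r) e S.thr α β κ (fun r => S.DD r m) (fun c r => S.Dk c r m)
      (fun c r => S.hnS m c r) (fun r => S.mu q L r m) where
  e_mem := fun r h => S.W_mono h m he
  kl_conv := fun r _ c x a t b hat htb ha hb => S.kl_line r m c x e hat htb ha hb
  D_qc := fun r _ x a t b hat htb => S.DD_line r m x e hat htb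
  thr_le := fun r x _ => S.thr_le_Dk r m x
  le_thr := fun r x _ h => (S.Dk_lt_thr hm h).le
  Dk_le := fun r x _ => S.Dk_le_DD _ r hm x
  Dk_inv := fun c r _ => S.Dk_inv c r hm
  Hn_meas := fun c r => S.hnS_meas m c r
  Hn_add := fun c r _ y w hw => S.hnS_add m c r y hw
  child := fun r y _ _ => S.DD_child_le hm _ r y
  p_meas := fun r => mu_meas hL
  p_add := fun r h x t => mu_layer_add h he hLe t x
  moment := fun r x h hl => hmom r x h hl

/-- the moment along one step, `th = 1/2` -/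
theorem mom_step {m : ℕ} (hm : S.mv.tm m < S.T) {wt : ℕ → List ℕ → E → ℝ≥0∞}
    (hwt : ∀ c r y, wt c r y ≤ H606.wtf (S.W r m) (S.W (c :: r) m) S.kap (1 / 2) y)
    {q : List ℕ} {L : Set E} (hL : MeasurableSet L) {α β : ℝ}
    (hab : (α = 1 / 2 ∧ β = 0) ∨ (α = 1 / 4 ∧ β = 1 / 4)) {r : List ℕ} (hr : q <:+ r)
    (hl : ¬ S.Leaf r m) (c : ℕ) (x : E) :
    fib (S.W r m) (fun y => wt c r y * (S.hnS m c r y ^ α * S.mu q L (c :: r) m y ^ β)) x ≤
      ENNReal.ofReal ((256 * S.kap ^ (1 / 2 : ℝ)) ^ S.dO m c r) * S.mu q L r m x ^ β := by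
  have hd := S.one_le_dO hm hl c
  have hW := S.W_le c r m
  have ht := mu_tower (S := S) (m := m) hr hL c x
  rcases hab with ⟨rfl, rfl⟩ | ⟨rfl, rfl⟩
  · have h := H606.mom_half hW S.hkap.le hd (hwt c r)
      (fun y => le_rfl (a := S.hnS m c r y)) (mu_meas (S := S) (q := q) (r := c :: r) (m := m) hL) x
    rwa [ht] at h
  · have h := H606.mom_half' hW S.hkap.le hd (hwt c r)
      (fun y => le_rfl (a := S.hnS m c r y)) (mu_meas (S := S) (q := q) (r := c :: r) (m := m) hL) x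
    rwa [ht] at h

lemma pow_dO_le {m : ℕ} (hm : S.mv.tm m < S.T) (hk : 256 * S.kap ^ (1 / 2 : ℝ) ≤ 1)
    {r : List ℕ} (hl : ¬ S.Leaf r m) (c : ℕ) :
    ENNReal.ofReal ((256 * S.kap ^ (1 / 2 : ℝ)) ^ S.dO m c r) ≤
      ENNReal.ofReal (256 * S.kap ^ (1 / 2 : ℝ)) := by
  apply ENNReal.ofReal_le_ofReal
  have h0 : 0 ≤ 256 * S.kap ^ (1 / 2 : ℝ) := by
    have := Real.rpow_nonneg S.hkap.le (1 / 2 : ℝ)
    positivity
  exact pow_le_of_le_one h0 hk (by have := S.one_le_dO hm hl c; omega)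

/-- **`Fam.Dir` on the system**, `th = 1/2` -/
theorem famT_dir {m : ℕ} (hm : S.mv.tm m < S.T) {wt : ℕ → List ℕ → E → ℝ≥0∞}
    (hwt : ∀ c r y, wt c r y ≤ H606.wtf (S.W r m) (S.W (c :: r) m) S.kap (1 / 2) y)
    (hk : 256 * S.kap ^ (1 / 2 : ℝ) ≤ 1) {q : List ℕ} {e : E} (he : e ∈ S.W q m)
    {L : Set E} (hL : MeasurableSet L) (hLe : ∀ y ∈ L, ∀ t : ℝ, y + t • e ∈ L) {α β : ℝ}
    (hab : (α = 1 / 2 ∧ β = 0) ∨ (α = 1 / 4 ∧ β = 1 / 4)) :
    (S.famT m wt).Dir (fun r => q <:+ r) e S.thr α β (ENNReal.ofReal (256 * S.kap ^ (1 / 2 : ℝ)))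
      (fun r => S.DD r m) (fun c r => S.Dk c r m)
      (fun c r => S.hnS m c r) (fun r => S.mu q L r m) :=
  S.famT_dir_of hm he hL hLe fun r x hr hl =>
    (S.mom_step hm hwt hL hab hr hl _ x).trans (mul_le_mul' (S.pow_dO_le hm hk hl _) le_rfl)

/-- structural facts for every weight which is measurable and constant along the label space of
the parent -/
theorem famT_str {m : ℕ} (hm : S.mv.tm m < S.T) {wt : ℕ → List ℕ → E → ℝ≥0∞}
    (hw : ∀ c r, Measurable (wt c r)) (hwa : ∀ c r y, ∀ w ∈ S.W r m, wt c r (y + w) = wt c r y)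
    (q : List ℕ) : (S.famT m wt).Str (fun r => q <:+ r) S.cm where
  ok_ch := fun r x h _ => h.trans (List.suffix_cons _ _)
  kl_inv := fun r _ => kl_inv r hm
  kl_meas := fun r => measurable_kl r m
  kl_le := fun r x _ => kl_le_cm r m x
  wt_meas := hw
  wt_add := fun c r _ y w hw' => hwa c r y w hw'

end Sys

end Vale.Agent.P262.M2
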