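import Vale.Agent.P262.H703.FamD
import Vale.Agent.P262.H148.Fam

/-!
# P262, milestone 2: `Fam.Dir` for 148's family `S.fam m`
-/

set_option linter.all false

open MeasureTheory ProbabilityTheory Set
open scoped ENNReal NNReal RealInnerProductSpace
open Vale.Agent.P262.H395 (fib mix Inv inv_fib fib_add)

namespace Vale.Agent.P262.M2

namespace Sys

variable {E : Type*} [NormedAddCommGroup E] [InnerProductSpace ℝ E] [FiniteDimensional ℝ E]
  [MeasurableSpace E] [BorelSpace E] (S : Sys E)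

/-- one base of the geometric decay -/
noncomputable def kp1 : ℝ := 256 * S.kap ^ (1 / 2 : ℝ)

lemma kp1_nonneg : 0 ≤ S.kp1 := by
  unfold kp1
  have := Real.rpow_nonneg S.hkap.le (1 / 2 : ℝ)
  positivity

lemma cw_le_wtf (hth : S.th = 1 / 2) (c : ℕ) (r : List ℕ) (m : ℕ) (y : E) :
    S.cw (c :: r) m y ≤ H606.wtf (S.W r m) (S.W (c :: r) m) S.kap (1 / 2) y := by
  rw [S.cw_cons, hth]
  exact le_rfl

/-- the moment along one step -/
theorem mom_cw {m : ℕ} (hm : S.mv.tm m < S.T) (hth : S.th = 1 / 2)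
    {q : List ℕ} {L : Set E} (hL : MeasurableSet L) {α β : ℝ}
    (hab : (α = 1 / 2 ∧ β = 0) ∨ (α = 1 / 4 ∧ β = 1 / 4)) {r : List ℕ} (hr : q <:+ r)
    (hl : ¬ S.Leaf r m) (c : ℕ) (x : E) :
    fib (S.W r m) (fun y => S.cw (c :: r) m y * (S.hn c r m y ^ α * S.mu q L (c :: r) m y ^ β)) x ≤
      ENNReal.ofReal (S.kp1 ^ S.od r c m) * S.mu q L r m x ^ β :=
  S.mom_step (wt := fun c r => S.cw (c :: r) m) hm (fun c r y => S.cw_le_wtf hth c r m y) hL hab
    hr hl c x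

/-- **`Fam.Dir` for `S.fam m`** -/
theorem fam_dir {m : ℕ} (hm : S.mv.tm m < S.T) (hth : S.th = 1 / 2) (hk : S.kp1 ≤ 1)
    {q : List ℕ} {e : E} (he : e ∈ S.W q m) {L : Set E} (hL : MeasurableSet L)
    (hLe : ∀ y ∈ L, ∀ t : ℝ, y + t • e ∈ L) {α β : ℝ}
    (hab : (α = 1 / 2 ∧ β = 0) ∨ (α = 1 / 4 ∧ β = 1 / 4)) :
    (S.fam m).Dir (fun r => q <:+ r) e S.thr α β (ENNReal.ofReal S.kp1)
      (fun r => S.DD r m) (fun c r => S.Dk c r m)
      (fun c r => S.hn c r m) (fun r => S.mu q L r m) :=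
  S.famT_dir (wt := fun c r => S.cw (c :: r) m) hm (fun c r y => S.cw_le_wtf hth c r m y) hk he hL
    hLe hab

end Sys

end Vale.Agent.P262.M2
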