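import Vale.Agent.P262.H703.Rg2
import Vale.Agent.P262.H711.Dirn
import Vale.Agent.P262.H118.Lay

/-!
# P262, milestone 2: facts for the instance of the family `H711.Fam` on `M2.Sys`
-/

set_option linter.all false

open MeasureTheory ProbabilityTheory Set
open scoped ENNReal NNReal RealInnerProductSpace
open Vale.Agent.P262.H118 (Iv st en ON rotE tau wd wrd Mg Piece K2 El2 paths)
open Vale.Agent.P262.H395 (fib mix Inv inv_fib fib_add)

namespace Vale.Agent.P262.M2

namespace Sys

variable {E : Type*} [NormedAddCommGroup E] [InnerProductSpace ℝ E] [FiniteDimensional ℝ E]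
  [MeasurableSpace E] [BorelSpace E] (S : Sys E)

/-- own dimension of the child `c :: r` over `r` -/
noncomputable def dO (m c : ℕ) (r : List ℕ) : ℕ :=
  Module.finrank ℝ (S.W (c :: r) m) - Module.finrank ℝ (S.W r m)

lemma ow_eq (r : List ℕ) (c m : ℕ) (y : E) :
    S.ow r c m y = H711.own (S.W r m) (S.W (c :: r) m) y := rfl

lemma kd_eq_dO (m c : ℕ) (r : List ℕ) : S.K.kd (c :: r) (S.mv.tm m) = S.dO m c r :=
  S.K.kd_cons c r _

/-- non leaf: at least one own coordinate -/
lemma one_le_dO {m : ℕ} (hm : S.mv.tm m < S.T) {r : List ℕ} (hr : ¬ S.Leaf r m) (c : ℕ) :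
    1 ≤ S.dO m c r := by
  rw [← S.kd_eq_dO]
  refine S.K.one_le_kd hm ?_
  have h : ¬ Module.finrank ℝ (S.W r m)ᗮ ≤ 1 := hr
  have h2 : Module.finrank ℝ (S.K.W r (S.mv.tm m))ᗮ = Module.finrank ℝ (S.W r m)ᗮ := rfl
  omega

lemma ow_add (c : ℕ) (r : List ℕ) (m : ℕ) (y : E) {w : E} (hw : w ∈ S.W r m) :
    S.ow r c m (y + w) = S.ow r c m y := by
  rw [S.ow_eq, S.ow_eq, H711.own_add_mem (S.W_le c r m) hw]

lemma continuous_ow (c : ℕ) (r : List ℕ) (m : ℕ) : Continuous (S.ow r c m) :=
  H711.continuous_own _ _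

/-- quasi-convexity on a line -/
lemma line_qc {f : E → ℝ≥0∞} (hf : ∀ {x y : E} {s t : ℝ}, 0 ≤ s → 0 ≤ t → s + t = 1 →
    f (s • x + t • y) ≤ max (f x) (f y)) (x e : E) {a t b : ℝ} (hat : a ≤ t) (htb : t ≤ b) :
    f (x + t • e) ≤ max (f (x + a • e)) (f (x + b • e)) := by
  rcases (hat.trans htb).eq_or_lt with h0 | h0
  · have : t = a := le_antisymm (h0 ▸ htb) hat
    rw [this]; exact le_max_left _ _
  · have h2 : (0:ℝ) < b - a := by linarith
    have e1 : x + t • e = ((b - t) / (b - a)) • (x + a • e) + ((t - a) / (b - a)) • (x + b • e) := by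
      have e2 : (b - t) / (b - a) + (t - a) / (b - a) = 1 := by field_simp; ring
      have e3 : (b - t) / (b - a) * a + (t - a) / (b - a) * b = t := by
        field_simp; ring
      calc x + t • e = ((b - t) / (b - a) + (t - a) / (b - a)) • x +
            ((b - t) / (b - a) * a + (t - a) / (b - a) * b) • e := by
            rw [e2, e3, one_smul]
        _ = _ := by module
    rw [e1]
    exact hf (div_nonneg (by linarith) h2.le) (div_nonneg (by linarith) h2.le)
      (by field_simp; ring)

lemma kl_line (r : List ℕ) (m c : ℕ) (x e : E) {a t b : ℝ} (hat : a ≤ t) (htb : t ≤ b)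
    (ha : c ≤ S.kl r m (x + a • e)) (hb : c ≤ S.kl r m (x + b • e)) :
    c ≤ S.kl r m (x + t • e) := by
  rcases (hat.trans htb).eq_or_lt with h0 | h0
  · have : t = a := le_antisymm (h0 ▸ htb) hat
    rw [this]; exact ha
  · have h2 : (0:ℝ) < b - a := by linarith
    have e1 : x + t • e = ((b - t) / (b - a)) • (x + a • e) + ((t - a) / (b - a)) • (x + b • e) := by
      have e2 : (b - t) / (b - a) + (t - a) / (b - a) = 1 := by field_simp; ring
      have e3 : (b - t) / (b - a) * a + (t - a) / (b - a) * b = t := by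
        field_simp; ring
      calc x + t • e = ((b - t) / (b - a) + (t - a) / (b - a)) • x +
            ((b - t) / (b - a) * a + (t - a) / (b - a) * b) • e := by
            rw [e2, e3, one_smul]
        _ = _ := by module
    rw [e1]
    exact S.convex_kl r m c ha hb (div_nonneg (by linarith) h2.le) (div_nonneg (by linarith) h2.le)
      (by field_simp; ring)

lemma DD_line (r : List ℕ) (m : ℕ) (x e : E) {a t b : ℝ} (hat : a ≤ t) (htb : t ≤ b) :
    S.DD r m (x + t • e) ≤ max (S.DD r m (x + a • e)) (S.DD r m (x + b • e)) :=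
  line_qc (fun hs ht hst => S.DD_quasi r m hs ht hst) x e hat htb

end Sys

end Vale.Agent.P262.M2
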