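import Vale.Agent.P262.H395.Tree

/-!
# P262, accounting of the healthy labels: the recursive field

`phi θ c x = (1 - (c/x)^θ)_+`, `tr θ c x = x * phi θ c x`. Along a label dependent tree the
recursive value is `rv (node W a c T) f = tr (M a) (fib W (rv (T (c ·)) f))`, and the field is
the payoff with the weight `∏ phi (M a_k) F_k`.
-/

set_option linter.all false

open MeasureTheory ProbabilityTheory Set
open scoped ENNReal RealInnerProductSpace

namespace Vale.Agent.P262.H703

open Vale.Agent.P262.H395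

/-- the weight of a level with cap `c` and value `x` -/
noncomputable def phi (θ : ℝ) (c x : ℝ≥0∞) : ℝ≥0∞ := 1 - (c / x) ^ θ

/-- the truncated value -/
noncomputable def tr (θ : ℝ) (c x : ℝ≥0∞) : ℝ≥0∞ := x * phi θ c x

section scalar

variable {θ : ℝ} {c x y : ℝ≥0∞}

lemma phi_le_one (θ : ℝ) (c x : ℝ≥0∞) : phi θ c x ≤ 1 := tsub_le_self

lemma tr_le (θ : ℝ) (c x : ℝ≥0∞) : tr θ c x ≤ x :=
  (mul_le_mul' le_rfl (phi_le_one θ c x)).trans_eq (mul_one x)

lemma phi_mono (hθ : 0 ≤ θ) (h : x ≤ y) : phi θ c x ≤ phi θ c y := by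
  unfold phi
  exact tsub_le_tsub_left (ENNReal.rpow_le_rpow (ENNReal.div_le_div_left h c) hθ) 1

lemma tr_mono (hθ : 0 ≤ θ) (h : x ≤ y) : tr θ c x ≤ tr θ c y :=
  mul_le_mul' h (phi_mono hθ h)

lemma phi_anti (hθ : 0 ≤ θ) {c c' : ℝ≥0∞} (h : c ≤ c') : phi θ c' x ≤ phi θ c x := by
  unfold phi
  exact tsub_le_tsub_left (ENNReal.rpow_le_rpow (ENNReal.div_le_div_right h x) hθ) 1

lemma tr_anti (hθ : 0 ≤ θ) {c c' : ℝ≥0∞} (h : c ≤ c') : tr θ c' x ≤ tr θ c x :=
  mul_le_mul' le_rfl (phi_anti hθ h)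

lemma tr_eq_zero (hθ : 0 ≤ θ) (h : x ≤ c) (hx : x ≠ ∞) : tr θ c x = 0 := by
  unfold tr
  rcases eq_or_ne x 0 with rfl | h0
  · simp
  have h1 : 1 ≤ c / x := by
    rw [ENNReal.le_div_iff_mul_le (Or.inl h0) (Or.inl hx), one_mul]
    exact h
  have h2 : 1 ≤ (c / x) ^ θ := by
    have := ENNReal.rpow_le_rpow h1 hθ
    rwa [ENNReal.one_rpow] at this
  unfold phi
  rw [tsub_eq_zero_of_le h2, mul_zero]

/-- the removed mass -/
lemma rem_eq (hθ : 0 < θ) (h0 : x ≠ 0) (hx : x ≠ ∞) :
    x * (c / x) ^ θ = c ^ θ * x ^ (1 - θ) := by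
  rw [ENNReal.div_rpow_of_nonneg _ _ hθ.le, div_eq_mul_inv, ← ENNReal.rpow_neg,
    mul_left_comm]
  congr 1
  conv_lhs => rw [← ENNReal.rpow_one x, ← ENNReal.rpow_mul, one_mul, ← ENNReal.rpow_add _ _ h0 hx]
  rw [sub_eq_add_neg]

lemma rem_le (hθ : 0 < θ) (hx : x ≠ ∞) : x * (c / x) ^ θ ≤ c ^ θ * x ^ (1 - θ) := by
  rcases eq_or_ne x 0 with rfl | h0
  · simp
  · exact (rem_eq hθ h0 hx).le

lemma rem_mono (hθ : 0 < θ) (hθ1 : θ ≤ 1) (h : x ≤ y) (hy : y ≠ ∞) :
    x * (c / x) ^ θ ≤ y * (c / y) ^ θ := by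
  rcases eq_or_ne x 0 with rfl | h0
  · simp
  have hx : x ≠ ∞ := ne_top_of_le_ne_top hy h
  have hy0 : y ≠ 0 := fun h' => h0 (le_antisymm (h.trans h'.le) zero_le)
  rw [rem_eq hθ h0 hx, rem_eq hθ hy0 hy]
  exact mul_le_mul' le_rfl (ENNReal.rpow_le_rpow h (by linarith))

lemma tr_eq (hx : x ≠ ∞) : tr θ c x = x - x * (c / x) ^ θ := by
  unfold tr phi
  rw [ENNReal.mul_sub (fun _ _ => hx), mul_one]

/-- `x ≤ tr x + c^θ x^{1-θ}` -/
lemma le_tr_add (hθ : 0 < θ) (hx : x ≠ ∞) : x ≤ tr θ c x + c ^ θ * x ^ (1 - θ) := by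
  rw [tr_eq hx]
  calc x ≤ x - x * (c / x) ^ θ + x * (c / x) ^ θ := le_tsub_add
    _ ≤ _ := by exact add_le_add le_rfl (rem_le hθ hx)

/-- `tr` has slope at most one, and vanishes below the cap -/
lemma tr_le_add (hθ : 0 < θ) (hθ1 : θ ≤ 1) (h : x ≤ y) (hy : y ≠ ∞) :
    tr θ c y ≤ tr θ c x + (if c < y then 1 else 0) * (y - x) := by
  have hx : x ≠ ∞ := ne_top_of_le_ne_top hy h
  by_cases hc : c < y
  · rw [if_pos hc, one_mul, tr_eq hx, tr_eq hy]
    have h1 := rem_mono (c := c) hθ hθ1 h hy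
    calc y - y * (c / y) ^ θ ≤ y - x * (c / x) ^ θ := tsub_le_tsub_left h1 _
      _ ≤ (x - x * (c / x) ^ θ) + (y - x) := by
        rw [tsub_le_iff_right]
        calc y = x + (y - x) := (add_tsub_cancel_of_le h).symm
          _ ≤ (x - x * (c / x) ^ θ + x * (c / x) ^ θ) + (y - x) := by
            gcongr; exact le_tsub_add
          _ = _ := by ring
  · rw [if_neg hc, zero_mul, add_zero, tr_eq_zero hθ.le (not_lt.mp hc) hy]
    exact zero_le

/-- weighted AM-GM -/
lemma amgm (hθ : 0 < θ) (hθ1 : θ < 1) (hx : x ≠ ∞) (hy : y ≠ ∞) :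
    y ^ θ * x ^ (1 - θ) ≤ ENNReal.ofReal θ * y + ENNReal.ofReal (1 - θ) * x := by
  have h1 : (0 : ℝ) ≤ 1 - θ := by linarith
  have h := Real.geom_mean_le_arith_mean2_weighted hθ.le h1
    (ENNReal.toReal_nonneg (a := y)) (ENNReal.toReal_nonneg (a := x)) (by ring)
  have e : y ^ θ * x ^ (1 - θ) = ENNReal.ofReal (y.toReal ^ θ * x.toReal ^ (1 - θ)) := by
    rw [ENNReal.ofReal_mul (Real.rpow_nonneg ENNReal.toReal_nonneg _),
      ← ENNReal.ofReal_rpow_of_nonneg ENNReal.toReal_nonneg hθ.le,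
      ← ENNReal.ofReal_rpow_of_nonneg ENNReal.toReal_nonneg h1, ENNReal.ofReal_toReal hy,
      ENNReal.ofReal_toReal hx]
  rw [e]
  refine (ENNReal.ofReal_le_ofReal h).trans ?_
  rw [ENNReal.ofReal_add (mul_nonneg hθ.le ENNReal.toReal_nonneg)
    (mul_nonneg h1 ENNReal.toReal_nonneg), ENNReal.ofReal_mul hθ.le, ENNReal.ofReal_mul h1,
    ENNReal.ofReal_toReal hy, ENNReal.ofReal_toReal hx]

/-- the missing slope at a level with cap `c` and value `y` (it vanishes for the cap `0`) -/
noncomputable def qq (θ : ℝ) (c y : ℝ≥0∞) : ℝ≥0∞ :=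
  if c < y ∨ c = 0 then ENNReal.ofReal (1 - θ) * (c / y) ^ θ else 1

lemma qq_zero (hθ : 0 < θ) : qq θ 0 y = 0 := by
  unfold qq
  rw [if_pos (Or.inr rfl), ENNReal.zero_div, ENNReal.zero_rpow_of_pos hθ, mul_zero]

lemma qq_le_one (hθ : 0 ≤ θ) : qq θ c y ≤ 1 := by
  unfold qq
  split_ifs with h
  · have h1 : (c / y) ^ θ ≤ 1 := by
      rw [← ENNReal.one_rpow θ]
      refine ENNReal.rpow_le_rpow ?_ hθ
      refine ENNReal.div_le_of_le_mul ?_
      rw [one_mul]
      rcases h with h | h
      · exact h.le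
      · rw [h]; exact zero_le
    calc ENNReal.ofReal (1 - θ) * (c / y) ^ θ ≤ 1 * 1 := by
          refine mul_le_mul' ?_ h1
          rw [← ENNReal.ofReal_one]
          exact ENNReal.ofReal_le_ofReal (by linarith)
      _ = 1 := one_mul 1
  · exact le_rfl

/-- the weight of a level is at most the missing slope -/
lemma min_le_qq (hθ : 0 ≤ θ) {M a : ℝ≥0∞} (hM : 1 ≤ ENNReal.ofReal (1 - θ) * M ^ θ) :
    min 1 ((a / y) ^ θ) ≤ qq θ (M * a) y := by
  unfold qq
  split_ifs with h
  · refine (min_le_right _ _).trans ?_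
    rw [mul_div_assoc, ENNReal.mul_rpow_of_nonneg _ _ hθ, ← mul_assoc]
    calc (a / y) ^ θ = 1 * (a / y) ^ θ := (one_mul _).symm
      _ ≤ _ := by gcongr
  · exact min_le_left _ _

/-- `qq` is antitone in the value -/
lemma qq_anti (hθ : 0 ≤ θ) {y' : ℝ≥0∞} (h : y ≤ y') : qq θ c y' ≤ qq θ c y := by
  by_cases h1 : c < y ∨ c = 0
  · have h2 : c < y' ∨ c = 0 := h1.imp (fun h1 => h1.trans_le h) id
    unfold qq
    rw [if_pos h1, if_pos h2]
    gcongr
  · have : qq θ c y = 1 := by unfold qq; rw [if_neg h1]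
    rw [this]
    exact qq_le_one hθ

/-- **one node step**: `tr` is convex with slope `1 - qq` at `y` -/
lemma tr_le_slope (hθ : 0 < θ) (hθ1 : θ < 1) (h : x ≤ y) (hy : y ≠ ∞) :
    tr θ c y ≤ tr θ c x + (1 - qq θ c y) * (y - x) := by
  have hx : x ≠ ∞ := ne_top_of_le_ne_top hy h
  rcases eq_or_ne c 0 with rfl | hcz
  · have e : ∀ z, tr θ 0 z = z := fun z => by
      unfold tr phi
      rw [ENNReal.zero_div, ENNReal.zero_rpow_of_pos hθ, tsub_zero, mul_one]
    rw [e, e, qq_zero hθ, tsub_zero, one_mul, add_tsub_cancel_of_le h]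
  by_cases hc : c < y
  · have hy0 : y ≠ 0 := (pos_of_gt hc).ne'
    set r : ℝ≥0∞ := (c / y) ^ θ with hr
    have hr1 : r ≤ 1 := by
      rw [hr, ← ENNReal.one_rpow θ]
      refine ENNReal.rpow_le_rpow ?_ hθ.le
      exact ENNReal.div_le_of_le_mul (by rw [one_mul]; exact hc.le)
    have hq : qq θ c y = ENNReal.ofReal (1 - θ) * r := by unfold qq; rw [if_pos (Or.inl hc)]
    have hqle : ENNReal.ofReal (1 - θ) * r ≤ 1 := hq ▸ qq_le_one hθ.le
    rw [hq, tr_eq hy, tsub_le_iff_right, ← hr]
    obtain ⟨z, hz⟩ : ∃ z, y = x + z := ⟨y - x, (add_tsub_cancel_of_le h).symm⟩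
    have hzx : y - x = z := by
      rw [hz]; exact ENNReal.add_sub_cancel_left hx
    rw [hzx]
    have e1 : c ^ θ = r * y ^ θ := by
      rw [hr, ENNReal.div_rpow_of_nonneg _ _ hθ.le, ENNReal.div_mul_cancel]
      · rw [Ne, ENNReal.rpow_eq_zero_iff]
        rintro (⟨h', -⟩ | ⟨h', -⟩)
        · exact hy0 h'
        · exact hy h'
      · exact ENNReal.rpow_ne_top_of_nonneg hθ.le hy
    have e2 : x ≤ tr θ c x + r * (ENNReal.ofReal θ * y + ENNReal.ofReal (1 - θ) * x) := by
      refine (le_tr_add (c := c) hθ hx).trans ?_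
      rw [e1, mul_assoc]
      exact add_le_add le_rfl (mul_le_mul' le_rfl (amgm hθ hθ1 hx hy))
    have e3 : z = (1 - ENNReal.ofReal (1 - θ) * r) * z + ENNReal.ofReal (1 - θ) * r * z := by
      rw [← add_mul, tsub_add_cancel_of_le hqle, one_mul]
    have e4 : ENNReal.ofReal θ + ENNReal.ofReal (1 - θ) = 1 := by
      rw [← ENNReal.ofReal_add hθ.le (by linarith), ← ENNReal.ofReal_one]
      congr 1; ring
    calc y = x + z := hz
      _ ≤ (tr θ c x + r * (ENNReal.ofReal θ * y + ENNReal.ofReal (1 - θ) * x))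
          + ((1 - ENNReal.ofReal (1 - θ) * r) * z + ENNReal.ofReal (1 - θ) * r * z) :=
        add_le_add e2 e3.le
      _ = tr θ c x + (1 - ENNReal.ofReal (1 - θ) * r) * z
          + r * (ENNReal.ofReal θ * y + ENNReal.ofReal (1 - θ) * (x + z)) := by ring
      _ = tr θ c x + (1 - ENNReal.ofReal (1 - θ) * r) * z
          + r * ((ENNReal.ofReal θ + ENNReal.ofReal (1 - θ)) * y) := by rw [← hz]; ring
      _ = tr θ c x + (1 - ENNReal.ofReal (1 - θ) * r) * z + y * r := by rw [e4]; ring
  · rw [tr_eq_zero hθ.le (not_lt.mp hc) hy]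
    exact zero_le

end scalar

variable {E : Type*} [NormedAddCommGroup E] [InnerProductSpace ℝ E] [FiniteDimensional ℝ E]
  [MeasurableSpace E] [BorelSpace E] {ι κ : Type*}

open Vale.Agent.P262.H395.Tree

/-- the recursive value -/
noncomputable def rv (θ : ℝ) (M : ℝ≥0∞) : H395.Tree E ι → (ι → E → ℝ≥0∞) → E → ℝ≥0∞
  | leaf i, f => f i
  | node W a c T, f => fun x => tr θ (M * a x) (fib W (fun y => rv θ M (T (c y)) f y) x)

/-- the weight of the field -/
noncomputable def wt (θ : ℝ) (M : ℝ≥0∞) : H395.Tree E ι → (ι → E → ℝ≥0∞) → E → ℝ≥0∞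
  | leaf _, _ => fun _ => 1
  | node W a c T, f => fun x =>
      phi θ (M * a x) (fib W (fun y => rv θ M (T (c y)) f y) x) * wt θ M (T (c x)) f x

/-- the product of the slopes of the levels (`1 - qq`; it vanishes unless all levels are
visible) -/
noncomputable def slp (θ : ℝ) (M : ℝ≥0∞) : H395.Tree E ι → (ι → E → ℝ≥0∞) → E → ℝ≥0∞
  | leaf _, _ => fun _ => 1
  | node W a c T, f => fun x =>
      (1 - qq θ (M * a x) (fib W (fun y => rv θ M (T (c y)) f y) x))
        * slp θ M (T (c x)) f x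

section defs

variable (θ : ℝ) (M : ℝ≥0∞) (W : Submodule ℝ E) (a : E → ℝ≥0∞) (c : E → ℕ) (T : ℕ → H395.Tree E ι)
  (f : ι → E → ℝ≥0∞) (i : ι) (x : E)

@[simp] lemma rv_leaf : rv θ M (leaf i) f = f i := rfl

@[simp] lemma rv_node : rv θ M (node W a c T) f x
    = tr θ (M * a x) (fib W (fun y => rv θ M (T (c y)) f y) x) := rfl

@[simp] lemma wt_leaf : wt θ M (leaf i) f x = 1 := rfl

@[simp] lemma wt_node : wt θ M (node W a c T) f x
    = phi θ (M * a x) (fib W (fun y => rv θ M (T (c y)) f y) x) * wt θ M (T (c x)) f x := rfl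

@[simp] lemma slp_leaf : slp θ M (leaf i) f x = 1 := rfl

@[simp] lemma slp_node : slp θ M (node W a c T) f x
    = (1 - qq θ (M * a x) (fib W (fun y => rv θ M (T (c y)) f y) x))
      * slp θ M (T (c x)) f x := rfl

end defs

variable {θ : ℝ} {M : ℝ≥0∞}

lemma measurable_phi {u v : E → ℝ≥0∞} (hu : Measurable u) (hv : Measurable v) :
    Measurable fun x => phi θ (u x) (v x) := by
  unfold phi
  exact measurable_const.sub ((hu.div hv).pow_const θ)

lemma measurable_tr {u v : E → ℝ≥0∞} (hu : Measurable u) (hv : Measurable v) :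
    Measurable fun x => tr θ (u x) (v x) := hv.mul (measurable_phi hu hv)

lemma measurable_rv {T : H395.Tree E ι} (hT : Good T) {f : ι → E → ℝ≥0∞} (hf : ∀ i, Measurable (f i)) :
    Measurable (rv θ M T f) := by
  induction T with
  | leaf i => exact hf i
  | node W a c T ih =>
    exact measurable_tr (hT.1.const_mul M)
      (measurable_fib (measurable_sel (fun k => ih k (hT.2.2.2.2.2 k)) hT.2.2.1))

lemma measurable_wt {T : H395.Tree E ι} (hT : Good T) {f : ι → E → ℝ≥0∞} (hf : ∀ i, Measurable (f i)) :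
    Measurable (wt θ M T f) := by
  induction T with
  | leaf i => exact measurable_const
  | node W a c T ih =>
    refine Measurable.mul ?_ (measurable_sel (fun k => ih k (hT.2.2.2.2.2 k)) hT.2.2.1)
    exact measurable_phi (hT.1.const_mul M)
      (measurable_fib (measurable_sel (fun k => measurable_rv (hT.2.2.2.2.2 k) hf) hT.2.2.1))

lemma measurable_qq {u v : E → ℝ≥0∞} (hu : Measurable u) (hv : Measurable v) :
    Measurable fun x => qq θ (u x) (v x) := by
  unfold qq
  exact Measurable.ite ((measurableSet_lt hu hv).union (hu (measurableSet_singleton 0)))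
    (((hu.div hv).pow_const θ).const_mul _) measurable_const

lemma measurable_slp {T : H395.Tree E ι} (hT : Good T) {f : ι → E → ℝ≥0∞}
    (hf : ∀ i, Measurable (f i)) : Measurable (slp θ M T f) := by
  induction T with
  | leaf i => exact measurable_const
  | node W a c T ih =>
    refine Measurable.mul ?_ (measurable_sel (fun k => ih k (hT.2.2.2.2.2 k)) hT.2.2.1)
    exact measurable_const.sub (measurable_qq (hT.1.const_mul M)
      (measurable_fib (measurable_sel (fun k => measurable_rv (hT.2.2.2.2.2 k) hf) hT.2.2.1)))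

lemma wt_le_one (T : H395.Tree E ι) (f : ι → E → ℝ≥0∞) (x : E) : wt θ M T f x ≤ 1 := by
  induction T with
  | leaf i => exact le_rfl
  | node W a c T ih =>
    rw [wt_node]
    exact (mul_le_mul' (phi_le_one _ _ _) (ih (c x))).trans_eq (one_mul 1)

lemma slp_le_one (T : H395.Tree E ι) (f : ι → E → ℝ≥0∞) (x : E) : slp θ M T f x ≤ 1 := by
  induction T with
  | leaf i => exact le_rfl
  | node W a c T ih =>
    rw [slp_node]
    exact (mul_le_mul' tsub_le_self (ih (c x))).trans_eq (one_mul 1)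

/-- the recursive value is at most the bound of the payoffs -/
lemma rv_le {T : H395.Tree E ι} {f : ι → E → ℝ≥0∞} {C : ℝ≥0∞} (hf : ∀ i x, f i x ≤ C) (x : E) :
    rv θ M T f x ≤ C := by
  induction T generalizing x with
  | leaf i => exact hf i x
  | node W a c T ih =>
    rw [rv_node]
    refine (tr_le _ _ _).trans ?_
    exact (fib_mono (fun y => ih (c y) y) x).trans_eq (fib_const _ _ _)

lemma rv_mono (hθ : 0 ≤ θ) {T : H395.Tree E ι} {f g : ι → E → ℝ≥0∞} (h : ∀ i x, f i x ≤ g i x)
    (x : E) : rv θ M T f x ≤ rv θ M T g x := by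
  induction T generalizing x with
  | leaf i => exact h i x
  | node W a c T ih =>
    rw [rv_node, rv_node]
    exact tr_mono hθ (fib_mono (fun y => ih (c y) y) x)

lemma wt_mono (hθ : 0 ≤ θ) {T : H395.Tree E ι} {f g : ι → E → ℝ≥0∞} (h : ∀ i x, f i x ≤ g i x)
    (x : E) : wt θ M T f x ≤ wt θ M T g x := by
  induction T with
  | leaf i => exact le_rfl
  | node W a c T ih =>
    rw [wt_node, wt_node]
    exact mul_le_mul' (phi_mono hθ (fib_mono (fun y => rv_mono hθ h y) x)) (ih (c x))

/-- recursive values in a node are functions of its label -/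
lemma inv_rv {T : H395.Tree E ι} (hT : Good T) {W : Submodule ℝ E} {f : ι → E → ℝ≥0∞}
    {W' : Submodule ℝ E} {a : E → ℝ≥0∞} {c : E → ℕ} {S : ℕ → H395.Tree E ι} (h : T = node W' a c S) :
    Inv W' (rv θ M T f) := by
  subst h
  intro x w hw
  rw [rv_node, rv_node, hT.2.1 x w hw, inv_fib W' _ x w hw]

omit [FiniteDimensional ℝ E] [MeasurableSpace E] [BorelSpace E] in
lemma pay_le {T : H395.Tree E ι} {f : ι → E → ℝ≥0∞} {C : ℝ≥0∞} (hf : ∀ i x, f i x ≤ C) (x : E) :
    pay T f x ≤ C := hf _ _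

/-- **T1 (tower).** The conditional mean of the field is the recursive value. -/
theorem fib_wt_pay {T : H395.Tree E ι} (hT : Good T) {f : ι → E → ℝ≥0∞}
    (hf : ∀ i, Measurable (f i)) {W : Submodule ℝ E} (hW : Above W T) (x : E) :
    fib W (fun y => wt θ M T f y * pay T f y) x = fib W (rv θ M T f) x := by
  induction T generalizing W x with
  | leaf i => simp
  | node V a c T ih =>
    obtain ⟨ha, haW, hc, hcW, hab, hgd⟩ := hT
    have hm : Measurable fun y => rv θ M (T (c y)) f y :=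
      measurable_sel (fun k => measurable_rv (hgd k) hf) hc
    have hm2 : Measurable fun y => wt θ M (T (c y)) f y * pay (T (c y)) f y :=
      measurable_sel (F := fun k y => wt θ M (T k) f y * pay (T k) f y)
        (fun k => (measurable_wt (hgd k) hf).mul (measurable_pay (hgd k) hf)) hc
    set s : E → ℝ≥0∞ := fun x => phi θ (M * a x) (fib V (fun y => rv θ M (T (c y)) f y) x) with hs
    have hsm : Measurable s := measurable_phi (ha.const_mul M) (measurable_fib hm)
    have hsW : Inv V s := by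
      intro x w hw
      simp only [hs, haW x w hw, inv_fib V _ x w hw]
    have e1 : (fun y => wt θ M (node V a c T) f y * pay (node V a c T) f y)
        = fun y => s y * (wt θ M (T (c y)) f y * pay (T (c y)) f y) := by
      funext y
      rw [wt_node, pay_node]
      simp only [hs]
      ring
    rw [e1, ← fib_tower (f := fun y => s y * (wt θ M (T (c y)) f y * pay (T (c y)) f y)) hW
      (hsm.mul hm2) x]
    congr 1
    funext y
    rw [fib_mul hsW hm2, rv_node]
    unfold tr
    simp only [hs]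
    rw [mul_comm]
    congr 1
    rw [fib_sel hcW (fun k y => wt θ M (T k) f y * pay (T k) f y) y,
      fib_sel hcW (fun k y => rv θ M (T k) f y) y]
    exact ih (c y) (hgd _) (hab _) y

/-- the recursive value is below the mass -/
theorem fib_rv_le_pay {T : H395.Tree E ι} (hT : Good T) {f : ι → E → ℝ≥0∞}
    (hf : ∀ i, Measurable (f i)) {W : Submodule ℝ E} (hW : Above W T) (x : E) :
    fib W (rv θ M T f) x ≤ fib W (pay T f) x := by
  rw [← fib_wt_pay hT hf hW]
  exact fib_mono (fun y => (mul_le_mul' (wt_le_one T f y) le_rfl).trans_eq (one_mul _)) x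

/-- **T2 (total variation).** The change of the recursive value is at most the change of the
payoff, weighted with the slopes of all levels (computed for the larger payoff). -/
theorem fib_rv_le {T : H395.Tree E ι} (hT : Good T) (hθ : 0 < θ) (hθ1 : θ < 1)
    {f f' : ι → E → ℝ≥0∞} (hf : ∀ i, Measurable (f i)) (hf' : ∀ i, Measurable (f' i))
    (h : ∀ i x, f i x ≤ f' i x) {C : ℝ≥0∞} (hC : C ≠ ∞) (hfC : ∀ i x, f' i x ≤ C)
    {W : Submodule ℝ E} (hW : Above W T) (x : E) :
    fib W (rv θ M T f') x ≤ fib W (rv θ M T f) x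
      + fib W (fun y => slp θ M T f' y * (pay T f' y - pay T f y)) x := by
  induction T generalizing W x with
  | leaf i =>
    simp only [rv_leaf, slp_leaf, one_mul, pay_leaf]
    rw [← fib_add (hf i)]
    exact fib_mono (fun y => le_add_tsub) x
  | node V a c T ih =>
    obtain ⟨ha, haW, hc, hcW, hab, hgd⟩ := hT
    have hm : Measurable fun y => rv θ M (T (c y)) f y :=
      measurable_sel (fun k => measurable_rv (hgd k) hf) hc
    have hm' : Measurable fun y => rv θ M (T (c y)) f' y :=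
      measurable_sel (fun k => measurable_rv (hgd k) hf') hc
    have hR : Measurable fun y => slp θ M (T (c y)) f' y * (pay (T (c y)) f' y - pay (T (c y)) f y) :=
      measurable_sel (F := fun k y => slp θ M (T k) f' y * (pay (T k) f' y - pay (T k) f y))
        (fun k => (measurable_slp (hgd k) hf').mul
          ((measurable_pay (hgd k) hf').sub (measurable_pay (hgd k) hf))) hc
    set s : E → ℝ≥0∞ := fun x =>
      1 - qq θ (M * a x) (fib V (fun y => rv θ M (T (c y)) f' y) x) with hs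
    have hsm : Measurable s := measurable_const.sub
      (measurable_qq (ha.const_mul M) (measurable_fib hm'))
    have hsW : Inv V s := by
      intro x w hw
      simp only [hs, haW x w hw, inv_fib V _ x w hw]
    have e1 : (fun y => slp θ M (node V a c T) f' y
        * (pay (node V a c T) f' y - pay (node V a c T) f y))
        = fun y => s y * (slp θ M (T (c y)) f' y
          * (pay (T (c y)) f' y - pay (T (c y)) f y)) := by
      funext y
      rw [slp_node, pay_node, pay_node, mul_assoc]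
    have hmr : Measurable (rv θ M (node V a c T) f) :=
      measurable_tr (ha.const_mul M) (measurable_fib hm)
    rw [e1, ← fib_tower (f := fun y => s y * (slp θ M (T (c y)) f' y
          * (pay (T (c y)) f' y - pay (T (c y)) f y))) hW (hsm.mul hR) x, ← fib_add hmr]
    refine fib_mono (fun y => ?_) x
    rw [fib_mul hsW hR, rv_node, rv_node]
    have hXY : fib V (fun y => rv θ M (T (c y)) f y) y ≤ fib V (fun y => rv θ M (T (c y)) f' y) y :=
      fib_mono (fun z => rv_mono hθ.le h z) y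
    have hY : fib V (fun y => rv θ M (T (c y)) f' y) y ≠ ∞ :=
      ne_top_of_le_ne_top hC
        ((fib_mono (fun z => rv_le hfC z) y).trans_eq (fib_const _ _ _))
    refine (tr_le_slope (c := M * a y) hθ hθ1 hXY hY).trans ?_
    refine add_le_add le_rfl (mul_le_mul' le_rfl ?_)
    rw [tsub_le_iff_left]
    rw [fib_sel hcW (fun k y => rv θ M (T k) f' y) y, fib_sel hcW (fun k y => rv θ M (T k) f y) y,
      fib_sel hcW (fun k y => slp θ M (T k) f' y * (pay (T k) f' y - pay (T k) f y)) y]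
    exact ih (c y) (hgd _) (hab _) y

/-- the field -/
noncomputable def fld (θ : ℝ) (M : ℝ≥0∞) (T : H395.Tree E ι) (f : ι → E → ℝ≥0∞) (x : E) : ℝ≥0∞ :=
  wt θ M T f x * pay T f x

lemma measurable_fld {T : H395.Tree E ι} (hT : Good T) {f : ι → E → ℝ≥0∞}
    (hf : ∀ i, Measurable (f i)) : Measurable (fld θ M T f) :=
  (measurable_wt hT hf).mul (measurable_pay hT hf)

lemma fld_mono (hθ : 0 ≤ θ) {T : H395.Tree E ι} {f g : ι → E → ℝ≥0∞} (h : ∀ i x, f i x ≤ g i x)
    (x : E) : fld θ M T f x ≤ fld θ M T g x := mul_le_mul' (wt_mono hθ h x) (h _ _)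

lemma fld_le {T : H395.Tree E ι} {f : ι → E → ℝ≥0∞} {C : ℝ≥0∞} (hf : ∀ i x, f i x ≤ C) (x : E) :
    fld θ M T f x ≤ C := (mul_le_mul' (wt_le_one T f x) (hf _ _)).trans_eq (one_mul C)

/-- total variation of the field, monotone change -/
theorem fib_fld_sub_le {T : H395.Tree E ι} (hT : Good T) (hθ : 0 < θ) (hθ1 : θ < 1)
    {f f' : ι → E → ℝ≥0∞} (hf : ∀ i, Measurable (f i)) (hf' : ∀ i, Measurable (f' i))
    (h : ∀ i x, f i x ≤ f' i x) {C : ℝ≥0∞} (hC : C ≠ ∞) (hfC : ∀ i x, f' i x ≤ C)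
    {W : Submodule ℝ E} (hW : Above W T) (x : E) :
    fib W (fun y => fld θ M T f' y - fld θ M T f y) x
      ≤ fib W (fun y => slp θ M T f' y * (pay T f' y - pay T f y)) x := by
  have h1 := fib_rv_le hT hθ hθ1 hf hf' h hC hfC hW (M := M) x
  rw [← fib_wt_pay hT hf' hW, ← fib_wt_pay hT hf hW] at h1
  have hfin : fib W (fun y => wt θ M T f y * pay T f y) x ≠ ∞ :=
    ne_top_of_le_ne_top hC ((fib_mono (fun y => fld_le (θ := θ) (M := M) (T := T)
      (fun i z => (h i z).trans (hfC i z)) y) x).trans_eq (fib_const _ _ _))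
  have h2 : fib W (fun y => wt θ M T f' y * pay T f' y) x
      = fib W (fun y => wt θ M T f y * pay T f y) x
        + fib W (fun y => fld θ M T f' y - fld θ M T f y) x := by
    rw [← fib_add (f := fun y => wt θ M T f y * pay T f y)
      ((measurable_wt hT hf).mul (measurable_pay hT hf))]
    congr 1
    funext y
    exact (add_tsub_cancel_of_le (fld_mono hθ.le h y)).symm
  rw [h2] at h1
  exact (ENNReal.add_le_add_iff_left hfin).mp h1

/-- the distance of two extended nonnegative numbers -/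
noncomputable def edst (u v : ℝ≥0∞) : ℝ≥0∞ := (u - v) + (v - u)

lemma max_sub_add (u v : ℝ≥0∞) : (max u v - u) + (max u v - v) = edst u v := by
  unfold edst
  rcases le_total u v with h | h
  · rw [max_eq_right h, tsub_self, tsub_eq_zero_of_le h, add_zero, zero_add]
  · rw [max_eq_left h, tsub_self, tsub_eq_zero_of_le h, zero_add, add_zero]

lemma edst_le {u v m : ℝ≥0∞} (hu : u ≤ m) (hv : v ≤ m) : edst u v ≤ (m - u) + (m - v) := by
  unfold edst
  rw [add_comm]
  exact add_le_add (tsub_le_tsub_right hv _) (tsub_le_tsub_right hu _)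

/-- **T2'** total variation of the field, arbitrary change -/
theorem fib_edst_fld_le {T : H395.Tree E ι} (hT : Good T) (hθ : 0 < θ) (hθ1 : θ < 1)
    {f f' : ι → E → ℝ≥0∞} (hf : ∀ i, Measurable (f i)) (hf' : ∀ i, Measurable (f' i))
    {C : ℝ≥0∞} (hC : C ≠ ∞) (hfC : ∀ i x, f i x ≤ C) (hfC' : ∀ i x, f' i x ≤ C)
    {W : Submodule ℝ E} (hW : Above W T) (x : E) :
    fib W (fun y => edst (fld θ M T f y) (fld θ M T f' y)) x
      ≤ fib W (fun y => slp θ M T (fun i z => max (f i z) (f' i z)) y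
          * edst (pay T f y) (pay T f' y)) x := by
  set g : ι → E → ℝ≥0∞ := fun i z => max (f i z) (f' i z) with hg
  have hgm : ∀ i, Measurable (g i) := fun i => (hf i).max (hf' i)
  have hgC : ∀ i z, g i z ≤ C := fun i z => max_le (hfC i z) (hfC' i z)
  have h1 := fib_fld_sub_le hT hθ hθ1 hf hgm (fun i z => le_max_left _ _) hC hgC hW (M := M) x
  have h2 := fib_fld_sub_le hT hθ hθ1 hf' hgm (fun i z => le_max_right _ _) hC hgC hW (M := M) x
  have m1 := measurable_fld (θ := θ) (M := M) hT hf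
  have m2 := measurable_fld (θ := θ) (M := M) hT hf'
  have m3 := measurable_fld (θ := θ) (M := M) hT hgm
  have ms := measurable_slp (θ := θ) (M := M) hT hgm
  calc fib W (fun y => edst (fld θ M T f y) (fld θ M T f' y)) x
      ≤ fib W (fun y => (fld θ M T g y - fld θ M T f y) + (fld θ M T g y - fld θ M T f' y)) x :=
        fib_mono (fun y => edst_le (fld_mono hθ.le (fun i z => le_max_left _ _) y)
          (fld_mono hθ.le (fun i z => le_max_right _ _) y)) x
    _ = fib W (fun y => fld θ M T g y - fld θ M T f y) x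
        + fib W (fun y => fld θ M T g y - fld θ M T f' y) x := fib_add (m3.sub m1) x
    _ ≤ fib W (fun y => slp θ M T g y * (pay T g y - pay T f y)) x
        + fib W (fun y => slp θ M T g y * (pay T g y - pay T f' y)) x := add_le_add h1 h2
    _ = fib W (fun y => slp θ M T g y * (pay T g y - pay T f y)
        + slp θ M T g y * (pay T g y - pay T f' y)) x :=
        (fib_add (ms.mul ((measurable_pay hT hgm).sub (measurable_pay hT hf))) x).symm
    _ = _ := by
        congr 1
        funext y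
        rw [← mul_add]
        congr 1
        exact max_sub_add _ _

end Vale.Agent.P262.H703
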