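import Vale.Agent.P262.H703.Field

/-!
# P262, accounting of the healthy labels: multiplicity, hidden mass, openings
-/

set_option linter.all false

open MeasureTheory ProbabilityTheory Set
open scoped ENNReal RealInnerProductSpace

namespace Vale.Agent.P262.H703

open Vale.Agent.P262.H395 Vale.Agent.P262.H395.Tree

variable {E : Type*} [NormedAddCommGroup E] [InnerProductSpace ℝ E] [FiniteDimensional ℝ E]
  [MeasurableSpace E] [BorelSpace E] {ι κ : Type*} {θ : ℝ} {M : ℝ≥0∞}

/-- all levels together: the weighted gains of the nodes -/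
noncomputable def accu (θ : ℝ) (M : ℝ≥0∞) :
    H395.Tree E ι → (ι → E → ℝ≥0∞) → (E → ℝ≥0∞) → E → ℝ≥0∞
  | leaf _, _, _ => fun _ => 0
  | node W a c T, f, h => fun x =>
      qq θ (M * a x) (fib W (fun y => rv θ M (T (c y)) f y) x)
          * fib W (fun y => slp θ M (T (c y)) f y * h y) x
        + fib W (fun y => accu θ M (T (c y)) f h y) x

@[simp] lemma accu_leaf (i : ι) (f : ι → E → ℝ≥0∞) (h : E → ℝ≥0∞) (x : E) :
    accu θ M (leaf i) f h x = 0 := rfl

@[simp] lemma accu_node (W : Submodule ℝ E) (a : E → ℝ≥0∞) (c : E → ℕ) (T : ℕ → H395.Tree E ι)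
    (f : ι → E → ℝ≥0∞) (h : E → ℝ≥0∞) (x : E) : accu θ M (node W a c T) f h x
    = qq θ (M * a x) (fib W (fun y => rv θ M (T (c y)) f y) x)
          * fib W (fun y => slp θ M (T (c y)) f y * h y) x
        + fib W (fun y => accu θ M (T (c y)) f h y) x := rfl

lemma measurable_accu {T : H395.Tree E ι} (hT : Good T) {f : ι → E → ℝ≥0∞}
    (hf : ∀ i, Measurable (f i)) {h : E → ℝ≥0∞} (hh : Measurable h) :
    Measurable (accu θ M T f h) := by
  induction T with
  | leaf i => exact measurable_const
  | node W a c T ih =>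
    obtain ⟨ha, haW, hc, hcW, hab, hgd⟩ := hT
    have hm : Measurable fun y => rv θ M (T (c y)) f y :=
      measurable_sel (fun k => measurable_rv (hgd k) hf) hc
    have hs : Measurable fun y => slp θ M (T (c y)) f y * h y :=
      (measurable_sel (fun k => measurable_slp (hgd k) hf) hc).mul hh
    have hA : Measurable fun y => accu θ M (T (c y)) f h y :=
      measurable_sel (fun k => ih k (hgd k)) hc
    exact ((measurable_qq (ha.const_mul M) (measurable_fib hm)).mul (measurable_fib hs)).add
      (measurable_fib hA)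

/-- **T4 (multiplicity exactly one).** -/
theorem fib_accu_add {T : H395.Tree E ι} (hT : Good T) (hθ : 0 ≤ θ) {f : ι → E → ℝ≥0∞}
    (hf : ∀ i, Measurable (f i)) {h : E → ℝ≥0∞} (hh : Measurable h) {W : Submodule ℝ E}
    (hW : Above W T) (x : E) :
    fib W (accu θ M T f h) x + fib W (fun y => slp θ M T f y * h y) x = fib W h x := by
  induction T generalizing W x with
  | leaf i =>
    simp only [accu_leaf, slp_leaf, one_mul]
    have : fib W (accu θ M (leaf i : H395.Tree E ι) f h) x = 0 := by
      unfold fib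
      simp
    rw [this, zero_add]
  | node V a c T ih =>
    have hT' := hT
    obtain ⟨ha, haW, hc, hcW, hab, hgd⟩ := hT
    have hm : Measurable fun y => rv θ M (T (c y)) f y :=
      measurable_sel (fun k => measurable_rv (hgd k) hf) hc
    have hsl : Measurable fun y => slp θ M (T (c y)) f y * h y :=
      (measurable_sel (fun k => measurable_slp (hgd k) hf) hc).mul hh
    set q : E → ℝ≥0∞ := fun x => qq θ (M * a x) (fib V (fun y => rv θ M (T (c y)) f y) x) with hq
    have hqm : Measurable q := measurable_qq (ha.const_mul M) (measurable_fib hm)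
    have hqW : Inv V q := by
      intro x w hw
      simp only [hq, haW x w hw, inv_fib V _ x w hw]
    have hq1 : ∀ y, q y ≤ 1 := fun y => qq_le_one hθ
    have hsW : Inv V fun y => 1 - q y := by
      intro x w hw
      simp only [hqW x w hw]
    have e1 : (fun y => slp θ M (node V a c T) f y * h y)
        = fun y => (1 - q y) * (slp θ M (T (c y)) f y * h y) := by
      funext y
      rw [slp_node, mul_assoc]
    have hmA : Measurable (accu θ M (node V a c T) f h) := measurable_accu hT' hf hh
    rw [e1, ← fib_tower (f := fun y => (1 - q y) * (slp θ M (T (c y)) f y * h y)) hW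
      ((measurable_const.sub hqm).mul hsl) x, ← fib_tower hW hh x, ← fib_add hmA]
    congr 1
    funext y
    rw [fib_mul (g := fun y => 1 - q y) hsW hsl, accu_node]
    have ihy := ih (c y) (hgd _) (W := V) (hab _) y
    have e3 : fib V (fun y => accu θ M (T (c y)) f h y) y = fib V (accu θ M (T (c y)) f h) y :=
      fib_sel hcW (fun k y => accu θ M (T k) f h y) y
    have e4 : fib V (fun y => slp θ M (T (c y)) f y * h y) y
        = fib V (fun z => slp θ M (T (c y)) f z * h z) y :=
      fib_sel hcW (fun k y => slp θ M (T k) f y * h y) y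
    rw [← ihy, e3, e4]
    have e5 : q y + (1 - q y) = 1 := add_tsub_cancel_of_le (hq1 y)
    calc _ = (q y + (1 - q y)) * fib V (fun z => slp θ M (T (c y)) f z * h z) y
          + fib V (accu θ M (T (c y)) f h) y := by
          simp only [hq]; ring
      _ = _ := by rw [e5, one_mul, add_comm]

/-- multiplicity, one-node form for inductions -/
lemma node_mult {w q s : ℝ≥0∞} (hq : q ≤ 1) (hs : s ≤ 1) (hw : w ≤ q) :
    w * s + (1 - s) ≤ 1 - (1 - q) * s := by
  have h1 : (1 - q) * s ≤ 1 := (mul_le_mul' tsub_le_self hs).trans_eq (one_mul 1)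
  have h2 : (1 - q) * s ≠ ∞ := ne_top_of_le_ne_top ENNReal.one_ne_top h1
  refine ENNReal.le_sub_of_add_le_right h2 ?_
  calc w * s + (1 - s) + (1 - q) * s = (w + (1 - q)) * s + (1 - s) := by ring
    _ ≤ (q + (1 - q)) * s + (1 - s) := by gcongr
    _ = 1 := by
      rw [add_tsub_cancel_of_le hq, one_mul, add_tsub_cancel_of_le hs]

/-! ### hidden mass -/

/-- the cap of the root -/
def rcap : H395.Tree E ι → E → ℝ≥0∞
  | leaf _ => fun _ => 0
  | node _ a _ _ => a

/-- the caps of the children are small in the mean, hereditarily -/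
def Small (k : ℝ≥0∞) : H395.Tree E ι → Prop
  | leaf _ => True
  | node W a c T => (∀ x, fib W (fun y => rcap (T (c y)) y) x ≤ k * a x) ∧ ∀ i, Small k (T i)

omit [FiniteDimensional ℝ E] [BorelSpace E] in
lemma measurable_rcap {T : H395.Tree E ι} (hT : Good T) : Measurable (rcap T) := by
  cases T with
  | leaf i => exact measurable_const
  | node W a c T => exact hT.1

/-- Hölder for fibre averages -/
lemma fib_holder {W : Submodule ℝ E} {u v : E → ℝ≥0∞} (hu : Measurable u) (hv : Measurable v)
    (hθ : 0 ≤ θ) (hθ1 : θ ≤ 1) (x : E) :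
    fib W (fun y => u y ^ θ * v y ^ (1 - θ)) x ≤ fib W u x ^ θ * fib W v x ^ (1 - θ) := by
  unfold fib
  exact ENNReal.lintegral_mul_norm_pow_le (hu.comp (measurable_mix_right W x)).aemeasurable
    (hv.comp (measurable_mix_right W x)).aemeasurable hθ (by linarith) (by ring)

/-- **T3 (hidden mass).** `K` is any constant with `1 + K k^θ ≤ K`. -/
theorem fib_pay_le {T : H395.Tree E ι} (hT : Good T) (hθ : 0 < θ) (hθ1 : θ ≤ 1) {k K : ℝ≥0∞}
    (hS : Small k T) (hK : 1 + K * k ^ θ ≤ K) {f : ι → E → ℝ≥0∞}
    (hf : ∀ i, Measurable (f i)) {C : ℝ≥0∞} (hC : C ≠ ∞) (hfC : ∀ i x, f i x ≤ C)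
    {W : Submodule ℝ E} (hW : Above W T) (x : E) :
    fib W (pay T f) x ≤ fib W (rv θ M T f) x
      + K * ((M * fib W (rcap T) x) ^ θ * fib W (pay T f) x ^ (1 - θ)) := by
  induction T generalizing W x with
  | leaf i =>
    have e : pay (leaf i : H395.Tree E ι) f = f i := rfl
    rw [e, rv_leaf]
    exact le_self_add
  | node V a c T ih =>
    have hT' := hT
    obtain ⟨ha, haW, hc, hcW, hab, hgd⟩ := hT
    have hm : Measurable fun y => rv θ M (T (c y)) f y :=
      measurable_sel (fun k => measurable_rv (hgd k) hf) hc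
    have hp : Measurable fun y => pay (T (c y)) f y :=
      measurable_sel (F := fun k y => pay (T k) f y) (fun k => measurable_pay (hgd k) hf) hc
    have hmr : Measurable (rv θ M (node V a c T) f) := measurable_rv hT' hf
    set D : E → ℝ≥0∞ := fib V (fun y => pay (T (c y)) f y) with hD
    have hDm : Measurable D := measurable_fib hp
    -- pointwise
    have key : ∀ y, D y ≤ rv θ M (node V a c T) f y
        + K * ((M * a y) ^ θ * D y ^ (1 - θ)) := by
      intro y
      set F : ℝ≥0∞ := fib V (fun y => rv θ M (T (c y)) f y) y with hF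
      have e1 : D y = fib V (pay (T (c y)) f) y := fib_sel hcW (fun k y => pay (T k) f y) y
      have e2 : F = fib V (rv θ M (T (c y)) f) y := fib_sel hcW (fun k y => rv θ M (T k) f y) y
      have hFD : F ≤ D y := by
        rw [e1, e2]; exact fib_rv_le_pay (hgd _) hf (hab _) y
      have hF' : F ≠ ∞ := ne_top_of_le_ne_top hC
        ((fib_mono (fun z => rv_le hfC z) y).trans_eq (fib_const _ _ _))
      have h1 : D y ≤ F + K * ((M * fib V (rcap (T (c y))) y) ^ θ * D y ^ (1 - θ)) := by
        have := ih (c y) (hgd _) (hS.2 _) (W := V) (hab _) y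
        rwa [← e1, ← e2] at this
      have h2 : F ≤ tr θ (M * a y) F + (M * a y) ^ θ * D y ^ (1 - θ) := by
        refine (le_tr_add (c := M * a y) hθ hF').trans ?_
        refine add_le_add le_rfl (mul_le_mul' le_rfl ?_)
        exact ENNReal.rpow_le_rpow hFD (by linarith)
      have h3 : (M * fib V (rcap (T (c y))) y) ^ θ ≤ k ^ θ * (M * a y) ^ θ := by
        rw [← ENNReal.mul_rpow_of_nonneg _ _ hθ.le]
        refine ENNReal.rpow_le_rpow ?_ hθ.le
        have h4 := hS.1 y
        have e5 : fib V (fun y => rcap (T (c y)) y) y = fib V (rcap (T (c y))) y :=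
          fib_sel hcW (fun k y => rcap (T k) y) y
        rw [e5] at h4
        calc M * fib V (rcap (T (c y))) y ≤ M * (k * a y) := by gcongr
          _ = k * (M * a y) := by ring
      calc D y ≤ F + K * ((M * fib V (rcap (T (c y))) y) ^ θ * D y ^ (1 - θ)) := h1
        _ ≤ (tr θ (M * a y) F + (M * a y) ^ θ * D y ^ (1 - θ))
            + K * ((k ^ θ * (M * a y) ^ θ) * D y ^ (1 - θ)) := by gcongr
        _ = tr θ (M * a y) F + (1 + K * k ^ θ) * ((M * a y) ^ θ * D y ^ (1 - θ)) := by ring
        _ ≤ tr θ (M * a y) F + K * ((M * a y) ^ θ * D y ^ (1 - θ)) := by gcongr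
        _ = _ := by rw [rv_node]
    have e6 : fib W (pay (node V a c T) f) x = fib W D x := by
      have : pay (node V a c T) f = fun y => pay (T (c y)) f y := by
        funext y; rw [pay_node]
      rw [this, hD, fib_tower hW hp]
    rw [e6]
    have e7 : ∀ y, rcap (node V a c T) y = a y := fun _ => rfl
    have hu : Measurable fun y => M * a y := ha.const_mul M
    calc fib W D x ≤ fib W (fun y => rv θ M (node V a c T) f y
          + K * ((M * a y) ^ θ * D y ^ (1 - θ))) x := fib_mono key x
      _ = fib W (rv θ M (node V a c T) f) x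
          + fib W (fun y => K * ((M * a y) ^ θ * D y ^ (1 - θ))) x := fib_add hmr x
      _ = fib W (rv θ M (node V a c T) f) x
          + K * fib W (fun y => (M * a y) ^ θ * D y ^ (1 - θ)) x := by
          rw [fib_mul (g := fun _ => K) (f := fun y => (M * a y) ^ θ * D y ^ (1 - θ))
            (inv_const W K) (((hu.pow_const θ)).mul (hDm.pow_const (1 - θ)))]
      _ ≤ fib W (rv θ M (node V a c T) f) x
          + K * (fib W (fun y => M * a y) x ^ θ * fib W D x ^ (1 - θ)) := by
          gcongr
          exact fib_holder hu hDm hθ.le hθ1 x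
      _ = fib W (rv θ M (node V a c T) f) x
          + K * ((M * fib W (rcap (node V a c T)) x) ^ θ * fib W D x ^ (1 - θ)) := by
          rw [fib_mul (g := fun _ => M) (inv_const W M) ha]
          rfl

/-- hidden mass at a node: the value `F` inside the node against the plain mass `D` -/
theorem node_hidden {V : Submodule ℝ E} {a : E → ℝ≥0∞} {c : E → ℕ} {T : ℕ → H395.Tree E ι}
    (hT : Good (node V a c T)) (hθ : 0 < θ) (hθ1 : θ ≤ 1) {k K : ℝ≥0∞}
    (hS : Small k (node V a c T)) (hK : 1 + K * k ^ θ ≤ K) {f : ι → E → ℝ≥0∞}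
    (hf : ∀ i, Measurable (f i)) {C : ℝ≥0∞} (hC : C ≠ ∞) (hfC : ∀ i x, f i x ≤ C) (x : E) :
    fib V (fun y => pay (T (c y)) f y) x ≤ fib V (fun y => rv θ M (T (c y)) f y) x
      + K * k ^ θ * ((M * a x) ^ θ * fib V (fun y => pay (T (c y)) f y) x ^ (1 - θ)) := by
  obtain ⟨ha, haW, hc, hcW, hab, hgd⟩ := hT
  rw [fib_sel hcW (fun k y => pay (T k) f y) x, fib_sel hcW (fun k y => rv θ M (T k) f y) x]
  have h1 := fib_pay_le (M := M) (hgd (c x)) hθ hθ1 (hS.2 _) hK hf hC hfC (hab (c x)) x
  refine h1.trans (add_le_add le_rfl ?_)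
  have h4 := hS.1 x
  rw [fib_sel hcW (fun k y => rcap (T k) y) x] at h4
  have h3 : (M * fib V (rcap (T (c x))) x) ^ θ ≤ k ^ θ * (M * a x) ^ θ := by
    rw [← ENNReal.mul_rpow_of_nonneg _ _ hθ.le]
    refine ENNReal.rpow_le_rpow ?_ hθ.le
    calc M * fib V (rcap (T (c x))) x ≤ M * (k * a x) := by gcongr
      _ = k * (M * a x) := by ring
  calc K * ((M * fib V (rcap (T (c x))) x) ^ θ * fib V (pay (T (c x)) f) x ^ (1 - θ))
      ≤ K * ((k ^ θ * (M * a x) ^ θ) * fib V (pay (T (c x)) f) x ^ (1 - θ)) := by gcongr
    _ = _ := by ring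

/-! ### grafting -/

lemma rv_bind (T : H395.Tree E ι) (S : ι → H395.Tree E κ) (f : κ → E → ℝ≥0∞) :
    rv θ M (bind T S) f = rv θ M T fun i => rv θ M (S i) f := by
  induction T with
  | leaf i => rfl
  | node W a c T ih =>
    funext x
    simp only [bind_node, rv_node, ih]

lemma wt_bind (T : H395.Tree E ι) (S : ι → H395.Tree E κ) (f : κ → E → ℝ≥0∞) (x : E) :
    wt θ M (bind T S) f x
      = wt θ M T (fun i => rv θ M (S i) f) x * wt θ M (S (leafOf T x)) f x := by
  induction T with
  | leaf i => simp
  | node W a c T ih =>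
    simp only [bind_node, wt_node, leafOf_node, rv_bind, ih, mul_assoc]

lemma slp_bind (T : H395.Tree E ι) (S : ι → H395.Tree E κ) (f : κ → E → ℝ≥0∞) (x : E) :
    slp θ M (bind T S) f x
      = slp θ M T (fun i => rv θ M (S i) f) x * slp θ M (S (leafOf T x)) f x := by
  induction T with
  | leaf i => simp
  | node W a c T ih =>
    simp only [bind_node, slp_node, leafOf_node, rv_bind, ih, mul_assoc]

/-- opening levels decreases the recursive value in the mean -/
lemma rv_open_le (hθ : 0 ≤ θ) {T : H395.Tree E ι} (hT : Good T) {S : ι → H395.Tree E κ}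
    {f : κ → E → ℝ≥0∞} (hf : ∀ i, Measurable (f i)) (hS : ∀ i, Good (S i))
    {W : Submodule ℝ E} (hl : Last (fun V i => Above V (S i)) W T) (x : E) :
    fib W (rv θ M (bind T S) f) x ≤ fib W (rv θ M T fun i => pay (S i) f) x := by
  induction T generalizing W x with
  | leaf i => exact fib_rv_le_pay (hS i) hf hl x
  | node V a c T ih =>
    obtain ⟨ha, haW, hc, hcW, hab, hgd⟩ := hT
    refine fib_mono (fun y => ?_) x
    rw [bind_node, rv_node, rv_node]
    refine tr_mono hθ ?_
    rw [fib_sel hcW (fun k y => rv θ M (bind (T k) S) f y) y,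
      fib_sel hcW (fun k y => rv θ M (T k) (fun i => pay (S i) f) y) y]
    exact ih (c y) (hgd _) (hl _) y

/-- opening levels decreases the weights -/
lemma wt_open_le (hθ : 0 ≤ θ) {T : H395.Tree E ι} (hT : Good T) {S : ι → H395.Tree E κ}
    {f : κ → E → ℝ≥0∞} (hf : ∀ i, Measurable (f i)) (hS : ∀ i, Good (S i))
    {W : Submodule ℝ E} (hl : Last (fun V i => Above V (S i)) W T) (x : E) :
    wt θ M (bind T S) f x ≤ wt θ M T (fun i => pay (S i) f) x := by
  induction T generalizing W with
  | leaf i => exact (wt_le_one _ _ _).trans_eq (wt_leaf _ _ _ _ _).symm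
  | node V a c T ih =>
    obtain ⟨ha, haW, hc, hcW, hab, hgd⟩ := hT
    rw [bind_node, wt_node, wt_node]
    refine mul_le_mul' (phi_mono hθ ?_) (ih (c x) (hgd _) (hl _))
    rw [fib_sel hcW (fun k y => rv θ M (bind (T k) S) f y) x,
      fib_sel hcW (fun k y => rv θ M (T k) (fun i => pay (S i) f) y) x]
    exact rv_open_le hθ (hgd _) hf hS (hl _) x

/-- opening levels decreases the field (pointwise) -/
lemma fld_open_le (hθ : 0 ≤ θ) {T : H395.Tree E ι} (hT : Good T) {S : ι → H395.Tree E κ}
    {f : κ → E → ℝ≥0∞} (hf : ∀ i, Measurable (f i)) (hS : ∀ i, Good (S i))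
    {W : Submodule ℝ E} (hl : Last (fun V i => Above V (S i)) W T) (x : E) :
    fld θ M (bind T S) f x ≤ fld θ M T (fun i => pay (S i) f) x := by
  unfold fld
  rw [pay_bind]
  exact mul_le_mul' (wt_open_le hθ hT hf hS hl x) le_rfl

/-- **T5 (openings).** Opening new levels `S i` at the leaves of `T` costs at most
`K (M E[new caps])^θ D^(1-θ)`. -/
theorem fib_open_le {T : H395.Tree E ι} (hT : Good T) (hθ : 0 < θ) (hθ1 : θ < 1)
    {S : ι → H395.Tree E κ} (hSg : ∀ i, Good (S i)) {k K : ℝ≥0∞} (hSs : ∀ i, Small k (S i))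
    (hK : 1 + K * k ^ θ ≤ K) {f : κ → E → ℝ≥0∞} (hf : ∀ i, Measurable (f i)) {C : ℝ≥0∞}
    (hC : C ≠ ∞) (hfC : ∀ i x, f i x ≤ C) {W : Submodule ℝ E} (hW : Above W T)
    (hl : Last (fun V i => Above V (S i)) W T) (x : E) :
    fib W (rv θ M T fun i => pay (S i) f) x ≤ fib W (rv θ M (bind T S) f) x
      + K * ((M * fib W (pay T fun i => rcap (S i)) x) ^ θ
        * fib W (pay T fun i => pay (S i) f) x ^ (1 - θ)) := by
  have hpS : ∀ i, Measurable (pay (S i) f) := fun i => measurable_pay (hSg i) hf
  have hrS : ∀ i, Measurable (rcap (S i)) := fun i => measurable_rcap (hSg i)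
  induction T generalizing W x with
  | leaf i =>
    exact fib_pay_le (hSg i) hθ hθ1.le (hSs i) hK hf hC hfC hl x
  | node V a c T ih =>
    have hT' := hT
    obtain ⟨ha, haW, hc, hcW, hab, hgd⟩ := hT
    -- the functions
    have hm1 : Measurable fun y => rv θ M (T (c y)) (fun i => pay (S i) f) y :=
      measurable_sel (fun k => measurable_rv (hgd k) hpS) hc
    have hm2 : Measurable fun y => rv θ M (bind (T (c y)) S) f y := by
      have : ∀ k, Measurable (rv θ M (bind (T k) S) f) := by
        intro k
        rw [rv_bind]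
        exact measurable_rv (hgd k) fun i => measurable_rv (hSg i) hf
      exact measurable_sel this hc
    have hmD : Measurable fun y => pay (T (c y)) (fun i => pay (S i) f) y :=
      measurable_sel (F := fun k y => pay (T k) (fun i => pay (S i) f) y)
        (fun k => measurable_pay (hgd k) hpS) hc
    have hmr : Measurable fun y => pay (T (c y)) (fun i => rcap (S i)) y :=
      measurable_sel (F := fun k y => pay (T k) (fun i => rcap (S i)) y)
        (fun k => measurable_pay (hgd k) hrS) hc
    set D : E → ℝ≥0∞ := fib V (fun y => pay (T (c y)) (fun i => pay (S i) f) y) with hD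
    set r : E → ℝ≥0∞ := fib V (fun y => pay (T (c y)) (fun i => rcap (S i)) y) with hr
    have hDm : Measurable D := measurable_fib hmD
    have hrm : Measurable r := measurable_fib hmr
    have key : ∀ y, rv θ M (node V a c T) (fun i => pay (S i) f) y
        ≤ rv θ M (bind (node V a c T) S) f y + K * ((M * r y) ^ θ * D y ^ (1 - θ)) := by
      intro y
      rw [bind_node, rv_node, rv_node]
      have hle : fib V (fun y => rv θ M (bind (T (c y)) S) f y) y
          ≤ fib V (fun y => rv θ M (T (c y)) (fun i => pay (S i) f) y) y := by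
        rw [fib_sel hcW (fun k y => rv θ M (bind (T k) S) f y) y,
          fib_sel hcW (fun k y => rv θ M (T k) (fun i => pay (S i) f) y) y]
        exact rv_open_le hθ.le (hgd _) hf hSg (hl _) y
      have hfin : fib V (fun y => rv θ M (T (c y)) (fun i => pay (S i) f) y) y ≠ ∞ :=
        ne_top_of_le_ne_top hC ((fib_mono (fun z => rv_le
          (fun i u => hfC (leafOf (S i) u) u) z) y).trans_eq (fib_const _ _ _))
      refine (tr_le_slope (c := M * a y) hθ hθ1 hle hfin).trans (add_le_add le_rfl ?_)
      refine ((mul_le_mul' tsub_le_self le_rfl).trans_eq (one_mul _)).trans ?_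
      rw [tsub_le_iff_left]
      simp only [hD, hr]
      rw [fib_sel hcW (fun k y => rv θ M (bind (T k) S) f y) y,
        fib_sel hcW (fun k y => rv θ M (T k) (fun i => pay (S i) f) y) y,
        fib_sel hcW (fun k y => pay (T k) (fun i => pay (S i) f) y) y,
        fib_sel hcW (fun k y => pay (T k) (fun i => rcap (S i)) y) y]
      exact ih (c y) (hgd _) (hab _) (hl _) y
    have hmb : Measurable (rv θ M (bind (node V a c T) S) f) := by
      rw [rv_bind]
      exact measurable_rv hT' fun i => measurable_rv (hSg i) hf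
    have e1 : fib W (pay (node V a c T) fun i => pay (S i) f) x = fib W D x := by
      have : pay (node V a c T) (fun i => pay (S i) f)
          = fun y => pay (T (c y)) (fun i => pay (S i) f) y := by
        funext y; rw [pay_node]
      rw [this, hD, fib_tower hW hmD]
    have e2 : fib W (pay (node V a c T) fun i => rcap (S i)) x = fib W r x := by
      have : pay (node V a c T) (fun i => rcap (S i))
          = fun y => pay (T (c y)) (fun i => rcap (S i)) y := by
        funext y; rw [pay_node]
      rw [this, hr, fib_tower hW hmr]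
    rw [e1, e2]
    have hu : Measurable fun y => M * r y := hrm.const_mul M
    calc fib W (rv θ M (node V a c T) fun i => pay (S i) f) x
        ≤ fib W (fun y => rv θ M (bind (node V a c T) S) f y
          + K * ((M * r y) ^ θ * D y ^ (1 - θ))) x := fib_mono key x
      _ = fib W (rv θ M (bind (node V a c T) S) f) x
          + fib W (fun y => K * ((M * r y) ^ θ * D y ^ (1 - θ))) x := fib_add hmb x
      _ = fib W (rv θ M (bind (node V a c T) S) f) x
          + K * fib W (fun y => (M * r y) ^ θ * D y ^ (1 - θ)) x := by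
          rw [fib_mul (g := fun _ => K) (f := fun y => (M * r y) ^ θ * D y ^ (1 - θ))
            (inv_const W K) (((hu.pow_const θ)).mul (hDm.pow_const (1 - θ)))]
      _ ≤ fib W (rv θ M (bind (node V a c T) S) f) x
          + K * (fib W (fun y => M * r y) x ^ θ * fib W D x ^ (1 - θ)) := by
          gcongr
          exact fib_holder hu hDm hθ.le hθ1.le x
      _ = _ := by
          rw [fib_mul (g := fun _ => M) (inv_const W M) hrm]

end Vale.Agent.P262.H703
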