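import Vale.Agent.P262.H703.Field2

/-!
# P262, the recursive field with states (milestone 2)

Sick (ZERO) labels are nodes with cap `0` (`tr = id`), killed labels are classes whose subtree is a
leaf with a constant payoff.  `Maj k T b`: the true caps `b` majorize the caps of the tree.
-/

set_option linter.all false

open MeasureTheory ProbabilityTheory Set
open scoped ENNReal RealInnerProductSpace

namespace Vale.Agent.P262.H703

open Vale.Agent.P262.H395 Vale.Agent.P262.H395.Tree

variable {E : Type*} [NormedAddCommGroup E] [InnerProductSpace ℝ E] [FiniteDimensional ℝ E]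
  [MeasurableSpace E] [BorelSpace E] {ι κ : Type*} {θ : ℝ} {M : ℝ≥0∞}

/-- `b` (the true cap) majorizes the cap of the root, and the true caps of the children are small
in the mean, hereditarily -/
def Maj (k : ℝ≥0∞) : H395.Tree E ι → (E → ℝ≥0∞) → Prop
  | leaf _, _ => True
  | node W a c T, b => Measurable b ∧ (∀ x, a x ≤ b x) ∧
      ∃ b' : ℕ → E → ℝ≥0∞, (∀ x, fib W (b' (c x)) x ≤ k * b x) ∧ ∀ i, Maj k (T i) (b' i)

@[simp] lemma maj_leaf (k : ℝ≥0∞) (i : ι) (b : E → ℝ≥0∞) : Maj k (leaf i) b := trivial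

lemma maj_node {k : ℝ≥0∞} {W : Submodule ℝ E} {a : E → ℝ≥0∞} {c : E → ℕ}
    {T : ℕ → H395.Tree E ι} {b : E → ℝ≥0∞} : Maj k (node W a c T) b ↔
      Measurable b ∧ (∀ x, a x ≤ b x) ∧
      ∃ b' : ℕ → E → ℝ≥0∞, (∀ x, fib W (b' (c x)) x ≤ k * b x) ∧ ∀ i, Maj k (T i) (b' i) := Iff.rfl

/-- one node: from the bound inside to the bound for the truncated value -/
lemma node_step {k K D F A B : ℝ≥0∞} {a : ℝ≥0∞} (hθ : 0 < θ) (hθ1 : θ ≤ 1)
    (hK : 1 + K * k ^ θ ≤ K) (hFD : F ≤ D) (hF : F ≠ ∞) (ha : a ≤ A) (hB : B ≤ k * A)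
    (h : D ≤ F + K * ((M * B) ^ θ * D ^ (1 - θ))) :
    D ≤ tr θ (M * a) F + K * ((M * A) ^ θ * D ^ (1 - θ)) := by
  have h2 : F ≤ tr θ (M * a) F + (M * A) ^ θ * D ^ (1 - θ) := by
    refine (le_tr_add (c := M * a) hθ hF).trans ?_
    have h5 : (M * a) ^ θ ≤ (M * A) ^ θ := ENNReal.rpow_le_rpow (by gcongr) hθ.le
    have h6 : F ^ (1 - θ) ≤ D ^ (1 - θ) := ENNReal.rpow_le_rpow hFD (by linarith)
    exact add_le_add le_rfl (mul_le_mul' h5 h6)
  have h3 : (M * B) ^ θ ≤ k ^ θ * (M * A) ^ θ := by
    rw [← ENNReal.mul_rpow_of_nonneg _ _ hθ.le]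
    refine ENNReal.rpow_le_rpow ?_ hθ.le
    calc M * B ≤ M * (k * A) := by gcongr
      _ = k * (M * A) := by ring
  calc D ≤ F + K * ((M * B) ^ θ * D ^ (1 - θ)) := h
    _ ≤ (tr θ (M * a) F + (M * A) ^ θ * D ^ (1 - θ))
        + K * ((k ^ θ * (M * A) ^ θ) * D ^ (1 - θ)) := by gcongr
    _ = tr θ (M * a) F + (1 + K * k ^ θ) * ((M * A) ^ θ * D ^ (1 - θ)) := by ring
    _ ≤ _ := by gcongr

/-- averaging the bound over an outer label (Hölder) -/
lemma avg_step {K : ℝ≥0∞} {D G b : E → ℝ≥0∞} (hθ : 0 ≤ θ) (hθ1 : θ ≤ 1) (hD : Measurable D)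
    (hG : Measurable G) (hb : Measurable b) {W : Submodule ℝ E}
    (h : ∀ y, D y ≤ G y + K * ((M * b y) ^ θ * D y ^ (1 - θ))) (x : E) :
    fib W D x ≤ fib W G x + K * ((M * fib W b x) ^ θ * fib W D x ^ (1 - θ)) := by
  have hu : Measurable fun y => M * b y := hb.const_mul M
  calc fib W D x ≤ fib W (fun y => G y + K * ((M * b y) ^ θ * D y ^ (1 - θ))) x := fib_mono h x
    _ = fib W G x + fib W (fun y => K * ((M * b y) ^ θ * D y ^ (1 - θ))) x := fib_add hG x
    _ = fib W G x + K * fib W (fun y => (M * b y) ^ θ * D y ^ (1 - θ)) x := by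
        rw [fib_mul (g := fun _ => K) (f := fun y => (M * b y) ^ θ * D y ^ (1 - θ))
          (inv_const W K) (((hu.pow_const θ)).mul (hD.pow_const (1 - θ)))]
    _ ≤ fib W G x + K * (fib W (fun y => M * b y) x ^ θ * fib W D x ^ (1 - θ)) := by
        gcongr
        exact fib_holder hu hD hθ hθ1 x
    _ = _ := by rw [fib_mul (g := fun _ => M) (inv_const W M) hb]

lemma pay_node_eq (V : Submodule ℝ E) (a : E → ℝ≥0∞) (c : E → ℕ) (T : ℕ → H395.Tree E ι)
    (f : ι → E → ℝ≥0∞) : pay (node V a c T) f = fun y => pay (T (c y)) f y := by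
  funext y; rw [pay_node]

lemma measurable_pay_sel {c : E → ℕ} (hc : Measurable c) {T : ℕ → H395.Tree E ι}
    (hgd : ∀ k, Good (T k)) {f : ι → E → ℝ≥0∞} (hf : ∀ i, Measurable (f i)) :
    Measurable fun y => pay (T (c y)) f y :=
  measurable_sel (F := fun k y => pay (T k) f y) (fun k => measurable_pay (hgd k) hf) hc

/-- **T3 with true caps.** -/
theorem fib_pay_le_maj {T : H395.Tree E ι} (hT : Good T) (hθ : 0 < θ) (hθ1 : θ ≤ 1)
    {k K : ℝ≥0∞} {b : E → ℝ≥0∞} (hb : Maj k T b) (hK : 1 + K * k ^ θ ≤ K)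
    {f : ι → E → ℝ≥0∞} (hf : ∀ i, Measurable (f i)) {C : ℝ≥0∞} (hC : C ≠ ∞)
    (hfC : ∀ i x, f i x ≤ C) {W : Submodule ℝ E} (hW : Above W T) (x : E) :
    fib W (pay T f) x ≤ fib W (rv θ M T f) x
      + K * ((M * fib W b x) ^ θ * fib W (pay T f) x ^ (1 - θ)) := by
  induction T generalizing W x b with
  | leaf i =>
    have e : pay (leaf i : H395.Tree E ι) f = f i := rfl
    rw [e, rv_leaf]
    exact le_self_add
  | node V a c T ih =>
    have hT' := hT
    obtain ⟨ha, haW, hc, hcW, hab, hgd⟩ := hT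
    obtain ⟨hbm, hab', b', hb', hM⟩ := hb
    have hp := measurable_pay_sel hc hgd hf
    set D : E → ℝ≥0∞ := fib V (fun y => pay (T (c y)) f y) with hD
    have key : ∀ y, D y ≤ rv θ M (node V a c T) f y
        + K * ((M * b y) ^ θ * D y ^ (1 - θ)) := by
      intro y
      have e1 : D y = fib V (pay (T (c y)) f) y := fib_sel hcW (fun k y => pay (T k) f y) y
      rw [rv_node]
      refine node_step (B := fib V (b' (c y)) y) hθ hθ1 hK ?_ ?_ (hab' y) (hb' y) ?_
      · rw [e1, fib_sel hcW (fun k y => rv θ M (T k) f y) y]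
        exact fib_rv_le_pay (hgd _) hf (hab _) y
      · exact ne_top_of_le_ne_top hC
          ((fib_mono (fun z => rv_le hfC z) y).trans_eq (fib_const _ _ _))
      · rw [e1, fib_sel hcW (fun k y => rv θ M (T k) f y) y]
        exact ih (c y) (hgd _) (hM _) (hab _) y
    have e6 : fib W (pay (node V a c T) f) x = fib W D x := by
      rw [pay_node_eq, hD, fib_tower hW hp]
    rw [e6]
    exact avg_step hθ.le hθ1 (measurable_fib hp) (measurable_rv hT' hf) hbm key x

/-- hidden mass at a node, with true caps -/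
theorem node_hidden_maj {V : Submodule ℝ E} {a : E → ℝ≥0∞} {c : E → ℕ} {T : ℕ → H395.Tree E ι}
    (hT : Good (node V a c T)) (hθ : 0 < θ) (hθ1 : θ ≤ 1) {k K : ℝ≥0∞} {b : E → ℝ≥0∞}
    (hS : Maj k (node V a c T) b) (hK : 1 + K * k ^ θ ≤ K) {f : ι → E → ℝ≥0∞}
    (hf : ∀ i, Measurable (f i)) {C : ℝ≥0∞} (hC : C ≠ ∞) (hfC : ∀ i x, f i x ≤ C) (x : E) :
    fib V (fun y => pay (T (c y)) f y) x ≤ fib V (fun y => rv θ M (T (c y)) f y) x
      + K * k ^ θ * ((M * b x) ^ θ * fib V (fun y => pay (T (c y)) f y) x ^ (1 - θ)) := by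
  obtain ⟨ha, haW, hc, hcW, hab, hgd⟩ := hT
  obtain ⟨hbm, hab', b', hb', hM⟩ := hS
  rw [fib_sel hcW (fun k y => pay (T k) f y) x, fib_sel hcW (fun k y => rv θ M (T k) f y) x]
  have h1 := fib_pay_le_maj (M := M) (hgd (c x)) hθ hθ1 (hM _) hK hf hC hfC (hab (c x)) x
  refine h1.trans (add_le_add le_rfl ?_)
  have h3 : (M * fib V (b' (c x)) x) ^ θ ≤ k ^ θ * (M * b x) ^ θ := by
    rw [← ENNReal.mul_rpow_of_nonneg _ _ hθ.le]
    refine ENNReal.rpow_le_rpow ?_ hθ.le
    calc M * fib V (b' (c x)) x ≤ M * (k * b x) := by gcongr; exact hb' x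
      _ = k * (M * b x) := by ring
  calc K * ((M * fib V (b' (c x)) x) ^ θ * fib V (pay (T (c x)) f) x ^ (1 - θ))
      ≤ K * ((k ^ θ * (M * b x) ^ θ) * fib V (pay (T (c x)) f) x ^ (1 - θ)) := by gcongr
    _ = _ := by ring

/-! ### sick labels -/

/-- the weight `(M a)^θ` of the first node with nonzero cap on the branch of `x` -/
noncomputable def fow (θ : ℝ) (M : ℝ≥0∞) : H395.Tree E ι → E → ℝ≥0∞
  | leaf _ => fun _ => 0
  | node _ a c T => fun x => if a x = 0 then fow θ M (T (c x)) x else (M * a x) ^ θ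

@[simp] lemma fow_leaf (i : ι) (x : E) : fow θ M (leaf i : H395.Tree E ι) x = 0 := rfl

@[simp] lemma fow_node (W : Submodule ℝ E) (a : E → ℝ≥0∞) (c : E → ℕ) (T : ℕ → H395.Tree E ι)
    (x : E) : fow θ M (node W a c T) x
      = if a x = 0 then fow θ M (T (c x)) x else (M * a x) ^ θ := rfl

lemma measurable_fow {T : H395.Tree E ι} (hT : Good T) : Measurable (fow θ M T) := by
  induction T with
  | leaf i => exact measurable_const
  | node W a c T ih =>
    obtain ⟨ha, haW, hc, hcW, hab, hgd⟩ := hT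
    exact Measurable.ite (ha (measurableSet_singleton 0))
      (measurable_sel (fun k => ih k (hgd k)) hc) ((ha.const_mul M).pow_const θ)

lemma fow_le {T : H395.Tree E ι} {b0 : ℝ≥0∞} (hθ : 0 ≤ θ) (hT : CapsLe b0 T) (x : E) :
    fow θ M T x ≤ (M * b0) ^ θ := by
  induction T with
  | leaf i => exact zero_le
  | node W a c T ih =>
    rw [fow_node]
    split_ifs
    · exact ih (c x) (hT.2 _)
    · exact ENNReal.rpow_le_rpow (by gcongr; exact hT.1 x) hθ

/-- at every node with nonzero cap (own label): the alive mass `g` is at least `3/4` and the caps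
below are majorized -/
def Sick (k : ℝ≥0∞) (g : E → ℝ≥0∞) : H395.Tree E ι → Prop
  | leaf _ => True
  | node V a c T => (∀ x, a x ≠ 0 → 1 ≤ ENNReal.ofReal (4 / 3) * fib V g x ∧
      ∃ b, Maj k (T (c x)) b ∧ fib V b x ≤ k * a x) ∧ ∀ i, Sick k g (T i)

/-- **Hidden mass at sick labels**: pointwise bounded by the alive mass. -/
theorem fib_pay_le_sick {T : H395.Tree E ι} (hT : Good T) (hθ : 0 < θ) (hθ1 : θ ≤ 1)
    {k K : ℝ≥0∞} {g : E → ℝ≥0∞} (hg : Measurable g) (hS : Sick k g T) (hK : 1 + K * k ^ θ ≤ K)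
    {f : ι → E → ℝ≥0∞} (hf : ∀ i, Measurable (f i)) (hf1 : ∀ i x, f i x ≤ 1)
    {W : Submodule ℝ E} (hW : Above W T) (x : E) :
    fib W (pay T f) x ≤ fib W (rv θ M T f) x
      + ENNReal.ofReal (4 / 3) * K * fib W (fun y => fow θ M T y * g y) x := by
  induction T generalizing W x with
  | leaf i =>
    have e : pay (leaf i : H395.Tree E ι) f = f i := rfl
    rw [e, rv_leaf]
    exact le_self_add
  | node V a c T ih =>
    have hT' := hT
    obtain ⟨ha, haW, hc, hcW, hab, hgd⟩ := hT
    have hp := measurable_pay_sel hc hgd hf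
    have hfg : Measurable fun y => fow θ M (node V a c T) y * g y := (measurable_fow hT').mul hg
    have key : ∀ y, fib V (fun y => pay (T (c y)) f y) y ≤ rv θ M (node V a c T) f y
        + ENNReal.ofReal (4 / 3) * K * fib V (fun y => fow θ M (node V a c T) y * g y) y := by
      intro y
      rw [rv_node]
      have hFD : fib V (fun y => rv θ M (T (c y)) f y) y
          ≤ fib V (fun y => pay (T (c y)) f y) y := by
        rw [fib_sel hcW (fun k y => rv θ M (T k) f y) y, fib_sel hcW (fun k y => pay (T k) f y) y]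
        exact fib_rv_le_pay (hgd _) hf (hab _) y
      have hD1 : fib V (fun y => pay (T (c y)) f y) y ≤ 1 := fib_le_one (fun z => hf1 _ _) y
      have hF : fib V (fun y => rv θ M (T (c y)) f y) y ≠ ∞ :=
        ne_top_of_le_ne_top ENNReal.one_ne_top (hFD.trans hD1)
      by_cases h0 : a y = 0
      · -- sick label
        have e1 : tr θ (M * a y) (fib V (fun y => rv θ M (T (c y)) f y) y)
            = fib V (fun y => rv θ M (T (c y)) f y) y := by
          rw [h0, mul_zero]
          unfold tr phi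
          rw [ENNReal.zero_div, ENNReal.zero_rpow_of_pos hθ, tsub_zero, mul_one]
        have e2 : fib V (fun y => fow θ M (node V a c T) y * g y) y
            = fib V (fun z => fow θ M (T (c y)) z * g z) y := by
          unfold fib
          refine lintegral_congr fun z => ?_
          have h1 : a (mix V y z) = 0 := by rw [haW.mix, h0]
          show fow θ M (node V a c T) (mix V y z) * g (mix V y z)
            = fow θ M (T (c y)) (mix V y z) * g (mix V y z)
          rw [fow_node, if_pos h1, hcW.mix]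
        rw [e1, e2, fib_sel hcW (fun k y => rv θ M (T k) f y) y,
          fib_sel hcW (fun k y => pay (T k) f y) y]
        exact ih (c y) (hgd _) (hS.2 _) (hab _) y
      · -- own label
        obtain ⟨hal, b, hb, hbk⟩ := hS.1 y h0
        have e2 : fib V (fun y => fow θ M (node V a c T) y * g y) y = (M * a y) ^ θ * fib V g y := by
          have e3 : (M * a y) ^ θ * fib V g y
              = fib V (fun z => (M * a y) ^ θ * g z) y := by
            rw [fib_mul (g := fun _ => (M * a y) ^ θ) (inv_const V _) hg]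
          rw [e3]
          unfold fib
          refine lintegral_congr fun z => ?_
          have h1 : a (mix V y z) = a y := haW.mix y z
          show fow θ M (node V a c T) (mix V y z) * g (mix V y z)
            = (M * a y) ^ θ * g (mix V y z)
          rw [fow_node, h1, if_neg h0]
        have h1 := fib_pay_le_maj (M := M) (hgd (c y)) hθ hθ1 hb hK hf ENNReal.one_ne_top hf1
          (hab (c y)) y
        rw [← fib_sel hcW (fun k y => rv θ M (T k) f y) y,
          ← fib_sel hcW (fun k y => pay (T k) f y) y] at h1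
        have h2 := node_step (a := a y) (A := a y) hθ hθ1 hK hFD hF le_rfl hbk h1
        refine h2.trans (add_le_add le_rfl ?_)
        rw [e2]
        have h3 : fib V (fun y => pay (T (c y)) f y) y ^ (1 - θ) ≤ 1 := by
          have := ENNReal.rpow_le_rpow hD1 (by linarith : (0:ℝ) ≤ 1 - θ)
          rwa [ENNReal.one_rpow] at this
        calc K * ((M * a y) ^ θ * fib V (fun y => pay (T (c y)) f y) y ^ (1 - θ))
            ≤ K * ((M * a y) ^ θ * 1) := by gcongr
          _ ≤ K * ((M * a y) ^ θ * (ENNReal.ofReal (4 / 3) * fib V g y)) := by gcongr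
          _ = _ := by ring
    have e6 : fib W (pay (node V a c T) f) x
        = fib W (fib V (fun y => pay (T (c y)) f y)) x := by
      rw [pay_node_eq, fib_tower hW hp]
    rw [e6]
    calc fib W (fib V (fun y => pay (T (c y)) f y)) x
        ≤ fib W (fun y => rv θ M (node V a c T) f y + ENNReal.ofReal (4 / 3) * K
            * fib V (fun y => fow θ M (node V a c T) y * g y) y) x := fib_mono key x
      _ = fib W (rv θ M (node V a c T) f) x + fib W (fun y => ENNReal.ofReal (4 / 3) * K
            * fib V (fun y => fow θ M (node V a c T) y * g y) y) x :=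
          fib_add (measurable_rv hT' hf) x
      _ = fib W (rv θ M (node V a c T) f) x + ENNReal.ofReal (4 / 3) * K
            * fib W (fib V (fun y => fow θ M (node V a c T) y * g y)) x := by
          rw [fib_mul (g := fun _ => ENNReal.ofReal (4 / 3) * K)
            (inv_const W (ENNReal.ofReal (4 / 3) * K)) (measurable_fib hfg)]
      _ = _ := by rw [fib_tower hW hfg]

/-! ### openings with slopes -/

/-- **Openings, general form.** If at the last label `V` before every leaf `i` the mass removed by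
the new levels `S i` is at most `fib V (e i)`, then at every outer label the recursive value changes
by at most the mean of `e`, weighted with the slopes of the levels of `T`. -/
theorem fib_open_gen {T : H395.Tree E ι} (hT : Good T) (hθ : 0 < θ) (hθ1 : θ < 1)
    {S : ι → H395.Tree E κ} (hSg : ∀ i, Good (S i)) {f : κ → E → ℝ≥0∞}
    (hf : ∀ i, Measurable (f i)) {C : ℝ≥0∞} (hC : C ≠ ∞) (hfC : ∀ i x, f i x ≤ C)
    {e : ι → E → ℝ≥0∞} (he : ∀ i, Measurable (e i)) {W : Submodule ℝ E} (hW : Above W T)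
    (hl : Last (fun V i => Above V (S i)) W T)
    (hle : Last (fun V i => ∀ x, fib V (pay (S i) f) x
      ≤ fib V (rv θ M (S i) f) x + fib V (e i) x) W T) (x : E) :
    fib W (rv θ M T fun i => pay (S i) f) x ≤ fib W (rv θ M (bind T S) f) x
      + fib W (fun y => slp θ M T (fun i => pay (S i) f) y * pay T e y) x := by
  have hpS : ∀ i, Measurable (pay (S i) f) := fun i => measurable_pay (hSg i) hf
  induction T generalizing W x with
  | leaf i =>
    simp only [slp_leaf, one_mul, rv_leaf, bind_leaf, pay_leaf]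
    exact hle x
  | node V a c T ih =>
    have hT' := hT
    obtain ⟨ha, haW, hc, hcW, hab, hgd⟩ := hT
    have hm1 : Measurable fun y => rv θ M (T (c y)) (fun i => pay (S i) f) y :=
      measurable_sel (fun k => measurable_rv (hgd k) hpS) hc
    have hmb : Measurable (rv θ M (bind (node V a c T) S) f) := by
      rw [rv_bind]
      exact measurable_rv hT' fun i => measurable_rv (hSg i) hf
    set g : ι → E → ℝ≥0∞ := fun i => pay (S i) f with hg
    have hR : Measurable fun y => slp θ M (T (c y)) g y * pay (T (c y)) e y :=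
      measurable_sel (F := fun k y => slp θ M (T k) g y * pay (T k) e y)
        (fun k => (measurable_slp (hgd k) hpS).mul (measurable_pay (hgd k) he)) hc
    set s : E → ℝ≥0∞ := fun x =>
      1 - qq θ (M * a x) (fib V (fun y => rv θ M (T (c y)) g y) x) with hs
    have hsm : Measurable s := measurable_const.sub
      (measurable_qq (ha.const_mul M) (measurable_fib hm1))
    have hsW : Inv V s := by
      intro x w hw
      simp only [hs, haW x w hw, inv_fib V _ x w hw]
    have e1 : (fun y => slp θ M (node V a c T) g y * pay (node V a c T) e y)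
        = fun y => s y * (slp θ M (T (c y)) g y * pay (T (c y)) e y) := by
      funext y
      rw [slp_node, pay_node, mul_assoc]
    rw [e1, ← fib_tower (f := fun y => s y * (slp θ M (T (c y)) g y * pay (T (c y)) e y)) hW
      (hsm.mul hR) x, ← fib_add hmb]
    refine fib_mono (fun y => ?_) x
    rw [fib_mul hsW hR, bind_node, rv_node, rv_node]
    have hXY : fib V (fun y => rv θ M (bind (T (c y)) S) f y) y
        ≤ fib V (fun y => rv θ M (T (c y)) g y) y := by
      rw [fib_sel hcW (fun k y => rv θ M (bind (T k) S) f y) y,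
        fib_sel hcW (fun k y => rv θ M (T k) g y) y]
      exact rv_open_le hθ.le (hgd _) hf hSg (hl _) y
    have hY : fib V (fun y => rv θ M (T (c y)) g y) y ≠ ∞ :=
      ne_top_of_le_ne_top hC ((fib_mono (fun z => rv_le
        (fun i u => hfC (leafOf (S i) u) u) z) y).trans_eq (fib_const _ _ _))
    refine (tr_le_slope (c := M * a y) hθ hθ1 hXY hY).trans ?_
    refine add_le_add le_rfl (mul_le_mul' le_rfl ?_)
    rw [tsub_le_iff_left]
    rw [fib_sel hcW (fun k y => rv θ M (bind (T k) S) f y) y,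
      fib_sel hcW (fun k y => rv θ M (T k) g y) y,
      fib_sel hcW (fun k y => slp θ M (T k) g y * pay (T k) e y) y]
    exact ih (c y) (hgd _) (hab _) (hl _) (hle _) y

/-- the L1 change of the field at an opening -/
theorem fib_open_fld {T : H395.Tree E ι} (hT : Good T) (hθ : 0 < θ) (hθ1 : θ < 1)
    {S : ι → H395.Tree E κ} (hSg : ∀ i, Good (S i)) {f : κ → E → ℝ≥0∞}
    (hf : ∀ i, Measurable (f i)) {C : ℝ≥0∞} (hC : C ≠ ∞) (hfC : ∀ i x, f i x ≤ C)
    {e : ι → E → ℝ≥0∞} (he : ∀ i, Measurable (e i)) {W : Submodule ℝ E} (hW : Above W T)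
    (hl : Last (fun V i => Above V (S i)) W T)
    (hle : Last (fun V i => ∀ x, fib V (pay (S i) f) x
      ≤ fib V (rv θ M (S i) f) x + fib V (e i) x) W T) (x : E) :
    fib W (fun y => fld θ M T (fun i => pay (S i) f) y - fld θ M (bind T S) f y) x
      ≤ fib W (fun y => slp θ M T (fun i => pay (S i) f) y * pay T e y) x := by
  have hpS : ∀ i, Measurable (pay (S i) f) := fun i => measurable_pay (hSg i) hf
  have h1 := fib_open_gen (M := M) hT hθ hθ1 hSg hf hC hfC he hW hl hle x
  have hgb : Good (bind T S) := good_bind hT hSg hl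
  have hab : Above W (bind T S) := above_bind hW hl
  rw [← fib_wt_pay hT hpS hW, ← fib_wt_pay hgb hf hab] at h1
  have hfin : fib W (fun y => wt θ M (bind T S) f y * pay (bind T S) f y) x ≠ ∞ :=
    ne_top_of_le_ne_top hC ((fib_mono (fun y => fld_le (θ := θ) (M := M) (T := bind T S)
      hfC y) x).trans_eq (fib_const _ _ _))
  have h2 : fib W (fun y => wt θ M T (fun i => pay (S i) f) y
        * pay T (fun i => pay (S i) f) y) x
      = fib W (fun y => wt θ M (bind T S) f y * pay (bind T S) f y) x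
        + fib W (fun y => fld θ M T (fun i => pay (S i) f) y - fld θ M (bind T S) f y) x := by
    rw [← fib_add (f := fun y => wt θ M (bind T S) f y * pay (bind T S) f y)
      ((measurable_wt hgb hf).mul (measurable_pay hgb hf))]
    congr 1
    funext y
    exact (add_tsub_cancel_of_le (fld_open_le hθ.le hT hf hSg hl y)).symm
  rw [h2] at h1
  exact (ENNReal.add_le_add_iff_left hfin).mp h1

/-- the plain mass at the root label -/
noncomputable def dval : H395.Tree E ι → (ι → E → ℝ≥0∞) → E → ℝ≥0∞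
  | leaf i, f => f i
  | node V _ c T, f => fib V fun y => pay (T (c y)) f y

/-- T3 before Hölder: the removed mass as a mean over the root label -/
theorem fib_pay_le_dval {T : H395.Tree E ι} (hT : Good T) (hθ : 0 < θ) (hθ1 : θ ≤ 1)
    {k K : ℝ≥0∞} {b : E → ℝ≥0∞} (hb : Maj k T b) (hK : 1 + K * k ^ θ ≤ K)
    {f : ι → E → ℝ≥0∞} (hf : ∀ i, Measurable (f i)) {C : ℝ≥0∞} (hC : C ≠ ∞)
    (hfC : ∀ i x, f i x ≤ C) {W : Submodule ℝ E} (hW : Above W T) (x : E) :
    fib W (pay T f) x ≤ fib W (rv θ M T f) x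
      + fib W (fun y => K * ((M * b y) ^ θ * dval T f y ^ (1 - θ))) x := by
  cases T with
  | leaf i =>
    have e : pay (leaf i : H395.Tree E ι) f = f i := rfl
    rw [e, rv_leaf]
    exact le_self_add
  | node V a c T =>
    have hT' := hT
    have hb' := hb
    obtain ⟨ha, haW, hc, hcW, hab, hgd⟩ := hT
    have hp := measurable_pay_sel hc hgd hf
    have e6 : fib W (pay (node V a c T) f) x
        = fib W (fib V (fun y => pay (T (c y)) f y)) x := by
      rw [pay_node_eq, fib_tower hW hp]
    rw [e6, ← fib_add (measurable_rv hT' hf)]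
    refine fib_mono (fun y => ?_) x
    have h1 := node_hidden_maj (M := M) hT' hθ hθ1 hb' hK hf hC hfC y
    obtain ⟨hbm, hab', b', hb'', hM⟩ := hb
    rw [rv_node]
    have hFD : fib V (fun y => rv θ M (T (c y)) f y) y
        ≤ fib V (fun y => pay (T (c y)) f y) y := by
      rw [fib_sel hcW (fun k y => rv θ M (T k) f y) y, fib_sel hcW (fun k y => pay (T k) f y) y]
      exact fib_rv_le_pay (hgd _) hf (hab _) y
    have hF : fib V (fun y => rv θ M (T (c y)) f y) y ≠ ∞ :=
      ne_top_of_le_ne_top hC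
        ((fib_mono (fun z => rv_le hfC z) y).trans_eq (fib_const _ _ _))
    refine node_step (B := fib V (b' (c y)) y) hθ hθ1 hK hFD hF (hab' y) (hb'' y) ?_
    rw [fib_sel hcW (fun k y => rv θ M (T k) f y) y, fib_sel hcW (fun k y => pay (T k) f y) y]
    exact fib_pay_le_maj (hgd _) hθ hθ1 (hM _) hK hf hC hfC (hab _) y

/-! ### the excess field -/

/-- the excess (hidden) field -/
noncomputable def exc (θ : ℝ) (M : ℝ≥0∞) (T : H395.Tree E ι) (f : ι → E → ℝ≥0∞) (x : E) : ℝ≥0∞ :=
  pay T f x - fld θ M T f x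

lemma fld_le_pay (T : H395.Tree E ι) (f : ι → E → ℝ≥0∞) (x : E) : fld θ M T f x ≤ pay T f x :=
  (mul_le_mul' (wt_le_one T f x) le_rfl).trans_eq (one_mul _)

lemma exc_le_pay (T : H395.Tree E ι) (f : ι → E → ℝ≥0∞) (x : E) : exc θ M T f x ≤ pay T f x :=
  tsub_le_self

lemma measurable_exc {T : H395.Tree E ι} (hT : Good T) {f : ι → E → ℝ≥0∞}
    (hf : ∀ i, Measurable (f i)) : Measurable (exc θ M T f) :=
  (measurable_pay hT hf).sub (measurable_fld hT hf)

/-- mean of the excess -/
lemma fib_exc {T : H395.Tree E ι} (hT : Good T) {f : ι → E → ℝ≥0∞} (hf : ∀ i, Measurable (f i))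
    {W : Submodule ℝ E} (hW : Above W T) (x : E) :
    fib W (pay T f) x = fib W (rv θ M T f) x + fib W (exc θ M T f) x := by
  rw [← fib_wt_pay hT hf hW, ← fib_add (f := fun y => wt θ M T f y * pay T f y)
    ((measurable_wt hT hf).mul (measurable_pay hT hf))]
  congr 1
  funext y
  exact (add_tsub_cancel_of_le (fld_le_pay T f y)).symm

/-- **Two-sided closeness.** `g` is the indicator of the complement of the body, `pay T f` the same
with killed labels raised to `1`. -/
theorem fib_edst_le {T : H395.Tree E ι} (hT : Good T) {f : ι → E → ℝ≥0∞}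
    (hf : ∀ i, Measurable (f i)) {g : E → ℝ≥0∞} (hgf : ∀ x, g x ≤ pay T f x)
    {W : Submodule ℝ E} (x : E) :
    fib W (fun y => edst (g y) (fld θ M T f y)) x
      ≤ fib W (exc θ M T f) x + fib W (fun y => pay T f y - g y) x := by
  rw [← fib_add (measurable_exc hT hf)]
  refine fib_mono (fun y => ?_) x
  unfold edst exc
  exact add_le_add (tsub_le_tsub_right (hgf y) _) (tsub_le_tsub_right (fld_le_pay T f y) _)

/-- **Change of the excess field**, monotone change of the payoffs. -/
theorem fib_exc_le {T : H395.Tree E ι} (hT : Good T) (hθ : 0 < θ) (hθ1 : θ < 1)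
    {f f' : ι → E → ℝ≥0∞} (hf : ∀ i, Measurable (f i)) (hf' : ∀ i, Measurable (f' i))
    (h : ∀ i x, f i x ≤ f' i x) {C : ℝ≥0∞} (hC : C ≠ ∞) (hfC : ∀ i x, f' i x ≤ C)
    {W : Submodule ℝ E} (hW : Above W T) (x : E) :
    fib W (fun y => edst (exc θ M T f' y) (exc θ M T f y)) x
      ≤ 2 * fib W (fun y => (1 - wt θ M T f' y) * (pay T f' y - pay T f y)) x := by
  have mw := measurable_wt (θ := θ) (M := M) hT hf
  have mw' := measurable_wt (θ := θ) (M := M) hT hf'
  have mp := measurable_pay hT hf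
  have mp' := measurable_pay hT hf'
  have hww : ∀ y, wt θ M T f y ≤ wt θ M T f' y := fun y => wt_mono hθ.le h y
  have hpp : ∀ y, pay T f y ≤ pay T f' y := fun y => h _ _
  have hp' : ∀ y, pay T f' y ≠ ∞ := fun y => ne_top_of_le_ne_top hC (hfC _ _)
  have hp : ∀ y, pay T f y ≠ ∞ := fun y => ne_top_of_le_ne_top (hp' y) (hpp y)
  -- pointwise
  have key : ∀ y, edst (exc θ M T f' y) (exc θ M T f y)
      ≤ (1 - wt θ M T f' y) * (pay T f' y - pay T f y)
        + (wt θ M T f' y - wt θ M T f y) * pay T f y := by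
    intro y
    have e1 : exc θ M T f' y = (1 - wt θ M T f' y) * pay T f' y := by
      unfold exc fld
      rw [ENNReal.sub_mul (fun _ _ => hp' y), one_mul]
    have e2 : exc θ M T f y = (1 - wt θ M T f y) * pay T f y := by
      unfold exc fld
      rw [ENNReal.sub_mul (fun _ _ => hp y), one_mul]
    unfold edst
    refine add_le_add ?_ ?_
    · rw [e1, e2, tsub_le_iff_left]
      calc (1 - wt θ M T f' y) * pay T f' y
          = (1 - wt θ M T f' y) * pay T f y
            + (1 - wt θ M T f' y) * (pay T f' y - pay T f y) := by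
            rw [← mul_add, add_tsub_cancel_of_le (hpp y)]
        _ ≤ (1 - wt θ M T f y) * pay T f y
            + (1 - wt θ M T f' y) * (pay T f' y - pay T f y) := by
            gcongr
            exact hww y
    · rw [e1, e2, tsub_le_iff_left]
      calc (1 - wt θ M T f y) * pay T f y
          ≤ ((1 - wt θ M T f' y) + (wt θ M T f' y - wt θ M T f y)) * pay T f y := by
            gcongr
            rw [tsub_le_iff_right]
            calc (1 : ℝ≥0∞) = (1 - wt θ M T f' y) + wt θ M T f' y :=
                  (tsub_add_cancel_of_le (wt_le_one T f' y)).symm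
              _ ≤ (1 - wt θ M T f' y) + ((wt θ M T f' y - wt θ M T f y) + wt θ M T f y) := by
                  gcongr; exact le_tsub_add
              _ = _ := by ring
        _ = (1 - wt θ M T f' y) * pay T f y
            + (wt θ M T f' y - wt θ M T f y) * pay T f y := by rw [add_mul]
        _ ≤ (1 - wt θ M T f' y) * pay T f' y
            + (wt θ M T f' y - wt θ M T f y) * pay T f y := by
            gcongr; exact hpp y
  set A : ℝ≥0∞ := fib W (fun y => (1 - wt θ M T f' y) * (pay T f' y - pay T f y)) x with hA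
  set B : ℝ≥0∞ := fib W (fun y => (wt θ M T f' y - wt θ M T f y) * pay T f y) x with hB
  set P : ℝ≥0∞ := fib W (fun y => wt θ M T f y * pay T f y) x with hP
  set Q : ℝ≥0∞ := fib W (fun y => wt θ M T f' y * (pay T f' y - pay T f y)) x with hQ
  have h1 : fib W (fun y => edst (exc θ M T f' y) (exc θ M T f y)) x ≤ A + B := by
    rw [hA, hB, ← fib_add (f := fun y => (1 - wt θ M T f' y) * (pay T f' y - pay T f y))
      ((measurable_const.sub mw').mul (mp'.sub mp))]
    exact fib_mono key x
  -- the mean of the second term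
  have h2 := fib_rv_le hT hθ hθ1 hf hf' h hC hfC hW (M := M) x
  rw [← fib_wt_pay hT hf' hW, ← fib_wt_pay hT hf hW] at h2
  have e3 : fib W (fun y => wt θ M T f' y * pay T f' y) x = P + B + Q := by
    rw [hP, hB, hQ, ← fib_add (f := fun y => wt θ M T f y * pay T f y) (mw.mul mp),
      ← fib_add (f := fun y => wt θ M T f y * pay T f y
        + (wt θ M T f' y - wt θ M T f y) * pay T f y)
        ((mw.mul mp).add ((mw'.sub mw).mul mp))]
    congr 1
    funext y
    rw [← add_mul, add_tsub_cancel_of_le (hww y), ← mul_add, add_tsub_cancel_of_le (hpp y)]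
  have e4 : fib W (fun y => slp θ M T f' y * (pay T f' y - pay T f y)) x ≤ Q + A := by
    rw [hQ, hA, ← fib_add (f := fun y => wt θ M T f' y * (pay T f' y - pay T f y))
      (mw'.mul (mp'.sub mp))]
    refine fib_mono (fun y => ?_) x
    calc slp θ M T f' y * (pay T f' y - pay T f y) ≤ 1 * (pay T f' y - pay T f y) := by
          gcongr; exact slp_le_one T f' y
      _ = (wt θ M T f' y + (1 - wt θ M T f' y)) * (pay T f' y - pay T f y) := by
          rw [add_tsub_cancel_of_le (wt_le_one T f' y)]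
      _ = _ := by rw [add_mul]
  have hPfin : P ≠ ∞ := ne_top_of_le_ne_top hC ((fib_mono (fun y => fld_le (θ := θ) (M := M)
    (T := T) (fun i z => (h i z).trans (hfC i z)) y) x).trans_eq (fib_const _ _ _))
  have hQfin : Q ≠ ∞ := by
    refine ne_top_of_le_ne_top hC ((fib_mono (fun y => ?_) x).trans_eq (fib_const W C x))
    calc wt θ M T f' y * (pay T f' y - pay T f y) ≤ 1 * pay T f' y := by
          gcongr
          · exact wt_le_one T f' y
          · exact tsub_le_self
      _ ≤ C := by rw [one_mul]; exact hfC _ _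
  rw [e3] at h2
  have h3 : (P + Q) + B ≤ (P + Q) + A := by
    calc (P + Q) + B = P + B + Q := by ring
      _ ≤ P + fib W (fun y => slp θ M T f' y * (pay T f' y - pay T f y)) x := h2
      _ ≤ P + (Q + A) := by gcongr
      _ = (P + Q) + A := by ring
  have h4 : B ≤ A := (ENNReal.add_le_add_iff_left (ENNReal.add_ne_top.mpr ⟨hPfin, hQfin⟩)).mp h3
  calc _ ≤ A + B := h1
    _ ≤ A + A := by gcongr
    _ = 2 * A := by ring

/-- sum of the missing weights along the branch -/
noncomputable def psum (θ : ℝ) (M : ℝ≥0∞) : H395.Tree E ι → (ι → E → ℝ≥0∞) → E → ℝ≥0∞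
  | leaf _, _ => fun _ => 0
  | node W a c T, f => fun x =>
      (1 - phi θ (M * a x) (fib W (fun y => rv θ M (T (c y)) f y) x)) + psum θ M (T (c x)) f x

@[simp] lemma psum_leaf (i : ι) (f : ι → E → ℝ≥0∞) (x : E) : psum θ M (leaf i) f x = 0 := rfl

@[simp] lemma psum_node (W : Submodule ℝ E) (a : E → ℝ≥0∞) (c : E → ℕ) (T : ℕ → H395.Tree E ι)
    (f : ι → E → ℝ≥0∞) (x : E) : psum θ M (node W a c T) f x
      = (1 - phi θ (M * a x) (fib W (fun y => rv θ M (T (c y)) f y) x))
        + psum θ M (T (c x)) f x := rfl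

lemma one_sub_phi_le (θ : ℝ) (c y : ℝ≥0∞) : 1 - phi θ c y ≤ min 1 ((c / y) ^ θ) := by
  refine le_min tsub_le_self ?_
  unfold phi
  rw [tsub_le_iff_left]
  exact le_tsub_add

lemma one_sub_wt_le (T : H395.Tree E ι) (f : ι → E → ℝ≥0∞) (x : E) :
    1 - wt θ M T f x ≤ psum θ M T f x := by
  induction T with
  | leaf i => simp
  | node V a c T ih =>
    rw [wt_node, psum_node]
    set p := phi θ (M * a x) (fib V (fun y => rv θ M (T (c y)) f y) x) with hp
    set w := wt θ M (T (c x)) f x with hw
    have hp1 : p ≤ 1 := phi_le_one _ _ _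
    have hw1 : w ≤ 1 := wt_le_one _ _ _
    refine le_trans ?_ (add_le_add le_rfl (ih (c x)))
    rw [tsub_le_iff_right]
    calc (1 : ℝ≥0∞) = (1 - p) + p := (tsub_add_cancel_of_le hp1).symm
      _ = (1 - p) + p * 1 := by rw [mul_one]
      _ = (1 - p) + p * ((1 - w) + w) := by rw [tsub_add_cancel_of_le hw1]
      _ = (1 - p) + p * (1 - w) + p * w := by ring
      _ ≤ (1 - p) + 1 * (1 - w) + p * w := by gcongr
      _ = _ := by rw [one_mul]

/-! ### real valued versions -/

/-- the field as a real function -/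
noncomputable def fldR (θ : ℝ) (M : ℝ≥0∞) (T : H395.Tree E ι) (f : ι → E → ℝ≥0∞) (x : E) : ℝ :=
  (fld θ M T f x).toReal

lemma fldR_nonneg (T : H395.Tree E ι) (f : ι → E → ℝ≥0∞) (x : E) : 0 ≤ fldR θ M T f x :=
  ENNReal.toReal_nonneg

lemma fldR_le_one {T : H395.Tree E ι} {f : ι → E → ℝ≥0∞} (hf1 : ∀ i x, f i x ≤ 1) (x : E) :
    fldR θ M T f x ≤ 1 := by
  have := ENNReal.toReal_mono ENNReal.one_ne_top (fld_le (θ := θ) (M := M) (T := T) hf1 x)
  simpa [fldR] using this

lemma measurable_fldR {T : H395.Tree E ι} (hT : Good T) {f : ι → E → ℝ≥0∞}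
    (hf : ∀ i, Measurable (f i)) : Measurable (fldR θ M T f) := (measurable_fld hT hf).ennreal_toReal

lemma ofReal_fldR {T : H395.Tree E ι} {f : ι → E → ℝ≥0∞} (hf1 : ∀ i x, f i x ≤ 1) (x : E) :
    ENNReal.ofReal (fldR θ M T f x) = fld θ M T f x :=
  ENNReal.ofReal_toReal (ne_top_of_le_ne_top ENNReal.one_ne_top (fld_le hf1 x))

lemma ofReal_abs_sub {u v : ℝ≥0∞} (hu : u ≠ ∞) (hv : v ≠ ∞) :
    ENNReal.ofReal |u.toReal - v.toReal| = edst u v := by
  unfold edst
  rcases le_total u v with h | h
  · rw [tsub_eq_zero_of_le h, zero_add, abs_sub_comm, ← ENNReal.toReal_sub_of_le h hv,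
      abs_of_nonneg ENNReal.toReal_nonneg, ENNReal.ofReal_toReal]
    exact ne_top_of_le_ne_top hv tsub_le_self
  · rw [tsub_eq_zero_of_le h, add_zero, ← ENNReal.toReal_sub_of_le h hu,
      abs_of_nonneg ENNReal.toReal_nonneg, ENNReal.ofReal_toReal]
    exact ne_top_of_le_ne_top hu tsub_le_self

end Vale.Agent.P262.H703
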