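import Vale.Agent.P262.H703.Field3
import Vale.Agent.P262.H395.Iso
import Vale.Agent.P262.H654.FieldA

/-!
# P262, field of the healthy labels, part 4: soft perturbations and inner rotations

Tested against a function `w` with `|w| ≤ 1`, the field of a tree whose levels all lie in `W'`
changes by at most the tested change of the payoffs in the fibres of `W'` plus the change of their
means, both weighted with the slopes of the levels. A rotation fixing `W'` of the levels below `W'`
changes the field by a small change in the mean plus a rigid motion of the excess field.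
-/

set_option linter.all false

open MeasureTheory ProbabilityTheory Set
open scoped ENNReal RealInnerProductSpace

namespace Vale.Agent.P262.H703

open Vale.Agent.P262.H395
open Vale.Agent.P262.H395.Tree
open Vale.Agent.P262.H654 (Bd fr InvR)
open Vale.Agent.P262.H847 (UI)

variable {E : Type*} [NormedAddCommGroup E] [InnerProductSpace ℝ E] [FiniteDimensional ℝ E]
  [MeasurableSpace E] [BorelSpace E] {ι κ : Type*} {θ : ℝ} {M : ℝ≥0∞}

/-! ### the weights depend on the means of the payoffs only -/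

/-- payoffs with the same means at the last labels -/
lemma mean_congr {T : H395.Tree E ι} (hT : Good T) {g g2 : ι → E → ℝ≥0∞} {W : Submodule ℝ E}
    (h : Last (fun V i => ∀ x, fib V (g i) x = fib V (g2 i) x) W T) (x : E) :
    fib W (rv θ M T g) x = fib W (rv θ M T g2) x ∧ wt θ M T g x = wt θ M T g2 x
      ∧ slp θ M T g x = slp θ M T g2 x := by
  induction T generalizing W x with
  | leaf i => exact ⟨h x, rfl, rfl⟩
  | node V a c T ih =>
    obtain ⟨ha, haW, hc, hcW, hab, hgd⟩ := hT
    have key : ∀ y, fib V (fun z => rv θ M (T (c z)) g z) y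
        = fib V (fun z => rv θ M (T (c z)) g2 z) y := by
      intro y
      rw [fib_sel hcW (fun k z => rv θ M (T k) g z) y, fib_sel hcW (fun k z => rv θ M (T k) g2 z) y]
      exact (ih (c y) (hgd _) (h _) y).1
    obtain ⟨-, h2, h3⟩ := ih (c x) (hgd _) (h _) x
    refine ⟨?_, ?_, ?_⟩
    · congr 1
      funext y
      rw [rv_node, rv_node, key]
    · rw [wt_node, wt_node, key, h2]
    · rw [slp_node, slp_node, key, h3]

/-- the slopes are monotone -/
lemma slp_mono (hθ : 0 ≤ θ) {T : H395.Tree E ι} {f g : ι → E → ℝ≥0∞} (h : ∀ i x, f i x ≤ g i x)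
    (x : E) : slp θ M T f x ≤ slp θ M T g x := by
  induction T with
  | leaf i => exact le_rfl
  | node W a c T ih =>
    rw [slp_node, slp_node]
    refine mul_le_mul' (tsub_le_tsub_left (qq_anti hθ ?_) 1) (ih (c x))
    exact fib_mono (fun y => rv_mono hθ h y) x

/-- a weight is at most the slope -/
lemma phi_le_slope (hθ : 0 ≤ θ) {c y : ℝ≥0∞} (hy : y ≠ ∞) : phi θ c y ≤ 1 - qq θ c y := by
  unfold phi qq
  split_ifs with h
  · refine tsub_le_tsub_left ?_ 1
    calc ENNReal.ofReal (1 - θ) * (c / y) ^ θ ≤ 1 * (c / y) ^ θ := by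
          gcongr
          rw [← ENNReal.ofReal_one]
          exact ENNReal.ofReal_le_ofReal (by linarith)
      _ = _ := one_mul _
  · rw [not_or, not_lt] at h
    have h1 : 1 ≤ c / y := by
      rcases eq_or_ne y 0 with rfl | h0
      · rw [ENNReal.div_zero h.2]; exact le_top
      · rw [ENNReal.le_div_iff_mul_le (Or.inl h0) (Or.inl hy), one_mul]
        exact h.1
    have h2 : 1 ≤ (c / y) ^ θ := by
      have := ENNReal.rpow_le_rpow h1 hθ
      rwa [ENNReal.one_rpow] at this
    rw [tsub_eq_zero_of_le h2]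
    exact zero_le

lemma wt_le_slp (hθ : 0 ≤ θ) {T : H395.Tree E ι} {f : ι → E → ℝ≥0∞} {C : ℝ≥0∞} (hC : C ≠ ∞)
    (hf : ∀ i x, f i x ≤ C) (x : E) : wt θ M T f x ≤ slp θ M T f x := by
  induction T with
  | leaf i => exact le_rfl
  | node W a c T ih =>
    rw [wt_node, slp_node]
    refine mul_le_mul' (phi_le_slope hθ ?_) (ih (c x))
    exact ne_top_of_le_ne_top hC ((fib_mono (fun z => rv_le hf z) x).trans_eq (fib_const _ _ _))

/-! ### trees in a subspace -/

/-- all label spaces are contained in `W'` -/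
def Under (W' : Submodule ℝ E) : H395.Tree E ι → Prop
  | leaf _ => True
  | node W _ _ T => W ≤ W' ∧ ∀ k, Under W' (T k)

lemma leafOf_inv {W' : Submodule ℝ E} {T : H395.Tree E ι} (hT : Good T) (hU : Under W' T) (x : E)
    {v : E} (hv : v ∈ W'ᗮ) : leafOf T (x + v) = leafOf T x := by
  induction T with
  | leaf i => rfl
  | node V a c T ih =>
    obtain ⟨ha, haW, hc, hcW, hab, hgd⟩ := hT
    rw [leafOf_node, leafOf_node, hcW x v (Submodule.orthogonal_le hU.1 hv)]
    exact ih _ (hgd _) (hU.2 _)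

lemma wt_inv {W' : Submodule ℝ E} {T : H395.Tree E ι} (hT : Good T) (hU : Under W' T)
    (f : ι → E → ℝ≥0∞) : Inv W' (wt θ M T f) := by
  induction T with
  | leaf i => exact inv_const _ _
  | node V a c T ih =>
    intro x v hv
    obtain ⟨ha, haW, hc, hcW, hab, hgd⟩ := hT
    have hv' := Submodule.orthogonal_le hU.1 hv
    rw [wt_node, wt_node, hcW x v hv', haW x v hv', inv_fib V _ x v hv',
      ih _ (hgd _) (hU.2 _) x v hv]

lemma slp_inv {W' : Submodule ℝ E} {T : H395.Tree E ι} (hT : Good T) (hU : Under W' T)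
    (f : ι → E → ℝ≥0∞) : Inv W' (slp θ M T f) := by
  induction T with
  | leaf i => exact inv_const _ _
  | node V a c T ih =>
    intro x v hv
    obtain ⟨ha, haW, hc, hcW, hab, hgd⟩ := hT
    have hv' := Submodule.orthogonal_le hU.1 hv
    rw [slp_node, slp_node, hcW x v hv', haW x v hv', inv_fib V _ x v hv',
      ih _ (hgd _) (hU.2 _) x v hv]

lemma fib_pay {W' : Submodule ℝ E} {T : H395.Tree E ι} (hT : Good T) (hU : Under W' T)
    (f : ι → E → ℝ≥0∞) (x : E) : fib W' (pay T f) x = pay T (fun i => fib W' (f i)) x := by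
  unfold fib pay
  congr 1
  funext z
  have e : leafOf T (mix W' x z) = leafOf T x := by
    have h1 : W'.starProjection (mix W' x z) = W'.starProjection x := starProjection_mix W' x z
    have h2 : x - mix W' x z ∈ W'ᗮ := by
      rw [← Submodule.starProjection_apply_eq_zero_iff, map_sub, h1, sub_self]
    have h3 := leafOf_inv hT hU (mix W' x z) h2
    rw [add_sub_cancel] at h3
    exact h3.symm
  rw [e]

lemma last_under {W' : Submodule ℝ E} {T : H395.Tree E ι} (hU : Under W' T)
    {f : ι → E → ℝ≥0∞} (hf : ∀ i, Measurable (f i)) {W : Submodule ℝ E} (hW : W ≤ W') :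
    Last (fun V i => ∀ x, fib V (f i) x = fib V (fib W' (f i)) x) W T := by
  induction T generalizing W with
  | leaf i => exact fun x => (fib_tower hW (hf i) x).symm
  | node V a c T ih => exact fun k => ih k (hU.2 k) hU.1

/-! ### real valued versions -/

/-- real valued version of a function with values in `[0,1]` -/
noncomputable def tR (u : E → ℝ≥0∞) (x : E) : ℝ := (u x).toReal

lemma tR_UI {u : E → ℝ≥0∞} (hu : Measurable u) (h1 : ∀ x, u x ≤ 1) : UI (tR u) :=
  ⟨hu.ennreal_toReal, fun x => ENNReal.toReal_nonneg, fun x => by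
    have := ENNReal.toReal_mono ENNReal.one_ne_top (h1 x)
    simpa [tR] using this⟩

lemma ofReal_tR {u : E → ℝ≥0∞} (h1 : ∀ x, u x ≤ 1) (x : E) : ENNReal.ofReal (tR u x) = u x :=
  ENNReal.ofReal_toReal (ne_top_of_le_ne_top ENNReal.one_ne_top (h1 x))

lemma pay_le_one {T : H395.Tree E ι} {f : ι → E → ℝ≥0∞} (h : ∀ i x, f i x ≤ 1) (x : E) :
    pay T f x ≤ 1 := h _ _

lemma fldR_eq {T : H395.Tree E ι} (f : ι → E → ℝ≥0∞) (x : E) :
    fldR θ M T f x = tR (wt θ M T f) x * tR (pay T f) x := by
  unfold fldR fld tR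
  exact ENNReal.toReal_mul

/-- the larger of the two means over the fibres of `W'` -/
noncomputable def mx (W' : Submodule ℝ E) (g g' : ι → E → ℝ≥0∞) (i : ι) (y : E) : ℝ≥0∞ :=
  max (fib W' (g i) y) (fib W' (g' i) y)

lemma edst_comm (u v : ℝ≥0∞) : edst u v = edst v u := by unfold edst; rw [add_comm]

/-- **Soft perturbation** of the payoffs inside the fibres of `W'`, all levels of `T` in `W'`. -/
theorem pert_tree {T : H395.Tree E ι} (hT : Good T) (hθ : 0 < θ) (hθ1 : θ < 1)
    {g g' : ι → E → ℝ≥0∞} (hg : ∀ i, Measurable (g i)) (hg' : ∀ i, Measurable (g' i))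
    (hg1 : ∀ i x, g i x ≤ 1) (hg1' : ∀ i x, g' i x ≤ 1) {W W' : Submodule ℝ E}
    (hW : Above W T) (hWW : W ≤ W') (hU : Under W' T) {w : E → ℝ} (hw : Measurable w)
    (hw1 : ∀ x, |w x| ≤ 1) (x : E) :
    ENNReal.ofReal |fr W (fun y => (fldR θ M T g' y - fldR θ M T g y) * w y) x|
      ≤ fib W (fun y => slp θ M T (mx W' g g') y
          * ENNReal.ofReal |fr W' (fun z => (tR (pay T g') z - tR (pay T g) z) * w z) y|) x
        + fib W (fun y => slp θ M T (mx W' g g') y
          * edst (fib W' (pay T g') y) (fib W' (pay T g) y)) x := by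
  -- the functions
  set m : ι → E → ℝ≥0∞ := fun i => fib W' (g i) with hm
  set m' : ι → E → ℝ≥0∞ := fun i => fib W' (g' i) with hm'
  set G : ι → E → ℝ≥0∞ := mx W' g g' with hG
  have mm : ∀ i, Measurable (m i) := fun i => measurable_fib (hg i)
  have mm' : ∀ i, Measurable (m' i) := fun i => measurable_fib (hg' i)
  have mG : ∀ i, Measurable (G i) := fun i => (mm i).max (mm' i)
  have m1 : ∀ i x, m i x ≤ 1 := fun i x => fib_le_one (hg1 i) x
  have m1' : ∀ i x, m' i x ≤ 1 := fun i x => fib_le_one (hg1' i) x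
  have G1 : ∀ i x, G i x ≤ 1 := fun i x => max_le (m1 i x) (m1' i x)
  have mG1 : ∀ i x, m i x ≤ G i x := fun i x => le_max_left _ _
  have mG2 : ∀ i x, m' i x ≤ G i x := fun i x => le_max_right _ _
  have ep : ∀ y, fib W' (pay T g) y = pay T m y := fun y => fib_pay hT hU g y
  have ep' : ∀ y, fib W' (pay T g') y = pay T m' y := fun y => fib_pay hT hU g' y
  have ew : ∀ y, wt θ M T g y = wt θ M T m y := fun y =>
    (mean_congr hT (last_under hU hg hWW) y).2.1
  have ew' : ∀ y, wt θ M T g' y = wt θ M T m' y := fun y =>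
    (mean_congr hT (last_under hU hg' hWW) y).2.1
  have hwG : ∀ y, wt θ M T g y ≤ wt θ M T G y := fun y => by
    rw [ew]; exact wt_mono hθ.le mG1 y
  have hwG' : ∀ y, wt θ M T g' y ≤ wt θ M T G y := fun y => by
    rw [ew']; exact wt_mono hθ.le mG2 y
  have hGs : ∀ y, wt θ M T G y ≤ slp θ M T G y := fun y =>
    wt_le_slp hθ.le ENNReal.one_ne_top G1 y
  have Mw := measurable_wt (θ := θ) (M := M) hT hg
  have Mw' := measurable_wt (θ := θ) (M := M) hT hg'
  have MG := measurable_slp (θ := θ) (M := M) hT mG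
  have Mp := measurable_pay hT hg
  have Mp' := measurable_pay hT hg'
  have Mpm := measurable_pay hT mm
  have Mpm' := measurable_pay hT mm'
  have MpG := measurable_pay hT mG
  have Iw : Inv W' (wt θ M T g) := wt_inv hT hU g
  have Iw' : Inv W' (wt θ M T g') := wt_inv hT hU g'
  have Im : Inv W' (pay T m) := by
    have e : pay T m = fib W' (pay T g) := funext fun y => (ep y).symm
    rw [e]; exact inv_fib _ _
  have Im' : Inv W' (pay T m') := by
    have e : pay T m' = fib W' (pay T g') := funext fun y => (ep' y).symm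
    rw [e]; exact inv_fib _ _
  have mset : MeasurableSet {y | pay T m y ≤ pay T m' y} := measurableSet_le Mpm Mpm'
  classical
  set Ψ : E → ℝ≥0∞ := fun y => if pay T m y ≤ pay T m' y then wt θ M T g' y else wt θ M T g y
    with hΨ
  set gs : E → ℝ≥0∞ := fun y => if pay T m y ≤ pay T m' y then pay T g y else pay T g' y
    with hgs
  have MΨ : Measurable Ψ := Measurable.ite mset Mw' Mw
  have Mgs : Measurable gs := Measurable.ite mset Mp Mp'
  have Ψ1 : ∀ y, Ψ y ≤ 1 := fun y => by
    simp only [hΨ]; split_ifs; exacts [wt_le_one _ _ _, wt_le_one _ _ _]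
  have gs1 : ∀ y, gs y ≤ 1 := fun y => by
    simp only [hgs]; split_ifs; exacts [pay_le_one hg1 y, pay_le_one hg1' y]
  have ΨG : ∀ y, Ψ y ≤ slp θ M T G y := fun y => by
    simp only [hΨ]
    split_ifs
    · exact (hwG' y).trans (hGs y)
    · exact (hwG y).trans (hGs y)
  have IΨ : Inv W' Ψ := by
    intro y v hv
    simp only [hΨ, Im y v hv, Im' y v hv, Iw y v hv, Iw' y v hv]
  -- real versions
  have uΨ : UI (tR Ψ) := tR_UI MΨ Ψ1
  have ugs : UI (tR gs) := tR_UI Mgs gs1
  have uw : UI (tR (wt θ M T g)) := tR_UI Mw (wt_le_one _ _)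
  have uw' : UI (tR (wt θ M T g')) := tR_UI Mw' (wt_le_one _ _)
  have up : UI (tR (pay T g)) := tR_UI Mp (pay_le_one hg1)
  have up' : UI (tR (pay T g')) := tR_UI Mp' (pay_le_one hg1')
  have bw : Bd w := ⟨hw, 1, hw1⟩
  have bd : Bd fun y => (tR (pay T g') y - tR (pay T g) y) * w y :=
    ((Bd.of_UI up').sub (Bd.of_UI up)).mul bw
  have bdw : Bd fun y => tR (wt θ M T g') y - tR (wt θ M T g) y :=
    (Bd.of_UI uw').sub (Bd.of_UI uw)
  have IrΨ : InvR W' (tR Ψ) := fun y v hv => by
    unfold tR; rw [IΨ y v hv]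
  have e1 : (fun y => (fldR θ M T g' y - fldR θ M T g y) * w y)
      = fun y => tR Ψ y * ((tR (pay T g') y - tR (pay T g) y) * w y)
        + (tR (wt θ M T g') y - tR (wt θ M T g) y) * tR gs y * w y := by
    funext y
    rw [fldR_eq, fldR_eq]
    have h1 : tR Ψ y = if pay T m y ≤ pay T m' y then tR (wt θ M T g') y
        else tR (wt θ M T g) y := by
      simp only [tR, hΨ]; split_ifs <;> rfl
    have h2 : tR gs y = if pay T m y ≤ pay T m' y then tR (pay T g) y
        else tR (pay T g') y := by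
      simp only [tR, hgs]; split_ifs <;> rfl
    rw [h1, h2]
    split_ifs <;> ring
  have b1 : Bd fun y => tR Ψ y * ((tR (pay T g') y - tR (pay T g) y) * w y) :=
    (Bd.of_UI uΨ).mul bd
  have b2 : Bd fun y => (tR (wt θ M T g') y - tR (wt θ M T g) y) * tR gs y * w y :=
    (bdw.mul (Bd.of_UI ugs)).mul bw
  rw [e1, H654.fr_add b1 b2]
  refine (ENNReal.ofReal_le_ofReal (abs_add_le _ _)).trans ?_
  rw [ENNReal.ofReal_add (abs_nonneg _) (abs_nonneg _)]
  refine add_le_add ?_ ?_
  · -- the tested part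
    rw [← H654.fr_mul_tower hWW IrΨ (Bd.of_UI uΨ) bd x]
    refine (ENNReal.ofReal_le_ofReal (H654.abs_fr_le _ x)).trans ?_
    rw [H654.ofReal_fr ((Bd.of_UI uΨ).mul (bd.fr W')).abs (fun y => abs_nonneg _)]
    refine fib_mono (fun y => ?_) x
    rw [abs_mul, abs_of_nonneg (uΨ.nonneg y), ENNReal.ofReal_mul (uΨ.nonneg y), ofReal_tR Ψ1]
    exact mul_le_mul' (ΨG y) le_rfl
  · -- the change of the weights
    have bA : Bd fun y => |tR (wt θ M T g') y - tR (wt θ M T g) y| * tR gs y :=
      bdw.abs.mul (Bd.of_UI ugs)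
    have s1 : ENNReal.ofReal |fr W (fun y => (tR (wt θ M T g') y - tR (wt θ M T g) y) * tR gs y
        * w y) x| ≤ fib W (fun y => edst (wt θ M T g' y) (wt θ M T g y) * gs y) x := by
      refine (ENNReal.ofReal_le_ofReal (H654.abs_fr_le _ x)).trans ?_
      rw [H654.ofReal_fr b2.abs (fun y => abs_nonneg _)]
      refine fib_mono (fun y => ?_) x
      rw [abs_mul, abs_mul, abs_of_nonneg (ugs.nonneg y)]
      have h3 : |tR (wt θ M T g') y - tR (wt θ M T g) y| * tR gs y * |w y|
          ≤ |tR (wt θ M T g') y - tR (wt θ M T g) y| * tR gs y * 1 :=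
        mul_le_mul_of_nonneg_left (hw1 y) (mul_nonneg (abs_nonneg _) (ugs.nonneg y))
      refine (ENNReal.ofReal_le_ofReal h3).trans ?_
      rw [mul_one, ENNReal.ofReal_mul (abs_nonneg _), ofReal_tR gs1]
      have h4 : ENNReal.ofReal |tR (wt θ M T g') y - tR (wt θ M T g) y|
          = edst (wt θ M T g' y) (wt θ M T g y) :=
        ofReal_abs_sub (ne_top_of_le_ne_top ENNReal.one_ne_top (wt_le_one _ _ _))
          (ne_top_of_le_ne_top ENNReal.one_ne_top (wt_le_one _ _ _))
      rw [h4]
    have Med : Measurable fun y => edst (wt θ M T g' y) (wt θ M T g y) :=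
      (Mw'.sub Mw).add (Mw.sub Mw')
    have Ied : Inv W' fun y => edst (wt θ M T g' y) (wt θ M T g y) := by
      intro y v hv
      simp only [Iw y v hv, Iw' y v hv]
    have egs : ∀ y, fib W' gs y = min (pay T m y) (pay T m' y) := by
      intro y
      have h5 : fib W' gs y = if pay T m y ≤ pay T m' y then fib W' (pay T g) y
          else fib W' (pay T g') y := by
        by_cases h : pay T m y ≤ pay T m' y
        · rw [if_pos h]
          unfold fib
          congr 1
          funext z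
          simp only [hgs, Im.mix, Im'.mix, if_pos h]
        · rw [if_neg h]
          unfold fib
          congr 1
          funext z
          simp only [hgs, Im.mix, Im'.mix, if_neg h]
      rw [h5, ep, ep']
      split_ifs with h
      · rw [min_eq_left h]
      · rw [min_eq_right (not_le.mp h).le]
    have s2 : fib W (fun y => edst (wt θ M T g' y) (wt θ M T g y) * gs y) x
        = fib W (fun y => edst (wt θ M T g' y) (wt θ M T g y)
          * min (pay T m y) (pay T m' y)) x := by
      rw [← fib_tower (f := fun y => edst (wt θ M T g' y) (wt θ M T g y) * gs y) hWW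
        (Med.mul Mgs) x]
      congr 1
      funext y
      rw [fib_mul Ied Mgs, egs]
    have Mf1 : Measurable fun y => fld θ M T G y - fld θ M T m y :=
      (measurable_fld hT mG).sub (measurable_fld hT mm)
    have s3 : fib W (fun y => edst (wt θ M T g' y) (wt θ M T g y)
          * min (pay T m y) (pay T m' y)) x
        ≤ fib W (fun y => (fld θ M T G y - fld θ M T m y)
          + (fld θ M T G y - fld θ M T m' y)) x := by
      refine fib_mono (fun y => ?_) x
      have q1 : edst (wt θ M T g' y) (wt θ M T g y)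
          ≤ (wt θ M T G y - wt θ M T m y) + (wt θ M T G y - wt θ M T m' y) := by
        rw [edst_comm, ← ew, ← ew']
        exact edst_le (hwG y) (hwG' y)
      have key : ∀ (k : ι → E → ℝ≥0∞), (∀ i x, k i x ≤ G i x) → (∀ i x, k i x ≤ 1) →
          (wt θ M T G y - wt θ M T k y) * pay T k y ≤ fld θ M T G y - fld θ M T k y := by
        intro k hk hk1
        have hkf : pay T k y ≠ ∞ := ne_top_of_le_ne_top ENNReal.one_ne_top (pay_le_one hk1 y)
        unfold fld
        rw [ENNReal.sub_mul (fun _ _ => hkf)]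
        refine tsub_le_tsub_right ?_ _
        exact mul_le_mul' le_rfl (hk _ _)
      calc edst (wt θ M T g' y) (wt θ M T g y) * min (pay T m y) (pay T m' y)
          ≤ ((wt θ M T G y - wt θ M T m y) + (wt θ M T G y - wt θ M T m' y))
            * min (pay T m y) (pay T m' y) := mul_le_mul' q1 le_rfl
        _ = (wt θ M T G y - wt θ M T m y) * min (pay T m y) (pay T m' y)
            + (wt θ M T G y - wt θ M T m' y) * min (pay T m y) (pay T m' y) := add_mul _ _ _
        _ ≤ (wt θ M T G y - wt θ M T m y) * pay T m y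
            + (wt θ M T G y - wt θ M T m' y) * pay T m' y := by
            gcongr
            · exact min_le_left _ _
            · exact min_le_right _ _
        _ ≤ _ := add_le_add (key m mG1 m1) (key m' mG2 m1')
    have s4 := fib_fld_sub_le (M := M) hT hθ hθ1 mm mG mG1 ENNReal.one_ne_top G1 hW x
    have s5 := fib_fld_sub_le (M := M) hT hθ hθ1 mm' mG mG2 ENNReal.one_ne_top G1 hW x
    have Mr : Measurable fun y => slp θ M T G y * (pay T G y - pay T m y) :=
      MG.mul (MpG.sub Mpm)
    calc _ ≤ fib W (fun y => (fld θ M T G y - fld θ M T m y)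
          + (fld θ M T G y - fld θ M T m' y)) x := (s1.trans_eq s2).trans s3
      _ = fib W (fun y => fld θ M T G y - fld θ M T m y) x
          + fib W (fun y => fld θ M T G y - fld θ M T m' y) x := fib_add Mf1 x
      _ ≤ fib W (fun y => slp θ M T G y * (pay T G y - pay T m y)) x
          + fib W (fun y => slp θ M T G y * (pay T G y - pay T m' y)) x := add_le_add s4 s5
      _ = fib W (fun y => slp θ M T G y * (pay T G y - pay T m y)
          + slp θ M T G y * (pay T G y - pay T m' y)) x := (fib_add Mr x).symm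
      _ = _ := by
        congr 1
        funext y
        rw [← mul_add, ep, ep', edst_comm]
        congr 1
        exact max_sub_add _ _

/-! ### grafting and rotated trees -/

lemma fld_bind {T : H395.Tree E ι} (hT : Good T) {S : ι → H395.Tree E κ} (hS : ∀ i, Good (S i))
    {f : κ → E → ℝ≥0∞} (hf : ∀ i, Measurable (f i)) {W : Submodule ℝ E}
    (hl : Last (fun V i => Above V (S i)) W T) (x : E) :
    fld θ M (bind T S) f x = fld θ M T (fun i => fld θ M (S i) f) x := by
  have h1 : Last (fun V i => ∀ x, fib V (rv θ M (S i) f) x = fib V (fld θ M (S i) f) x) W T := by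
    clear hT
    induction T generalizing W with
    | leaf i => exact fun y => (fib_wt_pay (hS i) hf hl y).symm
    | node V a c T ih => exact fun k => ih k (hl k)
  have h2 := (mean_congr (θ := θ) (M := M) hT h1 x).2.1
  unfold fld
  rw [wt_bind, pay_bind, h2, mul_assoc]
  rfl

/-- the rotated tree -/
def rotT (ρ : E ≃ₗᵢ[ℝ] E) : H395.Tree E κ → H395.Tree E κ
  | leaf i => leaf i
  | node W a c T => node (W.map (ρ.toLinearEquiv : E →ₗ[ℝ] E)) (fun x => a (ρ.symm x))
      (fun x => c (ρ.symm x)) fun k => rotT ρ (T k)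

@[simp] lemma rotT_leaf (ρ : E ≃ₗᵢ[ℝ] E) (i : κ) : rotT ρ (leaf i : H395.Tree E κ) = leaf i := rfl

@[simp] lemma rotT_node (ρ : E ≃ₗᵢ[ℝ] E) (W : Submodule ℝ E) (a : E → ℝ≥0∞) (c : E → ℕ)
    (T : ℕ → H395.Tree E κ) : rotT ρ (node W a c T)
      = node (W.map (ρ.toLinearEquiv : E →ₗ[ℝ] E)) (fun x => a (ρ.symm x))
      (fun x => c (ρ.symm x)) fun k => rotT ρ (T k) := rfl

lemma symm_perp (ρ : E ≃ₗᵢ[ℝ] E) {W : Submodule ℝ E} {v : E}
    (hv : v ∈ (W.map (ρ.toLinearEquiv : E →ₗ[ℝ] E))ᗮ) : ρ.symm v ∈ Wᗮ := by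
  rw [Submodule.mem_orthogonal] at hv ⊢
  intro u hu
  have h1 := hv _ (Submodule.mem_map_of_mem (f := (ρ.toLinearEquiv : E →ₗ[ℝ] E)) hu)
  have h2 : ⟪u, ρ.symm v⟫ = ⟪ρ u, v⟫ := by
    rw [← ρ.inner_map_map u (ρ.symm v), ρ.apply_symm_apply]
  rw [h2]
  exact h1

lemma above_rotT (ρ : E ≃ₗᵢ[ℝ] E) {W : Submodule ℝ E} {T : H395.Tree E κ} (h : Above W T) :
    Above (W.map (ρ.toLinearEquiv : E →ₗ[ℝ] E)) (rotT ρ T) := by
  cases T with
  | leaf i => trivial
  | node V a c T => exact Submodule.map_mono h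

lemma good_rotT (ρ : E ≃ₗᵢ[ℝ] E) {T : H395.Tree E κ} (hT : Good T) : Good (rotT ρ T) := by
  induction T with
  | leaf i => trivial
  | node V a c T ih =>
    obtain ⟨ha, haW, hc, hcW, hab, hgd⟩ := hT
    have hm : Measurable fun x => ρ.symm x := ρ.symm.continuous.measurable
    refine ⟨ha.comp hm, ?_, hc.comp hm, ?_, fun k => above_rotT ρ (hab k),
      fun k => ih k (hgd k)⟩
    · intro x v hv
      show a (ρ.symm (x + v)) = a (ρ.symm x)
      rw [map_add, haW _ _ (symm_perp ρ hv)]
    · intro x v hv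
      show c (ρ.symm (x + v)) = c (ρ.symm x)
      rw [map_add, hcW _ _ (symm_perp ρ hv)]

lemma leafOf_rotT (ρ : E ≃ₗᵢ[ℝ] E) (T : H395.Tree E κ) (x : E) :
    leafOf (rotT ρ T) (ρ x) = leafOf T x := by
  induction T with
  | leaf i => rfl
  | node V a c T ih =>
    rw [rotT_node, leafOf_node, leafOf_node, ρ.symm_apply_apply, ih]

lemma pay_rotT (ρ : E ≃ₗᵢ[ℝ] E) (T : H395.Tree E κ) (f : κ → E → ℝ≥0∞) (x : E) :
    pay (rotT ρ T) f (ρ x) = pay T (fun i y => f i (ρ y)) x := by
  unfold pay
  rw [leafOf_rotT]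

lemma rv_rotT (ρ : E ≃ₗᵢ[ℝ] E) {T : H395.Tree E κ} (hT : Good T) {f : κ → E → ℝ≥0∞}
    (hf : ∀ i, Measurable (f i)) (x : E) :
    rv θ M (rotT ρ T) f (ρ x) = rv θ M T (fun i y => f i (ρ y)) x := by
  induction T generalizing x with
  | leaf i => rfl
  | node V a c T ih =>
    have hg := good_rotT ρ hT
    obtain ⟨ha, haW, hc, hcW, hab, hgd⟩ := hT
    rw [rotT_node, rv_node, rv_node, ρ.symm_apply_apply, fib_map_isometry ρ V
      (measurable_sel (F := fun k => rv θ M (rotT ρ (T k)) f)
        (fun k => measurable_rv (good_rotT ρ (hgd k)) hf) (hg.2.2.1))]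
    congr 2
    funext y
    rw [ρ.symm_apply_apply]
    exact ih (c y) (hgd _) y

lemma wt_rotT (ρ : E ≃ₗᵢ[ℝ] E) {T : H395.Tree E κ} (hT : Good T) {f : κ → E → ℝ≥0∞}
    (hf : ∀ i, Measurable (f i)) (x : E) :
    wt θ M (rotT ρ T) f (ρ x) = wt θ M T (fun i y => f i (ρ y)) x := by
  induction T generalizing x with
  | leaf i => rfl
  | node V a c T ih =>
    have hg := good_rotT ρ hT
    obtain ⟨ha, haW, hc, hcW, hab, hgd⟩ := hT
    rw [rotT_node, wt_node, wt_node, ρ.symm_apply_apply, fib_map_isometry ρ V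
      (measurable_sel (F := fun k => rv θ M (rotT ρ (T k)) f)
        (fun k => measurable_rv (good_rotT ρ (hgd k)) hf) (hg.2.2.1)), ih (c x) (hgd _) x]
    congr 3
    funext y
    rw [ρ.symm_apply_apply]
    exact rv_rotT ρ (hgd _) hf y

/-- the field of the rotated tree -/
lemma fld_rotT (ρ : E ≃ₗᵢ[ℝ] E) {T : H395.Tree E κ} (hT : Good T) {f : κ → E → ℝ≥0∞}
    (hf : ∀ i, Measurable (f i)) (x : E) :
    fld θ M (rotT ρ T) f x = fld θ M T (fun i y => f i (ρ y)) (ρ.symm x) := by
  conv_lhs => rw [← ρ.apply_symm_apply x]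
  unfold fld
  rw [wt_rotT ρ hT hf, pay_rotT]

/-! ### rigid motions inside the fibres -/

lemma mix_fixes {ρ : E ≃ₗᵢ[ℝ] E} {W : Submodule ℝ E} (h : Fixes ρ W) (x z : E) :
    ρ (mix W x z) = mix W x (ρ z) := by
  rw [← mix_map_isometry ρ W x z, h.map_eq]
  unfold mix
  rw [h.proj x]

lemma fr_fixes {ρ : E ≃ₗᵢ[ℝ] E} {W : Submodule ℝ E} (h : Fixes ρ W) (f : E → ℝ) (x : E) :
    fr W (fun y => f (ρ y)) x = fr W f x := by
  unfold fr
  have h1 : ∀ z, f (ρ (mix W x z)) = (fun z => f (mix W x z)) (ρ z) := fun z => by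
    rw [mix_fixes h]
  simp_rw [h1]
  exact (mp_isometry ρ).integral_comp ρ.toHomeomorph.measurableEmbedding
    (fun z => f (mix W x z))

lemma fixes_sub_mem {ρ : E ≃ₗᵢ[ℝ] E} {W : Submodule ℝ E} (h : Fixes ρ W) (y : E) :
    ρ y - y ∈ Wᗮ := by
  rw [← Submodule.starProjection_apply_eq_zero_iff, map_sub, h.proj, sub_self]

/-- Lipschitz in the directions of the fibres -/
def LipF (W : Submodule ℝ E) (L : ℝ) (w : E → ℝ) : Prop :=
  ∀ y, ∀ v ∈ Wᗮ, |w (y + v) - w y| ≤ L * ‖v‖

/-- **rigid motion plus a small change**, in one fibre -/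
theorem rot_soft {ρ : E ≃ₗᵢ[ℝ] E} {W : Submodule ℝ E} (h : Fixes ρ W) {u u' : E → ℝ} (hu : Bd u)
    (hu' : Bd u') {w : E → ℝ} (hw : Measurable w) (hw1 : ∀ x, |w x| ≤ 1) {L : ℝ} (hL : 0 ≤ L)
    (hwL : LipF W L w) (x : E) :
    ENNReal.ofReal |fr W (fun y => (u' (ρ.symm y) - u y) * w y) x|
      ≤ fib W (fun y => ENNReal.ofReal |u' y - u y|) x
        + ENNReal.ofReal L * fib W (fun y => ENNReal.ofReal (|u y| * ‖ρ y - y‖)) x := by
  have hm : Measurable fun x => ρ x := ρ.continuous.measurable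
  have hms : Measurable fun x => ρ.symm x := ρ.symm.continuous.measurable
  have bw : Bd w := ⟨hw, 1, hw1⟩
  have bwr : Bd fun y => w (ρ y) := bw.comp hm
  have e1 : fr W (fun y => (u' (ρ.symm y) - u y) * w y) x
      = fr W (fun y => (u' y - u y) * w (ρ y)) x
        + fr W (fun y => u y * (w (ρ y) - w y)) x := by
    have h1 : (fun y => (u' (ρ.symm y) - u y) * w y)
        = fun y => u' (ρ.symm y) * w y - u y * w y := by funext y; ring
    rw [h1, H654.fr_sub ((hu'.comp hms).mul bw) (hu.mul bw),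
      ← fr_fixes h (fun y => u' (ρ.symm y) * w y), ← H654.fr_add ((hu'.sub hu).mul bwr)
        (hu.mul (bwr.sub bw)), ← H654.fr_sub]
    · congr 1
      funext y
      rw [ρ.symm_apply_apply]
      ring
    · have := hu'.mul bwr
      simpa only [ρ.symm_apply_apply] using this
    · exact hu.mul bw
  rw [e1]
  refine (ENNReal.ofReal_le_ofReal (abs_add_le _ _)).trans ?_
  rw [ENNReal.ofReal_add (abs_nonneg _) (abs_nonneg _)]
  refine add_le_add ?_ ?_
  · refine (ENNReal.ofReal_le_ofReal (H654.abs_fr_le _ x)).trans ?_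
    rw [H654.ofReal_fr ((hu'.sub hu).mul bwr).abs (fun y => abs_nonneg _)]
    refine fib_mono (fun y => ENNReal.ofReal_le_ofReal ?_) x
    rw [abs_mul]
    exact mul_le_of_le_one_right (abs_nonneg _) (hw1 _)
  · refine (ENNReal.ofReal_le_ofReal (H654.abs_fr_le _ x)).trans ?_
    rw [H654.ofReal_fr (hu.mul (bwr.sub bw)).abs (fun y => abs_nonneg _)]
    have hmb : Measurable fun y => ENNReal.ofReal (|u y| * ‖ρ y - y‖) :=
      (hu.meas.abs.mul (hm.sub measurable_id).norm).ennreal_ofReal
    rw [← fib_mul (g := fun _ => ENNReal.ofReal L) (inv_const W _) hmb]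
    refine fib_mono (fun y => ?_) x
    rw [← ENNReal.ofReal_mul hL]
    refine ENNReal.ofReal_le_ofReal ?_
    rw [abs_mul]
    have h2 := hwL y (ρ y - y) (fixes_sub_mem h y)
    rw [add_sub_cancel] at h2
    calc |u y| * |w (ρ y) - w y| ≤ |u y| * (L * ‖ρ y - y‖) :=
          mul_le_mul_of_nonneg_left h2 (abs_nonneg _)
      _ = _ := by ring

lemma LipF.mono {W W' : Submodule ℝ E} (h : W ≤ W') {L : ℝ} {w : E → ℝ} (hw : LipF W L w) :
    LipF W' L w := fun y v hv => hw y v (Submodule.orthogonal_le h hv)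

/-! ### the inner rotation -/

lemma edst_tri (u v z : ℝ≥0∞) : edst u z ≤ edst u v + edst v z := by
  unfold edst
  calc (u - z) + (z - u) ≤ ((u - v) + (v - z)) + ((z - v) + (v - u)) :=
        add_le_add tsub_le_tsub_add_tsub tsub_le_tsub_add_tsub
    _ = _ := by ring

/-- **Change of the excess field**, arbitrary change of the payoffs. -/
theorem fib_edst_exc {T : H395.Tree E ι} (hT : Good T) (hθ : 0 < θ) (hθ1 : θ < 1)
    {f f' : ι → E → ℝ≥0∞} (hf : ∀ i, Measurable (f i)) (hf' : ∀ i, Measurable (f' i))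
    {C : ℝ≥0∞} (hC : C ≠ ∞) (hfC : ∀ i x, f i x ≤ C) (hfC' : ∀ i x, f' i x ≤ C)
    {W : Submodule ℝ E} (hW : Above W T) (x : E) :
    fib W (fun y => edst (exc θ M T f' y) (exc θ M T f y)) x
      ≤ 2 * fib W (fun y => (1 - wt θ M T (fun i z => max (f i z) (f' i z)) y)
        * edst (pay T f' y) (pay T f y)) x := by
  set G : ι → E → ℝ≥0∞ := fun i z => max (f i z) (f' i z) with hG
  have mG : ∀ i, Measurable (G i) := fun i => (hf i).max (hf' i)
  have hGC : ∀ i x, G i x ≤ C := fun i x => max_le (hfC i x) (hfC' i x)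
  have h1 := fib_exc_le (M := M) hT hθ hθ1 hf mG (fun i x => le_max_left _ _) hC hGC hW x
  have h2 := fib_exc_le (M := M) hT hθ hθ1 hf' mG (fun i x => le_max_right _ _) hC hGC hW x
  have me : ∀ {k : ι → E → ℝ≥0∞}, (∀ i, Measurable (k i)) → Measurable (exc θ M T k) :=
    fun hk => measurable_exc hT hk
  have mp : ∀ {k : ι → E → ℝ≥0∞}, (∀ i, Measurable (k i)) → Measurable (pay T k) :=
    fun hk => measurable_pay hT hk
  have m1 : Measurable fun y => edst (exc θ M T G y) (exc θ M T f' y) :=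
    ((me mG).sub (me hf')).add ((me hf').sub (me mG))
  have m2 : Measurable fun y => (1 - wt θ M T G y) * (pay T G y - pay T f' y) :=
    (measurable_const.sub (measurable_wt hT mG)).mul ((mp mG).sub (mp hf'))
  calc fib W (fun y => edst (exc θ M T f' y) (exc θ M T f y)) x
      ≤ fib W (fun y => edst (exc θ M T G y) (exc θ M T f' y)
          + edst (exc θ M T G y) (exc θ M T f y)) x := by
        refine fib_mono (fun y => ?_) x
        rw [edst_comm (exc θ M T G y) (exc θ M T f' y)]
        exact edst_tri _ _ _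
    _ = fib W (fun y => edst (exc θ M T G y) (exc θ M T f' y)) x
          + fib W (fun y => edst (exc θ M T G y) (exc θ M T f y)) x := fib_add m1 x
    _ ≤ 2 * fib W (fun y => (1 - wt θ M T G y) * (pay T G y - pay T f' y)) x
          + 2 * fib W (fun y => (1 - wt θ M T G y) * (pay T G y - pay T f y)) x :=
        add_le_add h2 h1
    _ = 2 * fib W (fun y => (1 - wt θ M T G y) * (pay T G y - pay T f' y)
          + (1 - wt θ M T G y) * (pay T G y - pay T f y)) x := by
        rw [fib_add m2, mul_add]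
    _ = _ := by
        congr 2
        funext y
        rw [← mul_add]
        congr 1
        rw [add_comm, edst_comm]
        exact max_sub_add _ _

/-- the part of the payoff at the killed labels -/
noncomputable def kp (T : H395.Tree E κ) (f : κ → E → ℝ≥0∞) (g0 : E → ℝ≥0∞) (y : E) : ℝ≥0∞ :=
  pay T f y - g0 y

/-- the mean charge of a rotation -/
noncomputable def ra (θ : ℝ) (M : ℝ≥0∞) (ρ : E ≃ₗᵢ[ℝ] E) (f : κ → E → ℝ≥0∞) (g0 : E → ℝ≥0∞)
    (S : H395.Tree E κ) (y : E) : ℝ≥0∞ :=
  2 * ((1 - wt θ M S (fun i z => max (f i z) (f i (ρ z))) y)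
      * edst (pay S (fun i z => f i (ρ z)) y) (pay S f y))
    + edst (kp S (fun i z => f i (ρ z)) (fun z => g0 (ρ z)) y) (kp S f g0 y)

/-- the moving mass of a rotation, weighted with the displacement -/
noncomputable def rb (θ : ℝ) (M : ℝ≥0∞) (ρ : E ≃ₗᵢ[ℝ] E) (f : κ → E → ℝ≥0∞) (g0 : E → ℝ≥0∞)
    (S : H395.Tree E κ) (y : E) : ℝ≥0∞ :=
  (exc θ M S f y + kp S f g0 y) * ENNReal.ofReal ‖ρ y - y‖

lemma measurable_kp {T : H395.Tree E κ} (hT : Good T) {f : κ → E → ℝ≥0∞}
    (hf : ∀ i, Measurable (f i)) {g0 : E → ℝ≥0∞} (hg : Measurable g0) : Measurable (kp T f g0) :=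
  (measurable_pay hT hf).sub hg

lemma measurable_comp_iso (ρ : E ≃ₗᵢ[ℝ] E) {g : E → ℝ≥0∞} (hg : Measurable g) :
    Measurable fun z => g (ρ z) := hg.comp ρ.continuous.measurable

lemma measurable_ra (ρ : E ≃ₗᵢ[ℝ] E) {f : κ → E → ℝ≥0∞} (hf : ∀ i, Measurable (f i))
    {g0 : E → ℝ≥0∞} (hg : Measurable g0) {S : H395.Tree E κ} (hS : Good S) :
    Measurable (ra θ M ρ f g0 S) := by
  have hfr : ∀ i, Measurable fun z => f i (ρ z) := fun i => measurable_comp_iso ρ (hf i)
  have hgr := measurable_comp_iso ρ hg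
  have a1 := measurable_pay hS hf
  have a2 := measurable_pay hS hfr
  have a3 := measurable_kp hS hf hg
  have a4 := measurable_kp hS hfr hgr
  exact (((measurable_const.sub (measurable_wt hS fun i => (hf i).max (hfr i))).mul
    ((a2.sub a1).add (a1.sub a2))).const_mul 2).add ((a4.sub a3).add (a3.sub a4))

lemma measurable_rb (ρ : E ≃ₗᵢ[ℝ] E) {f : κ → E → ℝ≥0∞} (hf : ∀ i, Measurable (f i))
    {g0 : E → ℝ≥0∞} (hg : Measurable g0) {S : H395.Tree E κ} (hS : Good S) :
    Measurable (rb θ M ρ f g0 S) :=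
  ((measurable_exc hS hf).add (measurable_kp hS hf hg)).mul
    (ρ.continuous.measurable.sub measurable_id).norm.ennreal_ofReal

/-- the real field minus the body -/
lemma fldR_sub {S : H395.Tree E κ} {f : κ → E → ℝ≥0∞} (hf1 : ∀ i x, f i x ≤ 1) {g0 : E → ℝ≥0∞}
    (hg : ∀ i x, g0 x ≤ f i x) (y : E) :
    fldR θ M S f y - tR g0 y = tR (kp S f g0) y - tR (exc θ M S f) y := by
  have h1 : fld θ M S f y ≤ pay S f y := fld_le_pay S f y
  have hp : pay S f y ≤ 1 := pay_le_one hf1 y
  have hpt : pay S f y ≠ ∞ := ne_top_of_le_ne_top ENNReal.one_ne_top hp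
  have e1 : tR (kp S f g0) y = tR (pay S f) y - tR g0 y := by
    unfold tR kp
    exact ENNReal.toReal_sub_of_le (hg _ _) hpt
  have e2 : tR (exc θ M S f) y = tR (pay S f) y - fldR θ M S f y := by
    unfold tR exc fldR
    exact ENNReal.toReal_sub_of_le h1 hpt
  rw [e1, e2]
  ring

/-- **inner rotation, at the label it rotates about** -/
theorem inner_rot {S : H395.Tree E κ} (hS : Good S) (hθ : 0 < θ) (hθ1 : θ < 1)
    {f : κ → E → ℝ≥0∞} (hf : ∀ i, Measurable (f i)) (hf1 : ∀ i x, f i x ≤ 1) {g0 : E → ℝ≥0∞}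
    (hg0 : Measurable g0) (hg : ∀ i x, g0 x ≤ f i x) {ρ : E ≃ₗᵢ[ℝ] E} {W : Submodule ℝ E}
    (hρ : Fixes ρ W) (hW : Above W S) {w : E → ℝ} (hw : Measurable w) (hw1 : ∀ x, |w x| ≤ 1)
    {L : ℝ} (hL : 0 ≤ L) (hwL : LipF W L w) (x : E) :
    ENNReal.ofReal |fr W (fun y => (fldR θ M (rotT ρ S) f y - fldR θ M S f y) * w y) x|
      ≤ fib W (ra θ M ρ f g0 S) x + ENNReal.ofReal L * fib W (rb θ M ρ f g0 S) x := by
  have hfr : ∀ i, Measurable fun z => f i (ρ z) := fun i => measurable_comp_iso ρ (hf i)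
  have hgr := measurable_comp_iso ρ hg0
  have hg1 : ∀ i : κ, ∀ x, g0 x ≤ 1 := fun i x => (hg i x).trans (hf1 i x)
  set f' : κ → E → ℝ≥0∞ := fun i z => f i (ρ z) with hf'
  set g' : E → ℝ≥0∞ := fun z => g0 (ρ z) with hg'
  have hf1' : ∀ i x, f' i x ≤ 1 := fun i x => hf1 i _
  have hgf' : ∀ i x, g' x ≤ f' i x := fun i x => hg i _
  have hκ : κ := leafOf S x
  have g01 : ∀ x, g0 x ≤ 1 := hg1 hκ
  have g11 : ∀ x, g' x ≤ 1 := fun x => g01 _
  have ug : UI (tR g0) := tR_UI hg0 g01
  have ug' : UI (tR g') := tR_UI hgr g11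
  have uf : UI (fldR θ M S f) := ⟨measurable_fldR hS hf, fldR_nonneg S f, fldR_le_one hf1⟩
  have uf' : UI (fldR θ M S f') := ⟨measurable_fldR hS hfr, fldR_nonneg S f', fldR_le_one hf1'⟩
  set u : E → ℝ := fun y => fldR θ M S f y - tR g0 y with hu
  set u' : E → ℝ := fun y => fldR θ M S f' y - tR g' y with hu'
  have bu : Bd u := (Bd.of_UI uf).sub (Bd.of_UI ug)
  have bu' : Bd u' := (Bd.of_UI uf').sub (Bd.of_UI ug')
  have e1 : (fun y => (fldR θ M (rotT ρ S) f y - fldR θ M S f y) * w y)
      = fun y => (u' (ρ.symm y) - u y) * w y := by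
    funext y
    have h1 : fldR θ M (rotT ρ S) f y = fldR θ M S f' (ρ.symm y) := by
      unfold fldR
      rw [fld_rotT ρ hS hf]
    have h2 : tR g' (ρ.symm y) = tR g0 y := by
      simp only [tR, hg', ρ.apply_symm_apply]
    simp only [hu, hu']
    rw [h1, h2]
    ring
  rw [e1]
  refine (rot_soft hρ bu bu' hw hw1 hL hwL x).trans ?_
  have ek : ∀ y, kp S f g0 y ≤ 1 := fun y => tsub_le_self.trans (pay_le_one hf1 y)
  have ek' : ∀ y, kp S f' g' y ≤ 1 := fun y => tsub_le_self.trans (pay_le_one hf1' y)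
  have ee : ∀ y, exc θ M S f y ≤ 1 := fun y => tsub_le_self.trans (pay_le_one hf1 y)
  have ee' : ∀ y, exc θ M S f' y ≤ 1 := fun y => tsub_le_self.trans (pay_le_one hf1' y)
  have ht : ∀ {a : ℝ≥0∞}, a ≤ 1 → a ≠ ∞ := fun h => ne_top_of_le_ne_top ENNReal.one_ne_top h
  refine add_le_add ?_ (mul_le_mul' le_rfl ?_)
  · have me1 := measurable_exc (θ := θ) (M := M) hS hf
    have me2 := measurable_exc (θ := θ) (M := M) hS hfr
    have m1 : Measurable fun y => edst (exc θ M S f' y) (exc θ M S f y) :=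
      (me2.sub me1).add (me1.sub me2)
    have a1 := measurable_pay hS hf
    have a2 := measurable_pay hS hfr
    have m2 : Measurable fun y => (1 - wt θ M S (fun i z => max (f i z) (f' i z)) y)
        * edst (pay S f' y) (pay S f y) :=
      (measurable_const.sub (measurable_wt hS fun i => (hf i).max (hfr i))).mul
        ((a2.sub a1).add (a1.sub a2))
    calc fib W (fun y => ENNReal.ofReal |u' y - u y|) x
        ≤ fib W (fun y => edst (exc θ M S f' y) (exc θ M S f y)
            + edst (kp S f' g' y) (kp S f g0 y)) x := by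
          refine fib_mono (fun y => ?_) x
          simp only [hu, hu']
          rw [fldR_sub hf1 hg y, fldR_sub hf1' hgf' y]
          have h3 : |tR (kp S f' g') y - tR (exc θ M S f') y
              - (tR (kp S f g0) y - tR (exc θ M S f) y)|
              ≤ |tR (exc θ M S f') y - tR (exc θ M S f) y|
                + |tR (kp S f' g') y - tR (kp S f g0) y| := by
            have h4 := abs_sub (tR (kp S f' g') y - tR (kp S f g0) y)
              (tR (exc θ M S f') y - tR (exc θ M S f) y)
            have h5 : tR (kp S f' g') y - tR (kp S f g0) y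
                - (tR (exc θ M S f') y - tR (exc θ M S f) y)
                = tR (kp S f' g') y - tR (exc θ M S f') y
              - (tR (kp S f g0) y - tR (exc θ M S f) y) := by ring
            rw [h5] at h4
            linarith
          refine (ENNReal.ofReal_le_ofReal h3).trans ?_
          rw [ENNReal.ofReal_add (abs_nonneg _) (abs_nonneg _)]
          refine add_le_add (le_of_eq ?_) (le_of_eq ?_)
          · exact ofReal_abs_sub (ht (ee' y)) (ht (ee y))
          · exact ofReal_abs_sub (ht (ek' y)) (ht (ek y))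
      _ = fib W (fun y => edst (exc θ M S f' y) (exc θ M S f y)) x
            + fib W (fun y => edst (kp S f' g' y) (kp S f g0 y)) x := fib_add m1 x
      _ ≤ 2 * fib W (fun y => (1 - wt θ M S (fun i z => max (f i z) (f' i z)) y)
            * edst (pay S f' y) (pay S f y)) x
            + fib W (fun y => edst (kp S f' g' y) (kp S f g0 y)) x :=
          add_le_add (fib_edst_exc hS hθ hθ1 hf hfr ENNReal.one_ne_top hf1 hf1' hW x) le_rfl
      _ = fib W (fun y => 2 * ((1 - wt θ M S (fun i z => max (f i z) (f' i z)) y)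
            * edst (pay S f' y) (pay S f y))) x
            + fib W (fun y => edst (kp S f' g' y) (kp S f g0 y)) x := by
          rw [fib_mul (g := fun _ => (2 : ℝ≥0∞)) (inv_const W _) m2]
      _ = _ := by
          rw [← fib_add (m2.const_mul 2)]
          rfl
  · refine fib_mono (fun y => ?_) x
    unfold rb
    rw [ENNReal.ofReal_mul (abs_nonneg _)]
    refine mul_le_mul' ?_ le_rfl
    have h2 : 0 ≤ tR (exc θ M S f) y := ENNReal.toReal_nonneg
    have h3 : 0 ≤ tR (kp S f g0) y := ENNReal.toReal_nonneg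
    have h1 : |u y| ≤ tR (exc θ M S f) y + tR (kp S f g0) y := by
      simp only [hu]
      rw [fldR_sub hf1 hg y, abs_le]
      constructor <;> linarith
    refine (ENNReal.ofReal_le_ofReal h1).trans ?_
    rw [ENNReal.ofReal_add h2 h3, ofReal_tR ee, ofReal_tR ek]

/-! ### the inner rotation seen from outer labels -/

lemma leafOf_mix {W' : Submodule ℝ E} {T : H395.Tree E ι} (hT : Good T) (hU : Under W' T)
    (x z : E) : leafOf T (mix W' x z) = leafOf T x := by
  have h1 : W'.starProjection (mix W' x z) = W'.starProjection x := starProjection_mix W' x z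
  have h2 : x - mix W' x z ∈ W'ᗮ := by
    rw [← Submodule.starProjection_apply_eq_zero_iff, map_sub, h1, sub_self]
  have h3 := leafOf_inv hT hU (mix W' x z) h2
  rw [add_sub_cancel] at h3
  exact h3.symm

lemma fr_pay {W' : Submodule ℝ E} {T : H395.Tree E ι} (hT : Good T) (hU : Under W' T)
    (g g' : ι → E → ℝ≥0∞) (w : E → ℝ) (x : E) :
    fr W' (fun z => (tR (pay T g') z - tR (pay T g) z) * w z) x
      = fr W' (fun z => (tR (g' (leafOf T x)) z - tR (g (leafOf T x)) z) * w z) x := by
  unfold H654.fr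
  congr 1
  funext z
  simp only [tR, pay, leafOf_mix hT hU]

lemma edst_self (u : ℝ≥0∞) : edst u u = 0 := by unfold edst; simp

lemma last_rot {ρ : E ≃ₗᵢ[ℝ] E} {W' : Submodule ℝ E} (hρ : Fixes ρ W') {T : H395.Tree E ι}
    (hU : Under W' T) {S S' : ι → H395.Tree E κ}
    (hS' : ∀ i, S' i = S i ∨ (S' i = rotT ρ (S i) ∧ Above W' (S i))) {W : Submodule ℝ E}
    (hWW : W ≤ W') (hl : Last (fun V i => Above V (S i)) W T) :
    Last (fun V i => Above V (S' i)) W T := by
  induction T generalizing W with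
  | leaf i =>
    rcases hS' i with h | ⟨h, h'⟩
    · show Above W (S' i)
      rw [h]
      exact hl
    · show Above W (S' i)
      rw [h]
      have h1 := above_rotT ρ h'
      rw [hρ.map_eq] at h1
      exact h1.mono hWW
  | node V a c T ih => exact fun k => ih k (hU.2 k) hU.1 (hl k)

/-- **INNER ROTATION (3.6).** `T` = the levels above the rotation (all label spaces in `W'`),
`S i` the levels below, some of them rotated by `ρ`, which fixes `W'`. At every outer label the
tested change of the field is `a + L b` with `a`, `b` weighted by the slopes of the levels of `T`. -/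
theorem fld_rot {T : H395.Tree E ι} (hT : Good T) (hθ : 0 < θ) (hθ1 : θ < 1)
    {S S' : ι → H395.Tree E κ} (hS : ∀ i, Good (S i)) {ρ : E ≃ₗᵢ[ℝ] E} {W W' : Submodule ℝ E}
    (hρ : Fixes ρ W') (hS' : ∀ i, S' i = S i ∨ (S' i = rotT ρ (S i) ∧ Above W' (S i)))
    (hW : Above W T) (hWW : W ≤ W') (hU : Under W' T)
    (hl : Last (fun V i => Above V (S i)) W T)
    {f : κ → E → ℝ≥0∞} (hf : ∀ i, Measurable (f i)) (hf1 : ∀ i x, f i x ≤ 1) {g0 : E → ℝ≥0∞}
    (hg0 : Measurable g0) (hg : ∀ i x, g0 x ≤ f i x) {w : E → ℝ} (hw : Measurable w)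
    (hw1 : ∀ x, |w x| ≤ 1) {L : ℝ} (hL : 0 ≤ L) (hwL : LipF W' L w) (x : E) :
    ENNReal.ofReal |fr W (fun y => (fldR θ M (bind T S') f y - fldR θ M (bind T S) f y) * w y) x|
      ≤ fib W (fun y => slp θ M T
          (mx W' (fun i => fld θ M (S i) f) (fun i => fld θ M (S' i) f)) y
          * (2 * fib W' (pay T fun i => ra θ M ρ f g0 (S i)) y
            + ENNReal.ofReal L * fib W' (pay T fun i => rb θ M ρ f g0 (S i)) y)) x := by
  have hSg' : ∀ i, Good (S' i) := fun i => by
    rcases hS' i with h | ⟨h, -⟩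
    · rw [h]; exact hS i
    · rw [h]; exact good_rotT ρ (hS i)
  have hl' := last_rot hρ hU hS' hWW hl
  set g : ι → E → ℝ≥0∞ := fun i => fld θ M (S i) f with hgdef
  set g' : ι → E → ℝ≥0∞ := fun i => fld θ M (S' i) f with hgdef'
  have mg : ∀ i, Measurable (g i) := fun i => measurable_fld (hS i) hf
  have mg' : ∀ i, Measurable (g' i) := fun i => measurable_fld (hSg' i) hf
  have g1 : ∀ i x, g i x ≤ 1 := fun i x => fld_le hf1 x
  have g1' : ∀ i x, g' i x ≤ 1 := fun i x => fld_le hf1 x
  -- the tested inner change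
  have inner : ∀ (v : E → ℝ), Measurable v → (∀ x, |v x| ≤ 1) → ∀ K : ℝ, 0 ≤ K → LipF W' K v →
      ∀ y, ENNReal.ofReal |fr W' (fun z => (tR (pay T g') z - tR (pay T g) z) * v z) y|
        ≤ fib W' (pay T fun i => ra θ M ρ f g0 (S i)) y
          + ENNReal.ofReal K * fib W' (pay T fun i => rb θ M ρ f g0 (S i)) y := by
    intro v hv hv1 K hK hvK y
    rw [fr_pay hT hU, fib_pay hT hU, fib_pay hT hU]
    show _ ≤ fib W' (ra θ M ρ f g0 (S (leafOf T y))) y
      + ENNReal.ofReal K * fib W' (rb θ M ρ f g0 (S (leafOf T y))) y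
    rcases hS' (leafOf T y) with h | ⟨h, hab⟩
    · have e0 : (fun z => (tR (g' (leafOf T y)) z - tR (g (leafOf T y)) z) * v z)
          = fun _ => (0 : ℝ) := by
        funext z
        simp only [hgdef, hgdef', h, sub_self, zero_mul]
      rw [e0, H654.fr_const, abs_zero, ENNReal.ofReal_zero]
      exact zero_le
    · have := inner_rot (M := M) (hS (leafOf T y)) hθ hθ1 hf hf1 hg0 hg hρ hab hv hv1 hK hvK y
      simp only [hgdef, hgdef', h]
      exact this
  have h0 := pert_tree (M := M) hT hθ hθ1 mg mg' g1 g1' hW hWW hU hw hw1 x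
  have e1 : (fun y => (fldR θ M (bind T S') f y - fldR θ M (bind T S) f y) * w y)
      = fun y => (fldR θ M T g' y - fldR θ M T g y) * w y := by
    funext y
    unfold fldR
    rw [fld_bind hT hS hf hl, fld_bind hT hSg' hf hl']
  rw [e1]
  refine h0.trans ?_
  have mp := measurable_pay hT mg
  have mp' := measurable_pay hT mg'
  have bp : Bd fun z => (tR (pay T g') z - tR (pay T g) z) * w z :=
    ((Bd.of_UI (tR_UI mp' (pay_le_one g1'))).sub (Bd.of_UI (tR_UI mp (pay_le_one g1)))).mul
      ⟨hw, 1, hw1⟩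
  have ms : Measurable (slp θ M T (mx W' g g')) :=
    measurable_slp hT fun i => (measurable_fib (mg i)).max (measurable_fib (mg' i))
  rw [← fib_add (f := fun y => slp θ M T (mx W' g g') y
    * ENNReal.ofReal |fr W' (fun z => (tR (pay T g') z - tR (pay T g) z) * w z) y|)
    (ms.mul (bp.fr W').abs.meas.ennreal_ofReal)]
  refine fib_mono (fun y => ?_) x
  rw [← mul_add]
  refine mul_le_mul' le_rfl ?_
  -- the change of the means
  have h2 : edst (fib W' (pay T g') y) (fib W' (pay T g) y)
      ≤ fib W' (pay T fun i => ra θ M ρ f g0 (S i)) y := by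
    have h3 := inner (fun _ => 1) measurable_const (fun _ => by simp) 0 le_rfl
      (fun y v hv => by simp) y
    rw [ENNReal.ofReal_zero, zero_mul, add_zero] at h3
    refine le_trans (le_of_eq ?_) h3
    have u1 := tR_UI mp (pay_le_one g1)
    have u2 := tR_UI mp' (pay_le_one g1')
    have e2 : (fun z => (tR (pay T g') z - tR (pay T g) z) * (1 : ℝ))
        = fun z => tR (pay T g') z - tR (pay T g) z := by funext z; rw [mul_one]
    have e3 : ∀ {k : ι → E → ℝ≥0∞}, (∀ i, Measurable (k i)) → (∀ i x, k i x ≤ 1) →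
        (fib W' (pay T k) y).toReal = fr W' (tR (pay T k)) y := by
      intro k hk hk1
      have u := tR_UI (measurable_pay hT hk) (pay_le_one hk1)
      have e4 := H654.ofReal_fr (W := W') (Bd.of_UI u) u.nonneg y
      have e5 : (fun z => ENNReal.ofReal (tR (pay T k) z)) = pay T k :=
        funext fun z => ofReal_tR (pay_le_one hk1) z
      rw [e5] at e4
      rw [← e4, ENNReal.toReal_ofReal (H654.fr_nonneg u.nonneg y)]
    rw [e2, H654.fr_sub (Bd.of_UI u2) (Bd.of_UI u1), ← e3 mg' g1', ← e3 mg g1]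
    refine (ofReal_abs_sub ?_ ?_).symm
    · exact ne_top_of_le_ne_top ENNReal.one_ne_top (fib_le_one (pay_le_one g1') y)
    · exact ne_top_of_le_ne_top ENNReal.one_ne_top (fib_le_one (pay_le_one g1) y)
  have h4 := inner w hw hw1 L hL hwL y
  calc _ ≤ (fib W' (pay T fun i => ra θ M ρ f g0 (S i)) y
          + ENNReal.ofReal L * fib W' (pay T fun i => rb θ M ρ f g0 (S i)) y)
        + fib W' (pay T fun i => ra θ M ρ f g0 (S i)) y := add_le_add h4 h2
    _ = _ := by ring

end Vale.Agent.P262.H703
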