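import Vale.Agent.P262.H703.Field4

/-!
# P262, field of the healthy labels, part 5: the weighted hidden mass

The mass of the excess field weighted with a function `v` (the displacement of a rotation), with
`v ≤ u ^ (1 - θ)`: at most `K (M E[b])^θ E[1_{K^c} u]^(1-θ)` below a healthy label, and at most the
alive mass weighted with `(M a)^θ` of the first own labels below a sick label.
-/

set_option linter.all false

open MeasureTheory ProbabilityTheory Set
open scoped ENNReal RealInnerProductSpace

namespace Vale.Agent.P262.H703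

open Vale.Agent.P262.H395
open Vale.Agent.P262.H395.Tree

variable {E : Type*} [NormedAddCommGroup E] [InnerProductSpace ℝ E] [FiniteDimensional ℝ E]
  [MeasurableSpace E] [BorelSpace E] {ι κ : Type*} {θ : ℝ} {M : ℝ≥0∞}

lemma one_sub_phi_mul_rpow (hθ : 0 ≤ θ) (c F : ℝ≥0∞) : (1 - phi θ c F) * F ^ θ ≤ c ^ θ := by
  have h1 : 1 - phi θ c F ≤ (c / F) ^ θ := (one_sub_phi_le θ c F).trans (min_le_right _ _)
  calc (1 - phi θ c F) * F ^ θ ≤ (c / F) ^ θ * F ^ θ := by gcongr
    _ = (c / F * F) ^ θ := (ENNReal.mul_rpow_of_nonneg _ _ hθ).symm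
    _ ≤ c ^ θ := by
        refine ENNReal.rpow_le_rpow ?_ hθ
        rw [mul_comm]
        exact ENNReal.mul_div_le

lemma fib_mono_mix {W : Submodule ℝ E} {f g : E → ℝ≥0∞} {x : E}
    (h : ∀ z, f (mix W x z) ≤ g (mix W x z)) : fib W f x ≤ fib W g x := lintegral_mono h

/-- **one node** of the weighted hidden mass -/
lemma node_exc {V : Submodule ℝ E} {a : E → ℝ≥0∞} {c : E → ℕ} {T : ℕ → H395.Tree E ι}
    (hT : Good (node V a c T)) (hθ : 0 < θ) (hθ1 : θ < 1) {f : ι → E → ℝ≥0∞}
    (hf : ∀ i, Measurable (f i)) {C : ℝ≥0∞} (hC : C ≠ ∞) (hfC : ∀ i x, f i x ≤ C)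
    {v u : E → ℝ≥0∞} (hv : Measurable v) (hu : Measurable u) (hvu : ∀ x, v x ≤ u x ^ (1 - θ))
    (y : E) :
    fib V (fun z => exc θ M (node V a c T) f z * v z) y
      ≤ fib V (fun z => exc θ M (T (c y)) f z * v z) y
        + (M * a y) ^ θ * fib V (fun z => pay (T (c y)) f z * u z) y ^ (1 - θ) := by
  have hT' := hT
  obtain ⟨ha, haW, hc, hcW, hab, hgd⟩ := hT
  set F : ℝ≥0∞ := fib V (fun z => rv θ M (T (c z)) f z) y with hF
  have hF' : F = fib V (rv θ M (T (c y)) f) y := fib_sel hcW (fun k z => rv θ M (T k) f z) y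
  set r : ℝ≥0∞ := 1 - phi θ (M * a y) F with hr
  have mex := measurable_exc (θ := θ) (M := M) (hgd (c y)) hf
  have mfl := measurable_fld (θ := θ) (M := M) (hgd (c y)) hf
  have mp := measurable_pay (hgd (c y)) hf
  have h1 : fib V (fun z => exc θ M (node V a c T) f z * v z) y
      ≤ fib V (fun z => exc θ M (T (c y)) f z * v z
        + r * (fld θ M (T (c y)) f z * v z)) y := by
    refine fib_mono_mix fun z => ?_
    have e1 : c (mix V y z) = c y := hcW.mix y z
    have e2 : a (mix V y z) = a y := haW.mix y z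
    have e3 : fib V (fun z => rv θ M (T (c z)) f z) (mix V y z) = F := (inv_fib V _).mix y z
    set t := mix V y z with ht
    have e4 : fld θ M (node V a c T) f t = phi θ (M * a y) F * fld θ M (T (c y)) f t := by
      unfold fld
      rw [wt_node, pay_node, e1, e2, e3, mul_assoc]
    have e5 : exc θ M (node V a c T) f t ≤ exc θ M (T (c y)) f t
        + r * fld θ M (T (c y)) f t := by
      unfold exc
      rw [e4, pay_node, e1, tsub_le_iff_right]
      have h2 : fld θ M (T (c y)) f t ≤ pay (T (c y)) f t := fld_le_pay _ _ _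
      refine le_of_eq ?_
      calc pay (T (c y)) f t
          = (pay (T (c y)) f t - fld θ M (T (c y)) f t) + fld θ M (T (c y)) f t :=
            (tsub_add_cancel_of_le h2).symm
        _ = (pay (T (c y)) f t - fld θ M (T (c y)) f t)
            + (r + phi θ (M * a y) F) * fld θ M (T (c y)) f t := by
            rw [hr, tsub_add_cancel_of_le (phi_le_one _ _ _), one_mul]
        _ = (pay (T (c y)) f t - fld θ M (T (c y)) f t) + r * fld θ M (T (c y)) f t
            + phi θ (M * a y) F * fld θ M (T (c y)) f t := by ring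
    calc exc θ M (node V a c T) f t * v t
        ≤ (exc θ M (T (c y)) f t + r * fld θ M (T (c y)) f t) * v t := mul_le_mul' e5 le_rfl
      _ = _ := by rw [add_mul, mul_assoc]
  have h2 : fib V (fun z => fld θ M (T (c y)) f z * v z) y
      ≤ F ^ θ * fib V (fun z => pay (T (c y)) f z * u z) y ^ (1 - θ) := by
    have hθ2 : (0:ℝ) ≤ 1 - θ := by linarith
    calc fib V (fun z => fld θ M (T (c y)) f z * v z) y
        ≤ fib V (fun z => fld θ M (T (c y)) f z ^ θ
            * (fld θ M (T (c y)) f z * u z) ^ (1 - θ)) y := by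
          refine fib_mono (fun z => ?_) y
          set p := fld θ M (T (c y)) f z with hp
          calc p * v z ≤ p * u z ^ (1 - θ) := by gcongr; exact hvu z
            _ = (p ^ θ * p ^ (1 - θ)) * u z ^ (1 - θ) := by
              rw [← ENNReal.rpow_add_of_nonneg _ _ hθ.le hθ2, add_sub_cancel, ENNReal.rpow_one]
            _ = _ := by rw [ENNReal.mul_rpow_of_nonneg _ _ hθ2, mul_assoc]
      _ ≤ fib V (fld θ M (T (c y)) f) y ^ θ
            * fib V (fun z => fld θ M (T (c y)) f z * u z) y ^ (1 - θ) :=
          fib_holder mfl (mfl.mul hu) hθ.le hθ1.le y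
      _ ≤ F ^ θ * fib V (fun z => pay (T (c y)) f z * u z) y ^ (1 - θ) := by
          refine mul_le_mul' ?_ (ENNReal.rpow_le_rpow (fib_mono (fun z =>
            mul_le_mul' (fld_le_pay _ _ _) le_rfl) y) hθ2)
          refine ENNReal.rpow_le_rpow (le_of_eq ?_) hθ.le
          rw [hF']
          exact fib_wt_pay (hgd (c y)) hf (hab (c y)) y
  calc _ ≤ fib V (fun z => exc θ M (T (c y)) f z * v z
        + r * (fld θ M (T (c y)) f z * v z)) y := h1
    _ = fib V (fun z => exc θ M (T (c y)) f z * v z) y
        + r * fib V (fun z => fld θ M (T (c y)) f z * v z) y := by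
        rw [fib_add (f := fun z => exc θ M (T (c y)) f z * v z) (mex.mul hv),
          fib_mul (g := fun _ => r) (f := fun z => fld θ M (T (c y)) f z * v z)
            (inv_const V _) (mfl.mul hv)]
    _ ≤ fib V (fun z => exc θ M (T (c y)) f z * v z) y
        + r * (F ^ θ * fib V (fun z => pay (T (c y)) f z * u z) y ^ (1 - θ)) := by gcongr
    _ = fib V (fun z => exc θ M (T (c y)) f z * v z) y
        + (r * F ^ θ) * fib V (fun z => pay (T (c y)) f z * u z) y ^ (1 - θ) := by ring
    _ ≤ _ := by
        gcongr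
        exact one_sub_phi_mul_rpow hθ.le _ _

/-- **Weighted hidden mass, healthy labels.** -/
theorem fib_exc_weight {T : H395.Tree E ι} (hT : Good T) (hθ : 0 < θ) (hθ1 : θ < 1)
    {k K : ℝ≥0∞} {b : E → ℝ≥0∞} (hb : Maj k T b) (hK : 1 + K * k ^ θ ≤ K)
    {f : ι → E → ℝ≥0∞} (hf : ∀ i, Measurable (f i)) {C : ℝ≥0∞} (hC : C ≠ ∞)
    (hfC : ∀ i x, f i x ≤ C) {v u : E → ℝ≥0∞} (hv : Measurable v) (hu : Measurable u)
    (hvu : ∀ x, v x ≤ u x ^ (1 - θ)) {W : Submodule ℝ E} (hW : Above W T) (x : E) :
    fib W (fun y => exc θ M T f y * v y) x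
      ≤ K * ((M * fib W b x) ^ θ * fib W (fun y => pay T f y * u y) x ^ (1 - θ)) := by
  have hθ2 : (0:ℝ) ≤ 1 - θ := by linarith
  induction T generalizing W x b with
  | leaf i =>
    have e : (fun y => exc θ M (leaf i) f y * v y) = fun _ => 0 := by
      funext y
      unfold exc fld
      rw [wt_leaf, one_mul, tsub_self, zero_mul]
    rw [e, fib_const]
    exact zero_le
  | node V a c T ih =>
    have hT' := hT
    obtain ⟨ha, haW, hc, hcW, hab, hgd⟩ := hT
    obtain ⟨hbm, hab', b', hb', hM⟩ := hb
    have hpu : Measurable fun y => pay (T (c y)) f y * u y := (measurable_pay_sel hc hgd hf).mul hu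
    set P : E → ℝ≥0∞ := fib V (fun y => pay (T (c y)) f y * u y) with hP
    have mP : Measurable P := measurable_fib hpu
    have key : ∀ y, fib V (fun z => exc θ M (node V a c T) f z * v z) y
        ≤ K * ((M * b y) ^ θ * P y ^ (1 - θ)) := by
      intro y
      have e1 : P y = fib V (fun z => pay (T (c y)) f z * u z) y :=
        fib_sel hcW (fun k z => pay (T k) f z * u z) y
      have h1 := node_exc (M := M) hT' hθ hθ1 hf hC hfC hv hu hvu y
      have h2 := ih (c y) (hgd _) (hM _) (hab _) y
      rw [← e1] at h1 h2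
      have h3 : (M * fib V (b' (c y)) y) ^ θ ≤ k ^ θ * (M * b y) ^ θ := by
        rw [← ENNReal.mul_rpow_of_nonneg _ _ hθ.le]
        refine ENNReal.rpow_le_rpow ?_ hθ.le
        calc M * fib V (b' (c y)) y ≤ M * (k * b y) := by gcongr; exact hb' y
          _ = k * (M * b y) := by ring
      have h4 : (M * a y) ^ θ ≤ (M * b y) ^ θ :=
        ENNReal.rpow_le_rpow (by gcongr; exact hab' y) hθ.le
      calc _ ≤ fib V (fun z => exc θ M (T (c y)) f z * v z) y
            + (M * a y) ^ θ * P y ^ (1 - θ) := h1
        _ ≤ K * ((M * fib V (b' (c y)) y) ^ θ * P y ^ (1 - θ))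
            + (M * b y) ^ θ * P y ^ (1 - θ) := by gcongr
        _ ≤ K * ((k ^ θ * (M * b y) ^ θ) * P y ^ (1 - θ))
            + (M * b y) ^ θ * P y ^ (1 - θ) := by gcongr
        _ = (1 + K * k ^ θ) * ((M * b y) ^ θ * P y ^ (1 - θ)) := by ring
        _ ≤ _ := by gcongr
    have mexn : Measurable fun z => exc θ M (node V a c T) f z * v z :=
      (measurable_exc hT' hf).mul hv
    have e2 : (fun y => pay (node V a c T) f y * u y) = fun y => pay (T (c y)) f y * u y := by
      funext y; rw [pay_node]
    calc fib W (fun y => exc θ M (node V a c T) f y * v y) x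
        = fib W (fib V (fun z => exc θ M (node V a c T) f z * v z)) x :=
          (fib_tower hW mexn x).symm
      _ ≤ fib W (fun y => K * ((M * b y) ^ θ * P y ^ (1 - θ))) x := fib_mono key x
      _ = K * fib W (fun y => (M * b y) ^ θ * P y ^ (1 - θ)) x :=
          fib_mul (g := fun _ => K) (inv_const W K)
            (((hbm.const_mul M).pow_const θ).mul (mP.pow_const (1 - θ))) x
      _ ≤ K * (fib W (fun y => M * b y) x ^ θ * fib W P x ^ (1 - θ)) := by
          gcongr
          exact fib_holder (hbm.const_mul M) mP hθ.le hθ1.le x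
      _ = _ := by
          rw [fib_mul (g := fun _ => M) (inv_const W M) hbm, hP, fib_tower hW hpu, e2]

/-- hereditary property of the own labels (nonzero cap) -/
def OwnP (P : Submodule ℝ E → E → Prop) : H395.Tree E ι → Prop
  | leaf _ => True
  | node V a c T => (∀ x, a x ≠ 0 → P V x) ∧ ∀ i, OwnP P (T i)

/-- **Weighted hidden mass, sick labels.** -/
theorem fib_exc_weight_sick {T : H395.Tree E ι} (hT : Good T) (hθ : 0 < θ) (hθ1 : θ < 1)
    {k K : ℝ≥0∞} {g : E → ℝ≥0∞} (hS : Sick k g T) (hK : 1 + K * k ^ θ ≤ K)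
    {f : ι → E → ℝ≥0∞} (hf : ∀ i, Measurable (f i)) (hf1 : ∀ i x, f i x ≤ 1)
    {v u g1 : E → ℝ≥0∞} (hv : Measurable v) (hu : Measurable u)
    (hvu : ∀ x, v x ≤ u x ^ (1 - θ)) (hg1 : Measurable g1) {C1 : ℝ≥0∞}
    (hO : OwnP (fun V x => fib V u x ^ (1 - θ) ≤ C1 * fib V g1 x) T)
    {W : Submodule ℝ E} (hW : Above W T) (x : E) :
    fib W (fun y => exc θ M T f y * v y) x
      ≤ K * C1 * fib W (fun y => fow θ M T y * g1 y) x := by
  have hθ2 : (0:ℝ) ≤ 1 - θ := by linarith
  induction T generalizing W x with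
  | leaf i =>
    have e : (fun y => exc θ M (leaf i) f y * v y) = fun _ => 0 := by
      funext y
      unfold exc fld
      rw [wt_leaf, one_mul, tsub_self, zero_mul]
    rw [e, fib_const]
    exact zero_le
  | node V a c T ih =>
    have hT' := hT
    obtain ⟨ha, haW, hc, hcW, hab, hgd⟩ := hT
    have mfg : Measurable fun y => fow θ M (node V a c T) y * g1 y := (measurable_fow hT').mul hg1
    have key : ∀ y, fib V (fun z => exc θ M (node V a c T) f z * v z) y
        ≤ K * C1 * fib V (fun z => fow θ M (node V a c T) z * g1 z) y := by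
      intro y
      have h1 := node_exc (M := M) hT' hθ hθ1 hf ENNReal.one_ne_top hf1 hv hu hvu y
      by_cases h0 : a y = 0
      · have e2 : fib V (fun y => fow θ M (node V a c T) y * g1 y) y
            = fib V (fun z => fow θ M (T (c y)) z * g1 z) y := by
          unfold fib
          refine lintegral_congr fun z => ?_
          have h1 : a (mix V y z) = 0 := by rw [haW.mix, h0]
          show fow θ M (node V a c T) (mix V y z) * g1 (mix V y z)
            = fow θ M (T (c y)) (mix V y z) * g1 (mix V y z)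
          rw [fow_node, if_pos h1, hcW.mix]
        rw [h0, mul_zero, ENNReal.zero_rpow_of_pos hθ, zero_mul, add_zero] at h1
        rw [e2]
        exact h1.trans (ih (c y) (hgd _) (hS.2 _) (hO.2 _) (hab _) y)
      · obtain ⟨hal, b, hb, hbk⟩ := hS.1 y h0
        have e2 : fib V (fun y => fow θ M (node V a c T) y * g1 y) y
            = (M * a y) ^ θ * fib V g1 y := by
          have e3 : (M * a y) ^ θ * fib V g1 y
              = fib V (fun z => (M * a y) ^ θ * g1 z) y := by
            rw [fib_mul (g := fun _ => (M * a y) ^ θ) (inv_const V _) hg1]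
          rw [e3]
          unfold fib
          refine lintegral_congr fun z => ?_
          have h1 : a (mix V y z) = a y := haW.mix y z
          show fow θ M (node V a c T) (mix V y z) * g1 (mix V y z)
            = (M * a y) ^ θ * g1 (mix V y z)
          rw [fow_node, h1, if_neg h0]
        have h2 := fib_exc_weight (M := M) (hgd (c y)) hθ hθ1 hb hK hf ENNReal.one_ne_top hf1
          hv hu hvu (hab (c y)) y
        set P : ℝ≥0∞ := fib V (fun z => pay (T (c y)) f z * u z) y with hP
        have hPu : P ≤ fib V u y := by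
          refine fib_mono (fun z => ?_) y
          calc pay (T (c y)) f z * u z ≤ 1 * u z := by gcongr; exact hf1 _ _
            _ = u z := one_mul _
        have h3 : (M * fib V b y) ^ θ ≤ k ^ θ * (M * a y) ^ θ := by
          rw [← ENNReal.mul_rpow_of_nonneg _ _ hθ.le]
          refine ENNReal.rpow_le_rpow ?_ hθ.le
          calc M * fib V b y ≤ M * (k * a y) := by gcongr
            _ = k * (M * a y) := by ring
        rw [e2]
        calc _ ≤ fib V (fun z => exc θ M (T (c y)) f z * v z) y
              + (M * a y) ^ θ * P ^ (1 - θ) := h1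
          _ ≤ K * ((M * fib V b y) ^ θ * P ^ (1 - θ)) + (M * a y) ^ θ * P ^ (1 - θ) := by gcongr
          _ ≤ K * ((k ^ θ * (M * a y) ^ θ) * P ^ (1 - θ)) + (M * a y) ^ θ * P ^ (1 - θ) := by
              gcongr
          _ = (1 + K * k ^ θ) * ((M * a y) ^ θ * P ^ (1 - θ)) := by ring
          _ ≤ K * ((M * a y) ^ θ * fib V u y ^ (1 - θ)) := by gcongr
          _ ≤ K * ((M * a y) ^ θ * (C1 * fib V g1 y)) := by
              gcongr
              exact hO.1 y h0
          _ = _ := by ring
    have mexn : Measurable fun z => exc θ M (node V a c T) f z * v z :=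
      (measurable_exc hT' hf).mul hv
    calc fib W (fun y => exc θ M (node V a c T) f y * v y) x
        = fib W (fib V (fun z => exc θ M (node V a c T) f z * v z)) x :=
          (fib_tower hW mexn x).symm
      _ ≤ fib W (fun y => K * C1 * fib V (fun z => fow θ M (node V a c T) z * g1 z) y) x :=
          fib_mono key x
      _ = K * C1 * fib W (fib V (fun z => fow θ M (node V a c T) z * g1 z)) x :=
          fib_mul (g := fun _ => K * C1) (inv_const W _) (measurable_fib mfg) x
      _ = _ := by rw [fib_tower hW mfg]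

end Vale.Agent.P262.H703
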