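import Vale.Agent.P262.H703.Field5
import Vale.Agent.P262.H962.Chi

/-!
# P262, field of the healthy labels, part 6: the displaced mass of a plane rotation

`U` = the plane of the rotation, displacement `≤ φ ‖P_U y‖`. Bathtub bound for `‖P_U y‖²` in the
fibres orthogonal to `U`; at the labels with alive mass at least `3/4` the second moment is at most
the alive mass weighted with `1 + ‖P_U y‖`.
-/

set_option linter.all false

open MeasureTheory ProbabilityTheory Set
open scoped ENNReal RealInnerProductSpace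

namespace Vale.Agent.P262.H703

open Vale.Agent.P262.H395
open Vale.Agent.P262.H395.Tree

variable {E : Type*} [NormedAddCommGroup E] [InnerProductSpace ℝ E] [FiniteDimensional ℝ E]
  [MeasurableSpace E] [BorelSpace E] {ι κ : Type*} {θ : ℝ} {M : ℝ≥0∞}

/-- the norm of the projection on the plane -/
noncomputable def pn (U : Submodule ℝ E) (y : E) : ℝ := ‖U.starProjection y‖

lemma pn_nonneg (U : Submodule ℝ E) (y : E) : 0 ≤ pn U y := norm_nonneg _

lemma continuous_pn (U : Submodule ℝ E) : Continuous (pn U) := by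
  unfold pn
  fun_prop

lemma measurable_pn (U : Submodule ℝ E) : Measurable fun y => ENNReal.ofReal (pn U y) :=
  (continuous_pn U).measurable.ennreal_ofReal

lemma measurable_pn2 (U : Submodule ℝ E) : Measurable fun y => ENNReal.ofReal (pn U y ^ 2) :=
  ((continuous_pn U).pow 2).measurable.ennreal_ofReal

/-! ### reflection of the fibre -/

/-- `P_U` of the label part -/
noncomputable def mp0 (U V : Submodule ℝ E) (y : E) : E := U.starProjection (V.starProjection y)

/-- `P_U` of the fibre part -/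
noncomputable def np0 (U V : Submodule ℝ E) (z : E) : E :=
  U.starProjection (z - V.starProjection z)

lemma proj_mix (U V : Submodule ℝ E) (y z : E) :
    U.starProjection (mix V y z) = mp0 U V y + np0 U V z := by
  unfold mix mp0 np0
  rw [map_add]

lemma np0_neg (U V : Submodule ℝ E) (z : E) : np0 U V (-z) = -np0 U V z := by
  unfold np0
  rw [map_neg, ← neg_add_eq_sub, neg_neg, add_comm, ← map_neg]
  congr 1
  abel

lemma lintegral_neg' {f : E → ℝ≥0∞} (hf : Measurable f) :
    ∫⁻ z, f (-z) ∂stdGaussian E = ∫⁻ z, f z ∂stdGaussian E :=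
  lintegral_isometry (LinearIsometryEquiv.neg ℝ) hf

lemma mp0_mix (U V : Submodule ℝ E) (y z : E) : mp0 U V (mix V y z) = mp0 U V y := by
  unfold mp0
  rw [starProjection_mix]

/-- **half of the fibre is at least as far from the axis as the label** -/
lemma half_mass (U V : Submodule ℝ E) (y : E) :
    1 ≤ 2 * fib V ({z | ‖mp0 U V z‖ ≤ pn U z}.indicator 1) y := by
  set A : Set E := {z | ‖mp0 U V z‖ ≤ pn U z} with hA
  have hc : Continuous fun z => ‖mp0 U V z‖ := by unfold mp0; fun_prop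
  have hAm : MeasurableSet A := (isClosed_le hc (continuous_pn U)).measurableSet
  have hm : Measurable fun z => A.indicator (1 : E → ℝ≥0∞) (mix V y z) :=
    (measurable_one.indicator hAm).comp (measurable_mix_right V y)
  have h1 : ∀ z, (1 : ℝ≥0∞) ≤ A.indicator 1 (mix V y z) + A.indicator 1 (mix V y (-z)) := by
    intro z
    have key : mix V y z ∈ A ∨ mix V y (-z) ∈ A := by
      simp only [hA, Set.mem_setOf_eq, mp0_mix, pn, proj_mix, np0_neg]
      by_contra hcon
      rw [not_or, not_le, not_le] at hcon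
      obtain ⟨h1, h2⟩ := hcon
      set m := mp0 U V y
      set n := np0 U V z
      have h3 := parallelogram_law_with_norm ℝ m n
      rw [← sub_eq_add_neg] at h2
      have h4 := norm_nonneg (m + n)
      have h5 := norm_nonneg (m - n)
      have h6 := norm_nonneg n
      nlinarith
    rcases key with h | h
    · rw [Set.indicator_of_mem h]; exact le_self_add
    · rw [Set.indicator_of_mem (a := mix V y (-z)) h]; exact le_add_self
  calc (1 : ℝ≥0∞) = ∫⁻ z : E, 1 ∂stdGaussian E := by simp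
    _ ≤ ∫⁻ z, (A.indicator 1 (mix V y z) + A.indicator 1 (mix V y (-z))) ∂stdGaussian E :=
        lintegral_mono h1
    _ = ∫⁻ z, A.indicator 1 (mix V y z) ∂stdGaussian E
        + ∫⁻ z, A.indicator 1 (mix V y (-z)) ∂stdGaussian E := lintegral_add_left hm _
    _ = ∫⁻ z, A.indicator 1 (mix V y z) ∂stdGaussian E
        + ∫⁻ z, A.indicator 1 (mix V y z) ∂stdGaussian E := by rw [lintegral_neg' hm]
    _ = 2 * fib V (A.indicator 1) y := by
        unfold fib
        rw [two_mul]

/-- alive mass at least `3/4`: the label part is controlled by the alive mass -/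
lemma label_le_alive (U V : Submodule ℝ E) {g : E → ℝ≥0∞} (hg : Measurable g) (y : E)
    (hgy : 1 ≤ ENNReal.ofReal (4 / 3) * fib V g y) (hg1 : ∀ z, g z ≤ 1) :
    ENNReal.ofReal ‖mp0 U V y‖ ≤ 4 * fib V (fun z => g z * ENNReal.ofReal (pn U z)) y := by
  set A : Set E := {z | ‖mp0 U V z‖ ≤ pn U z} with hA
  have hc : Continuous fun z => ‖mp0 U V z‖ := by unfold mp0; fun_prop
  have hAm : MeasurableSet A := (isClosed_le hc (continuous_pn U)).measurableSet
  have mA : Measurable (A.indicator (1 : E → ℝ≥0∞)) := measurable_one.indicator hAm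
  have mA' : Measurable (Aᶜ.indicator (1 : E → ℝ≥0∞)) := measurable_one.indicator hAm.compl
  set p : ℝ≥0∞ := fib V (fun z => g z * A.indicator 1 z) y with hp
  set q : ℝ≥0∞ := fib V (A.indicator 1) y with hq
  set q' : ℝ≥0∞ := fib V (Aᶜ.indicator 1) y with hq'
  set G : ℝ≥0∞ := fib V g y with hG
  have h1 : 1 ≤ 2 * q := half_mass U V y
  have h2 : q + q' = 1 := by
    rw [hq, hq', ← fib_add mA]
    have e : (fun z => A.indicator (1 : E → ℝ≥0∞) z + Aᶜ.indicator 1 z) = fun _ => 1 := by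
      funext z
      by_cases h : z ∈ A
      · rw [indicator_of_mem h, indicator_of_notMem (fun h' : z ∈ Aᶜ => h' h)]; simp
      · rw [indicator_of_notMem h, indicator_of_mem (show z ∈ Aᶜ from h)]; simp
    rw [e, fib_const]
  have h3 : G ≤ p + q' := by
    rw [hG, hp, hq', ← fib_add (f := fun z => g z * A.indicator 1 z) (hg.mul mA)]
    refine fib_mono (fun z => ?_) y
    by_cases h : z ∈ A
    · rw [indicator_of_mem h, indicator_of_notMem (fun h' : z ∈ Aᶜ => h' h)]; simp
    · rw [indicator_of_notMem h, indicator_of_mem (show z ∈ Aᶜ from h)]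
      simpa using hg1 z
  have hG1 : G ≤ 1 := fib_le_one hg1 y
  have hq1 : q ≤ 1 := h2 ▸ le_self_add
  have hq1' : q' ≤ 1 := h2 ▸ le_add_self
  have hpG : p ≤ 1 := by
    refine le_trans (fib_mono (fun z => ?_) y) hG1
    calc g z * A.indicator 1 z ≤ g z * 1 := by
          gcongr
          by_cases h : z ∈ A
          · rw [indicator_of_mem h]; rfl
          · rw [indicator_of_notMem h]; exact zero_le
      _ = g z := mul_one _
  have h4 : 1 ≤ 4 * p := by
    have t : ∀ {a : ℝ≥0∞}, a ≤ 1 → a ≠ ∞ := fun h => ne_top_of_le_ne_top ENNReal.one_ne_top h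
    have r1 : (1:ℝ) ≤ 2 * q.toReal := by
      have := ENNReal.toReal_mono (ENNReal.mul_ne_top (by simp) (t hq1)) h1
      simpa [ENNReal.toReal_mul] using this
    have r2 : q.toReal + q'.toReal = 1 := by
      rw [← ENNReal.toReal_add (t hq1) (t hq1'), h2]; simp
    have r3 : G.toReal ≤ p.toReal + q'.toReal := by
      rw [← ENNReal.toReal_add (t hpG) (t hq1')]
      exact ENNReal.toReal_mono (ENNReal.add_ne_top.mpr ⟨t hpG, t hq1'⟩) h3
    have r4 : (1:ℝ) ≤ 4 / 3 * G.toReal := by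
      have := ENNReal.toReal_mono (ENNReal.mul_ne_top (by simp) (t hG1)) hgy
      rw [ENNReal.toReal_mul, ENNReal.toReal_ofReal (by norm_num)] at this
      simpa using this
    have r5 : (1:ℝ) ≤ 4 * p.toReal := by linarith
    have r6 : ENNReal.ofReal 1 ≤ ENNReal.ofReal (4 * p.toReal) := ENNReal.ofReal_le_ofReal r5
    rw [ENNReal.ofReal_one, ENNReal.ofReal_mul (by norm_num), ENNReal.ofReal_toReal (t hpG)] at r6
    simpa using r6
  calc ENNReal.ofReal ‖mp0 U V y‖ = ENNReal.ofReal ‖mp0 U V y‖ * 1 := (mul_one _).symm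
    _ ≤ ENNReal.ofReal ‖mp0 U V y‖ * (4 * p) := by gcongr
    _ = 4 * (ENNReal.ofReal ‖mp0 U V y‖ * p) := by ring
    _ = 4 * fib V (fun z => ENNReal.ofReal ‖mp0 U V y‖ * (g z * A.indicator 1 z)) y := by
        rw [hp, fib_mul (g := fun _ => ENNReal.ofReal ‖mp0 U V y‖)
          (f := fun z => g z * A.indicator 1 z) (inv_const V _) (hg.mul mA)]
    _ ≤ 4 * fib V (fun z => g z * ENNReal.ofReal (pn U z)) y := by
        gcongr
        refine fib_mono_mix fun z => ?_
        set t := mix V y z with ht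
        by_cases h : t ∈ A
        · rw [indicator_of_mem h]
          have h5 : ‖mp0 U V y‖ ≤ pn U t := by
            have : ‖mp0 U V t‖ ≤ pn U t := h
            rwa [ht, mp0_mix] at this
          calc ENNReal.ofReal ‖mp0 U V y‖ * (g t * (1 : E → ℝ≥0∞) t)
              = g t * ENNReal.ofReal ‖mp0 U V y‖ := by simp [mul_comm]
            _ ≤ g t * ENNReal.ofReal (pn U t) := by gcongr
        · rw [indicator_of_notMem h]; simp

/-! ### second moments -/

/-- the second moment of the fibre part -/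
noncomputable def cf (U V : Submodule ℝ E) : ℝ≥0∞ :=
  ∫⁻ z, ENNReal.ofReal (‖np0 U V z‖ ^ 2) ∂stdGaussian E

lemma measurable_np0 (U V : Submodule ℝ E) :
    Measurable fun z => ENNReal.ofReal (‖np0 U V z‖ ^ 2) := by
  have : Continuous fun z => ‖np0 U V z‖ ^ 2 := by unfold np0; fun_prop
  exact this.measurable.ennreal_ofReal

/-- Pythagoras in the fibre -/
lemma fib_pn2 (U V : Submodule ℝ E) (y : E) :
    fib V (fun z => ENNReal.ofReal (pn U z ^ 2)) y
      = ENNReal.ofReal (‖mp0 U V y‖ ^ 2) + cf U V := by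
  set m := mp0 U V y with hm
  have hcm : Measurable fun z => ENNReal.ofReal (‖m + np0 U V z‖ ^ 2) := by
    have : Continuous fun z => ‖m + np0 U V z‖ ^ 2 := by unfold np0; fun_prop
    exact this.measurable.ennreal_ofReal
  have hcm' : Measurable fun z => ENNReal.ofReal (‖m + np0 U V (-z)‖ ^ 2) := by
    have : Continuous fun z => ‖m + np0 U V (-z)‖ ^ 2 := by unfold np0; fun_prop
    exact this.measurable.ennreal_ofReal
  have e1 : fib V (fun z => ENNReal.ofReal (pn U z ^ 2)) y
      = ∫⁻ z, ENNReal.ofReal (‖m + np0 U V z‖ ^ 2) ∂stdGaussian E := by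
    unfold fib pn
    simp only [proj_mix, ← hm]
  have e2 : ∫⁻ z, ENNReal.ofReal (‖m + np0 U V (-z)‖ ^ 2) ∂stdGaussian E
      = ∫⁻ z, ENNReal.ofReal (‖m + np0 U V z‖ ^ 2) ∂stdGaussian E :=
    lintegral_neg' hcm
  have e3 : ∀ z, ENNReal.ofReal (‖m + np0 U V z‖ ^ 2) + ENNReal.ofReal (‖m + np0 U V (-z)‖ ^ 2)
      = 2 * (ENNReal.ofReal (‖m‖ ^ 2) + ENNReal.ofReal (‖np0 U V z‖ ^ 2)) := by
    intro z
    have h2 : (2 : ℝ≥0∞) = ENNReal.ofReal 2 := by simp
    rw [h2, ← ENNReal.ofReal_add (by positivity) (by positivity),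
      ← ENNReal.ofReal_add (by positivity) (by positivity), ← ENNReal.ofReal_mul (by norm_num)]
    congr 1
    rw [np0_neg]
    have h3 := parallelogram_law_with_norm ℝ m (np0 U V z)
    rw [← sub_eq_add_neg]
    nlinarith
  have e4 : 2 * fib V (fun z => ENNReal.ofReal (pn U z ^ 2)) y
      = 2 * (ENNReal.ofReal (‖m‖ ^ 2) + cf U V) := by
    calc 2 * fib V (fun z => ENNReal.ofReal (pn U z ^ 2)) y
        = ∫⁻ z, ENNReal.ofReal (‖m + np0 U V z‖ ^ 2) ∂stdGaussian E
          + ∫⁻ z, ENNReal.ofReal (‖m + np0 U V (-z)‖ ^ 2) ∂stdGaussian E := by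
          rw [e1, e2, two_mul]
      _ = ∫⁻ z, (ENNReal.ofReal (‖m + np0 U V z‖ ^ 2)
          + ENNReal.ofReal (‖m + np0 U V (-z)‖ ^ 2)) ∂stdGaussian E :=
          (lintegral_add_left hcm _).symm
      _ = ∫⁻ z, 2 * (ENNReal.ofReal (‖m‖ ^ 2) + ENNReal.ofReal (‖np0 U V z‖ ^ 2))
          ∂stdGaussian E := lintegral_congr e3
      _ = 2 * ∫⁻ z, (ENNReal.ofReal (‖m‖ ^ 2) + ENNReal.ofReal (‖np0 U V z‖ ^ 2))
          ∂stdGaussian E := lintegral_const_mul _ (measurable_const.add (measurable_np0 U V))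
      _ = _ := by
          rw [lintegral_add_left measurable_const]
          simp [cf]
  exact (ENNReal.mul_right_inj (by simp) (by simp)).mp e4

/-- the Gaussian moment of the plane -/
lemma lintegral_exp_pn (U : Submodule ℝ E) (hU : Module.finrank ℝ U ≤ 2) :
    ∫⁻ z, ENNReal.ofReal (Real.exp (1 / 4 * pn U z ^ 2)) ∂stdGaussian E ≤ 2 := by
  have h1 := H962.lintegral_exp_proj U (lam := 1 / 4) (by norm_num)
  have h2 : ((Real.sqrt (1 - 2 * (1 / 4)))⁻¹ : ℝ) = Real.sqrt 2 := by
    rw [← Real.sqrt_inv]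
    norm_num
  rw [h2] at h1
  unfold pn
  rw [h1]
  have h3 : (1 : ℝ≥0∞) ≤ ENNReal.ofReal (Real.sqrt 2) := by
    rw [← ENNReal.ofReal_one]
    refine ENNReal.ofReal_le_ofReal ?_
    rw [Real.one_le_sqrt]
    norm_num
  calc ENNReal.ofReal (Real.sqrt 2) ^ Module.finrank ℝ U ≤ ENNReal.ofReal (Real.sqrt 2) ^ 2 :=
        pow_le_pow_right₀ h3 hU
    _ = 2 := by
        rw [← ENNReal.ofReal_pow (Real.sqrt_nonneg 2), Real.sq_sqrt (by norm_num)]
        simp

lemma lintegral_pn2 (U : Submodule ℝ E) (hU : Module.finrank ℝ U ≤ 2) :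
    ∫⁻ z, ENNReal.ofReal (pn U z ^ 2) ∂stdGaussian E ≤ 8 := by
  have hm : Measurable fun z : E => ENNReal.ofReal (Real.exp (1 / 4 * pn U z ^ 2)) := by
    have : Continuous fun z : E => Real.exp (1 / 4 * pn U z ^ 2) := by
      unfold pn; fun_prop
    exact this.measurable.ennreal_ofReal
  calc ∫⁻ z, ENNReal.ofReal (pn U z ^ 2) ∂stdGaussian E
      ≤ ∫⁻ z, 4 * ENNReal.ofReal (Real.exp (1 / 4 * pn U z ^ 2)) ∂stdGaussian E := by
        refine lintegral_mono fun z => ?_
        have h4 : (4 : ℝ≥0∞) = ENNReal.ofReal 4 := by simp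
        rw [h4, ← ENNReal.ofReal_mul (by norm_num)]
        refine ENNReal.ofReal_le_ofReal ?_
        have := Real.add_one_le_exp (1 / 4 * pn U z ^ 2)
        linarith
    _ = 4 * ∫⁻ z, ENNReal.ofReal (Real.exp (1 / 4 * pn U z ^ 2)) ∂stdGaussian E :=
        lintegral_const_mul _ hm
    _ ≤ 4 * 2 := by gcongr; exact lintegral_exp_pn U hU
    _ = 8 := by norm_num

lemma cf_le (U V : Submodule ℝ E) (hU : Module.finrank ℝ U ≤ 2) : cf U V ≤ 8 := by
  calc cf U V = ∫⁻ y : E, cf U V ∂stdGaussian E := by simp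
    _ ≤ ∫⁻ y, fib V (fun z => ENNReal.ofReal (pn U z ^ 2)) y ∂stdGaussian E := by
        refine lintegral_mono fun y => ?_
        show cf U V ≤ fib V (fun z => ENNReal.ofReal (pn U z ^ 2)) y
        rw [fib_pn2]
        exact le_add_self
    _ = ∫⁻ z, ENNReal.ofReal (pn U z ^ 2) ∂stdGaussian E := lintegral_fib (measurable_pn2 U)
    _ ≤ 8 := lintegral_pn2 U hU

/-- **the second moment at an own label** -/
lemma sqrt_pn2_le (U V : Submodule ℝ E) (hU : Module.finrank ℝ U ≤ 2) {g : E → ℝ≥0∞}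
    (hg : Measurable g) (hg1 : ∀ z, g z ≤ 1) (y : E)
    (hgy : 1 ≤ ENNReal.ofReal (4 / 3) * fib V g y) :
    fib V (fun z => ENNReal.ofReal (pn U z ^ 2)) y ^ (1 - (1 / 2 : ℝ))
      ≤ 4 * fib V (fun z => g z * ENNReal.ofReal (1 + pn U z)) y := by
  have h1 : fib V (fun z => ENNReal.ofReal (pn U z ^ 2)) y
      ≤ ENNReal.ofReal ((‖mp0 U V y‖ + 3) ^ 2) := by
    rw [fib_pn2]
    calc ENNReal.ofReal (‖mp0 U V y‖ ^ 2) + cf U V
        ≤ ENNReal.ofReal (‖mp0 U V y‖ ^ 2) + ENNReal.ofReal 8 := by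
          gcongr
          simpa using cf_le U V hU
      _ = ENNReal.ofReal (‖mp0 U V y‖ ^ 2 + 8) :=
          (ENNReal.ofReal_add (by positivity) (by norm_num)).symm
      _ ≤ _ := by
          refine ENNReal.ofReal_le_ofReal ?_
          have := norm_nonneg (mp0 U V y)
          nlinarith
  have h2 : ENNReal.ofReal ((‖mp0 U V y‖ + 3) ^ 2) ^ (1 - (1 / 2 : ℝ))
      = ENNReal.ofReal (‖mp0 U V y‖ + 3) := by
    have hn : 0 ≤ ‖mp0 U V y‖ + 3 := by positivity
    rw [ENNReal.ofReal_rpow_of_nonneg (by positivity) (by norm_num), ← Real.rpow_natCast,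
      ← Real.rpow_mul hn]
    norm_num
  have mgp : Measurable fun z => g z * ENNReal.ofReal (pn U z) := hg.mul (measurable_pn U)
  have h3 := label_le_alive U V hg y hgy hg1
  calc fib V (fun z => ENNReal.ofReal (pn U z ^ 2)) y ^ (1 - (1 / 2 : ℝ))
      ≤ ENNReal.ofReal ((‖mp0 U V y‖ + 3) ^ 2) ^ (1 - (1 / 2 : ℝ)) :=
        ENNReal.rpow_le_rpow h1 (by norm_num)
    _ = ENNReal.ofReal ‖mp0 U V y‖ + 3 := by
        rw [h2, ENNReal.ofReal_add (norm_nonneg _) (by norm_num)]
        simp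
    _ ≤ 4 * fib V (fun z => g z * ENNReal.ofReal (pn U z)) y + 4 * fib V g y := by
        refine add_le_add h3 ?_
        calc (3 : ℝ≥0∞) = 3 * 1 := (mul_one _).symm
          _ ≤ 3 * (ENNReal.ofReal (4 / 3) * fib V g y) := by gcongr
          _ = (3 * ENNReal.ofReal (4 / 3)) * fib V g y := by ring
          _ = 4 * fib V g y := by
              congr 1
              have h5 : (3 : ℝ≥0∞) = ENNReal.ofReal 3 := by simp
              rw [h5, ← ENNReal.ofReal_mul (by norm_num)]
              norm_num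
    _ = 4 * fib V (fun z => g z * ENNReal.ofReal (pn U z) + g z) y := by
        rw [fib_add mgp, mul_add]
    _ = _ := by
        congr 2
        funext z
        rw [ENNReal.ofReal_add (by norm_num) (pn_nonneg U z), ENNReal.ofReal_one]
        ring

/-! ### bathtub -/

lemma fib_exp_pn (U : Submodule ℝ E) (hU : Module.finrank ℝ U ≤ 2) {W : Submodule ℝ E}
    (hUW : U ≤ Wᗮ) (x : E) :
    fib W (fun z => ENNReal.ofReal (Real.exp (1 / 4 * pn U z ^ 2))) x ≤ 2 := by
  refine le_trans (le_of_eq ?_) (lintegral_exp_pn U hU)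
  have hp : ∀ v : E, U.starProjection (W.starProjection v) = 0 := by
    intro v
    rw [Submodule.starProjection_apply_eq_zero_iff, Submodule.mem_orthogonal]
    intro u hu
    have h1 := hUW hu
    rw [Submodule.mem_orthogonal] at h1
    rw [real_inner_comm]
    exact h1 _ (Submodule.starProjection_apply_mem W v)
  unfold fib pn mix
  refine lintegral_congr fun z => ?_
  show ENNReal.ofReal (Real.exp (1 / 4 * ‖U.starProjection (W.starProjection x
    + (z - W.starProjection z))‖ ^ 2)) = ENNReal.ofReal (Real.exp (1 / 4 * ‖U.starProjection z‖ ^ 2))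
  rw [map_add, map_sub, hp, hp, zero_add, sub_zero]

/-- **bathtub for the second moment**, `U` orthogonal to the label -/
theorem bathtub2 (U : Submodule ℝ E) (hU : Module.finrank ℝ U ≤ 2) {W : Submodule ℝ E}
    (hUW : U ≤ Wᗮ) {p : E → ℝ≥0∞} (hp : Measurable p) (hp1 : ∀ x, p x ≤ 1) (x : E) :
    fib W (fun z => p z * ENNReal.ofReal (pn U z ^ 2)) x
      ≤ ENNReal.ofReal (8 * (fib W p x).toReal * (1 - Real.log (fib W p x).toReal)) := by
  set D : ℝ≥0∞ := fib W p x with hD
  have hD1 : D ≤ 1 := fib_le_one hp1 x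
  have hDt : D ≠ ∞ := ne_top_of_le_ne_top ENNReal.one_ne_top hD1
  rcases eq_or_ne D 0 with h0 | h0
  · have h1 : (fun z => p (mix W x z)) =ᵐ[stdGaussian E] 0 :=
      (lintegral_eq_zero_iff (f := fun z => p (mix W x z))
        (hp.comp (measurable_mix_right W x))).mp h0
    have h2 : fib W (fun z => p z * ENNReal.ofReal (pn U z ^ 2)) x = 0 := by
      refine (lintegral_eq_zero_iff (f := fun z => p (mix W x z)
        * ENNReal.ofReal (pn U (mix W x z) ^ 2))
        ((hp.mul (measurable_pn2 U)).comp (measurable_mix_right W x))).mpr ?_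
      filter_upwards [h1] with z hz
      have hz' : p (mix W x z) = 0 := hz
      show p (mix W x z) * _ = 0
      rw [hz', zero_mul]
    rw [h2]
    exact zero_le
  set d : ℝ := D.toReal with hd
  have hd0 : 0 < d := ENNReal.toReal_pos h0 hDt
  have hd1 : d ≤ 1 := by
    have := ENNReal.toReal_mono ENNReal.one_ne_top hD1
    simpa using this
  have hlog : Real.log d ≤ 0 := Real.log_nonpos hd0.le hd1
  have hme : Measurable fun z : E => ENNReal.ofReal (Real.exp (1 / 4 * pn U z ^ 2)) := by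
    have : Continuous fun z : E => Real.exp (1 / 4 * pn U z ^ 2) := by
      unfold pn; fun_prop
    exact this.measurable.ennreal_ofReal
  -- pointwise inequality
  have key : ∀ s : ℝ, s ≤ 4 * (-Real.log d) + 4 * d * Real.exp (1 / 4 * s) := by
    intro s
    have h1 := Real.add_one_le_exp (1 / 4 * s + Real.log d)
    rw [Real.exp_add, Real.exp_log hd0] at h1
    nlinarith
  have h3 : fib W (fun z => p z * ENNReal.ofReal (pn U z ^ 2)) x
      ≤ fib W (fun z => ENNReal.ofReal (4 * (-Real.log d)) * p z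
        + ENNReal.ofReal (4 * d) * ENNReal.ofReal (Real.exp (1 / 4 * pn U z ^ 2))) x := by
    refine fib_mono (fun z => ?_) x
    calc p z * ENNReal.ofReal (pn U z ^ 2)
        ≤ p z * ENNReal.ofReal (4 * (-Real.log d) + 4 * d * Real.exp (1 / 4 * pn U z ^ 2)) := by
          gcongr
          exact key _
      _ = ENNReal.ofReal (4 * (-Real.log d)) * p z
          + p z * ENNReal.ofReal (4 * d * Real.exp (1 / 4 * pn U z ^ 2)) := by
          rw [ENNReal.ofReal_add (by nlinarith) (by positivity), mul_add]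
          ring
      _ ≤ ENNReal.ofReal (4 * (-Real.log d)) * p z
          + 1 * ENNReal.ofReal (4 * d * Real.exp (1 / 4 * pn U z ^ 2)) := by
          gcongr
          exact hp1 z
      _ = _ := by rw [one_mul, ENNReal.ofReal_mul (p := 4 * d) (by positivity)]
  refine h3.trans ?_
  rw [fib_add (hp.const_mul _), fib_mul (g := fun _ => ENNReal.ofReal (4 * (-Real.log d)))
    (inv_const W _) hp, fib_mul (g := fun _ => ENNReal.ofReal (4 * d))
    (f := fun z => ENNReal.ofReal (Real.exp (1 / 4 * pn U z ^ 2))) (inv_const W _) hme]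
  have h4 := fib_exp_pn U hU hUW x
  have h5 : D = ENNReal.ofReal d := (ENNReal.ofReal_toReal hDt).symm
  calc ENNReal.ofReal (4 * (-Real.log d)) * D
        + ENNReal.ofReal (4 * d) * fib W (fun z => ENNReal.ofReal (Real.exp (1 / 4 * pn U z ^ 2))) x
      ≤ ENNReal.ofReal (4 * (-Real.log d)) * ENNReal.ofReal d + ENNReal.ofReal (4 * d) * 2 := by
        rw [h5]
        gcongr
    _ = ENNReal.ofReal (4 * (-Real.log d) * d + 4 * d * 2) := by
        have h6 : (2 : ℝ≥0∞) = ENNReal.ofReal 2 := by simp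
        rw [h6, ← ENNReal.ofReal_mul (by nlinarith), ← ENNReal.ofReal_mul (by positivity),
          ← ENNReal.ofReal_add (by nlinarith) (by positivity)]
    _ ≤ _ := by
        refine ENNReal.ofReal_le_ofReal ?_
        nlinarith

/-! ### the displaced mass of the excess field -/

lemma disp_le {ρ : E ≃ₗᵢ[ℝ] E} {U : Submodule ℝ E} {φ : ℝ}
    (hφ : ∀ y, ‖ρ y - y‖ ≤ φ * pn U y) (hφ0 : 0 ≤ φ) (y : E) :
    ENNReal.ofReal ‖ρ y - y‖ ≤ ENNReal.ofReal (φ ^ 2 * pn U y ^ 2) ^ (1 - (1 / 2 : ℝ)) := by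
  have h0 : 0 ≤ φ * pn U y := mul_nonneg hφ0 (pn_nonneg U y)
  have h1 : ENNReal.ofReal (φ ^ 2 * pn U y ^ 2) ^ (1 - (1 / 2 : ℝ))
      = ENNReal.ofReal (φ * pn U y) := by
    rw [ENNReal.ofReal_rpow_of_nonneg (by positivity) (by norm_num), ← mul_pow,
      ← Real.rpow_natCast, ← Real.rpow_mul h0]
    norm_num
  rw [h1]
  exact ENNReal.ofReal_le_ofReal (hφ y)

lemma measurable_disp (ρ : E ≃ₗᵢ[ℝ] E) : Measurable fun y : E => ENNReal.ofReal ‖ρ y - y‖ :=
  (ρ.continuous.measurable.sub measurable_id).norm.ennreal_ofReal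

lemma half_rpow {s : ℝ} (hs : 0 ≤ s) :
    ENNReal.ofReal s ^ (1 - (1 / 2 : ℝ)) = ENNReal.ofReal (Real.sqrt s) := by
  rw [ENNReal.ofReal_rpow_of_nonneg hs (by norm_num), Real.sqrt_eq_rpow]
  norm_num

/-- **b-part, healthy parent.** -/
theorem rot_b_own {S : H395.Tree E κ} (hS : Good S) {k K : ℝ≥0∞} {b : E → ℝ≥0∞}
    (hb : Maj k S b) (hK : 1 + K * k ^ (1 / 2 : ℝ) ≤ K) {f : κ → E → ℝ≥0∞}
    (hf : ∀ i, Measurable (f i)) (hf1 : ∀ i x, f i x ≤ 1) {ρ : E ≃ₗᵢ[ℝ] E} {U : Submodule ℝ E}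
    (hU : Module.finrank ℝ U ≤ 2) {W : Submodule ℝ E} (hUW : U ≤ Wᗮ) {φ : ℝ} (hφ0 : 0 ≤ φ)
    (hφ : ∀ y, ‖ρ y - y‖ ≤ φ * pn U y) (hW : Above W S) (x : E) :
    fib W (fun y => exc (1 / 2) M S f y * ENNReal.ofReal ‖ρ y - y‖) x
      ≤ K * ((M * fib W b x) ^ (1 / 2 : ℝ) * ENNReal.ofReal (φ * Real.sqrt
        (8 * (fib W (pay S f) x).toReal * (1 - Real.log (fib W (pay S f) x).toReal)))) := by
  set u : E → ℝ≥0∞ := fun y => ENNReal.ofReal (φ ^ 2 * pn U y ^ 2) with hu
  have hum : Measurable u := by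
    have : Continuous fun y : E => φ ^ 2 * pn U y ^ 2 := by unfold pn; fun_prop
    exact this.measurable.ennreal_ofReal
  have h1 := fib_exc_weight (M := M) hS (by norm_num : (0:ℝ) < 1 / 2) (by norm_num) hb hK hf
    ENNReal.one_ne_top hf1 (measurable_disp ρ) hum (disp_le hφ hφ0) hW x
  refine h1.trans ?_
  gcongr
  set D := fib W (pay S f) x with hD
  have hD1 : D ≤ 1 := fib_le_one (pay_le_one hf1) x
  have hd0 : 0 ≤ D.toReal := ENNReal.toReal_nonneg
  have hd1 : D.toReal ≤ 1 := by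
    have := ENNReal.toReal_mono ENNReal.one_ne_top hD1
    simpa using this
  have hlog : 0 ≤ 1 - Real.log D.toReal := by
    have := Real.log_nonpos hd0 hd1
    linarith
  have h2 := bathtub2 U hU hUW (measurable_pay hS hf) (pay_le_one hf1) x
  have h3 : fib W (fun y => pay S f y * u y) x
      ≤ ENNReal.ofReal (φ ^ 2 * (8 * D.toReal * (1 - Real.log D.toReal))) := by
    have e : (fun y => pay S f y * u y) = fun y => ENNReal.ofReal (φ ^ 2)
        * (pay S f y * ENNReal.ofReal (pn U y ^ 2)) := by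
      funext y
      simp only [hu]
      rw [ENNReal.ofReal_mul (by positivity)]
      ring
    rw [e, fib_mul (g := fun _ => ENNReal.ofReal (φ ^ 2))
      (f := fun y => pay S f y * ENNReal.ofReal (pn U y ^ 2)) (inv_const W _)
      ((measurable_pay hS hf).mul (measurable_pn2 U)), ENNReal.ofReal_mul (by positivity)]
    gcongr
  calc fib W (fun y => pay S f y * u y) x ^ (1 - (1 / 2 : ℝ))
      ≤ ENNReal.ofReal (φ ^ 2 * (8 * D.toReal * (1 - Real.log D.toReal))) ^ (1 - (1 / 2 : ℝ)) :=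
        ENNReal.rpow_le_rpow h3 (by norm_num)
    _ = _ := by
        rw [half_rpow (by positivity), Real.sqrt_mul (by positivity), Real.sqrt_sq hφ0]

lemma ownP_of_sick {k : ℝ≥0∞} {g : E → ℝ≥0∞} {T : H395.Tree E ι} (h : Sick k g T) :
    OwnP (fun V x => 1 ≤ ENNReal.ofReal (4 / 3) * fib V g x) T := by
  induction T with
  | leaf i => trivial
  | node V a c T ih => exact ⟨fun x hx => (h.1 x hx).1, fun i => ih i (h.2 i)⟩

lemma OwnP.imp {P Q : Submodule ℝ E → E → Prop} (h : ∀ V x, P V x → Q V x)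
    {T : H395.Tree E ι} (hT : OwnP P T) : OwnP Q T := by
  induction T with
  | leaf i => trivial
  | node V a c T ih => exact ⟨fun x hx => h _ _ (hT.1 x hx), fun i => ih i (hT.2 i)⟩

/-- **b-part, sick parent.** -/
theorem rot_b_sick {S : H395.Tree E κ} (hS : Good S) {k K : ℝ≥0∞} {g : E → ℝ≥0∞}
    (hg : Measurable g) (hg1 : ∀ x, g x ≤ 1) (hSick : Sick k g S)
    (hK : 1 + K * k ^ (1 / 2 : ℝ) ≤ K) {f : κ → E → ℝ≥0∞}
    (hf : ∀ i, Measurable (f i)) (hf1 : ∀ i x, f i x ≤ 1) {ρ : E ≃ₗᵢ[ℝ] E} {U : Submodule ℝ E}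
    (hU : Module.finrank ℝ U ≤ 2) {W : Submodule ℝ E} {φ : ℝ} (hφ0 : 0 ≤ φ)
    (hφ : ∀ y, ‖ρ y - y‖ ≤ φ * pn U y) (hW : Above W S) (x : E) :
    fib W (fun y => exc (1 / 2) M S f y * ENNReal.ofReal ‖ρ y - y‖) x
      ≤ K * (4 * ENNReal.ofReal φ)
        * fib W (fun y => fow (1 / 2) M S y * (g y * ENNReal.ofReal (1 + pn U y))) x := by
  set u : E → ℝ≥0∞ := fun y => ENNReal.ofReal (φ ^ 2 * pn U y ^ 2) with hu
  have hum : Measurable u := by
    have : Continuous fun y : E => φ ^ 2 * pn U y ^ 2 := by unfold pn; fun_prop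
    exact this.measurable.ennreal_ofReal
  have m1 : Measurable fun y => g y * ENNReal.ofReal (1 + pn U y) := by
    have : Continuous fun y : E => 1 + pn U y := by unfold pn; fun_prop
    exact hg.mul this.measurable.ennreal_ofReal
  refine fib_exc_weight_sick (M := M) hS (by norm_num : (0:ℝ) < 1 / 2) (by norm_num) hSick hK hf
    hf1 (measurable_disp ρ) hum (disp_le hφ hφ0) m1 ?_ hW x
  refine (ownP_of_sick hSick).imp fun V y hy => ?_
  have h1 := sqrt_pn2_le U V hU hg hg1 y hy
  have e : fib V u y = ENNReal.ofReal (φ ^ 2) * fib V (fun z => ENNReal.ofReal (pn U z ^ 2)) y := by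
    rw [← fib_mul (g := fun _ => ENNReal.ofReal (φ ^ 2))
      (f := fun z => ENNReal.ofReal (pn U z ^ 2)) (inv_const V _) (measurable_pn2 U)]
    congr 1
    funext z
    simp only [hu]
    rw [ENNReal.ofReal_mul (by positivity)]
  calc fib V u y ^ (1 - (1 / 2 : ℝ))
      = ENNReal.ofReal (φ ^ 2) ^ (1 - (1 / 2 : ℝ))
        * fib V (fun z => ENNReal.ofReal (pn U z ^ 2)) y ^ (1 - (1 / 2 : ℝ)) := by
        rw [e, ENNReal.mul_rpow_of_nonneg _ _ (by norm_num)]
    _ = ENNReal.ofReal φ * fib V (fun z => ENNReal.ofReal (pn U z ^ 2)) y ^ (1 - (1 / 2 : ℝ)) := by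
        rw [half_rpow (by positivity), Real.sqrt_sq hφ0]
    _ ≤ ENNReal.ofReal φ * (4 * fib V (fun z => g z * ENNReal.ofReal (1 + pn U z)) y) := by
        gcongr
    _ = _ := by ring

/-- `t (1 - log t)` is increasing on `(0,1]` -/
lemma ent_mono {p q : ℝ} (hp : 0 ≤ p) (hpq : p ≤ q) (hq : q ≤ 1) :
    p * (1 - Real.log p) ≤ q * (1 - Real.log q) := by
  rcases hp.eq_or_lt with rfl | hp0
  · rw [zero_mul]
    have := Real.log_nonpos (hpq) hq
    exact mul_nonneg hpq (by linarith)
  have hq0 : 0 < q := hp0.trans_le hpq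
  have h1 : Real.log (q / p) ≤ q / p - 1 := Real.log_le_sub_one_of_pos (by positivity)
  rw [Real.log_div hq0.ne' hp0.ne'] at h1
  have h2 : p * (Real.log q - Real.log p) ≤ q - p := by
    calc p * (Real.log q - Real.log p) ≤ p * (q / p - 1) := by gcongr
      _ = q - p := by field_simp
  have h3 := Real.log_nonpos hq0.le hq
  nlinarith

/-- **b-part of a small set** (killed labels), `U` orthogonal to the label -/
theorem disp_small {p : E → ℝ≥0∞} (hp : Measurable p) (hp1 : ∀ x, p x ≤ 1) {ρ : E ≃ₗᵢ[ℝ] E}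
    {U : Submodule ℝ E} (hU : Module.finrank ℝ U ≤ 2) {W : Submodule ℝ E} (hUW : U ≤ Wᗮ)
    {φ : ℝ} (hφ0 : 0 ≤ φ) (hφ : ∀ y, ‖ρ y - y‖ ≤ φ * pn U y) {x : E} {P : ℝ} (hP : P ≤ 1)
    (hpP : fib W p x ≤ ENNReal.ofReal P) :
    fib W (fun y => p y * ENNReal.ofReal ‖ρ y - y‖) x
      ≤ ENNReal.ofReal (3 * φ * (P * Real.sqrt (1 - Real.log P))) := by
  set D := fib W p x with hD
  have hD1 : D ≤ 1 := fib_le_one hp1 x
  have hDt : D ≠ ∞ := ne_top_of_le_ne_top ENNReal.one_ne_top hD1
  have hd0 : 0 ≤ D.toReal := ENNReal.toReal_nonneg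
  rcases lt_or_ge P 0 with hP0 | hP0
  · have h0 : D = 0 := le_antisymm (hpP.trans_eq (ENNReal.ofReal_of_nonpos hP0.le)) zero_le
    have h1 : (fun z => p (mix W x z)) =ᵐ[stdGaussian E] 0 :=
      (lintegral_eq_zero_iff (f := fun z => p (mix W x z))
        (hp.comp (measurable_mix_right W x))).mp h0
    have h2 : fib W (fun y => p y * ENNReal.ofReal ‖ρ y - y‖) x = 0 := by
      refine (lintegral_eq_zero_iff (f := fun z => p (mix W x z)
        * ENNReal.ofReal ‖ρ (mix W x z) - mix W x z‖)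
        ((hp.mul (measurable_disp ρ)).comp (measurable_mix_right W x))).mpr ?_
      filter_upwards [h1] with z hz
      have hz' : p (mix W x z) = 0 := hz
      show p (mix W x z) * _ = 0
      rw [hz', zero_mul]
    rw [h2]
    exact zero_le
  have hdP : D.toReal ≤ P := ENNReal.toReal_le_of_le_ofReal hP0 hpP
  have hlogP : 0 ≤ 1 - Real.log P := by
    have := Real.log_nonpos hP0 hP
    linarith
  have hd1 : D.toReal ≤ 1 := hdP.trans hP
  have hlog : 0 ≤ 1 - Real.log D.toReal := by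
    have := Real.log_nonpos hd0 hd1
    linarith
  have h2 := bathtub2 U hU hUW hp hp1 x
  set u : E → ℝ≥0∞ := fun y => ENNReal.ofReal (φ ^ 2 * pn U y ^ 2) with hu
  have hum : Measurable u := by
    have : Continuous fun y : E => φ ^ 2 * pn U y ^ 2 := by unfold pn; fun_prop
    exact this.measurable.ennreal_ofReal
  have h3 : fib W (fun y => p y * u y) x
      ≤ ENNReal.ofReal (φ ^ 2 * (8 * D.toReal * (1 - Real.log D.toReal))) := by
    have e : (fun y => p y * u y) = fun y => ENNReal.ofReal (φ ^ 2)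
        * (p y * ENNReal.ofReal (pn U y ^ 2)) := by
      funext y
      simp only [hu]
      rw [ENNReal.ofReal_mul (by positivity)]
      ring
    rw [e, fib_mul (g := fun _ => ENNReal.ofReal (φ ^ 2))
      (f := fun y => p y * ENNReal.ofReal (pn U y ^ 2)) (inv_const W _)
      (hp.mul (measurable_pn2 U)), ENNReal.ofReal_mul (by positivity)]
    gcongr
  calc fib W (fun y => p y * ENNReal.ofReal ‖ρ y - y‖) x
      ≤ fib W (fun y => p y ^ (1 / 2 : ℝ) * (p y * u y) ^ (1 - (1 / 2 : ℝ))) x := by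
        refine fib_mono (fun y => ?_) x
        calc p y * ENNReal.ofReal ‖ρ y - y‖ ≤ p y * u y ^ (1 - (1 / 2 : ℝ)) := by
              gcongr
              exact disp_le hφ hφ0 y
          _ = (p y ^ (1 / 2 : ℝ) * p y ^ (1 - (1 / 2 : ℝ))) * u y ^ (1 - (1 / 2 : ℝ)) := by
              rw [← ENNReal.rpow_add_of_nonneg _ _ (by norm_num) (by norm_num),
                add_sub_cancel, ENNReal.rpow_one]
          _ = _ := by rw [ENNReal.mul_rpow_of_nonneg _ _ (by norm_num), mul_assoc]
    _ ≤ fib W p x ^ (1 / 2 : ℝ) * fib W (fun y => p y * u y) x ^ (1 - (1 / 2 : ℝ)) :=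
        fib_holder hp (hp.mul hum) (by norm_num) (by norm_num) x
    _ ≤ ENNReal.ofReal P ^ (1 - (1 / 2 : ℝ))
        * ENNReal.ofReal (φ ^ 2 * (8 * D.toReal * (1 - Real.log D.toReal)))
          ^ (1 - (1 / 2 : ℝ)) := by
        have e : (1 / 2 : ℝ) = 1 - (1 / 2 : ℝ) := by norm_num
        refine mul_le_mul' ?_ (ENNReal.rpow_le_rpow h3 (by norm_num))
        rw [← e]
        exact ENNReal.rpow_le_rpow hpP (by norm_num)
    _ = ENNReal.ofReal (Real.sqrt P * Real.sqrt (φ ^ 2 * (8 * D.toReal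
          * (1 - Real.log D.toReal)))) := by
        rw [half_rpow hP0, half_rpow (by positivity), ← ENNReal.ofReal_mul (Real.sqrt_nonneg _)]
    _ ≤ _ := by
        refine ENNReal.ofReal_le_ofReal ?_
        have h5 := ent_mono hd0 hdP hP
        have h6 : φ ^ 2 * (8 * D.toReal * (1 - Real.log D.toReal))
            ≤ (3 * φ) ^ 2 * (P * (1 - Real.log P)) := by
          have h7 : 0 ≤ φ ^ 2 := by positivity
          have h8 : 0 ≤ P * (1 - Real.log P) := mul_nonneg hP0 hlogP
          have h9 : 8 * D.toReal * (1 - Real.log D.toReal) ≤ 9 * (P * (1 - Real.log P)) := by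
            nlinarith
          calc _ ≤ φ ^ 2 * (9 * (P * (1 - Real.log P))) := mul_le_mul_of_nonneg_left h9 h7
            _ = _ := by ring
        calc Real.sqrt P * Real.sqrt (φ ^ 2 * (8 * D.toReal * (1 - Real.log D.toReal)))
            ≤ Real.sqrt P * Real.sqrt ((3 * φ) ^ 2 * (P * (1 - Real.log P))) := by gcongr
          _ = Real.sqrt P * (3 * φ * (Real.sqrt P * Real.sqrt (1 - Real.log P))) := by
              rw [Real.sqrt_mul (by positivity), Real.sqrt_sq (by positivity), Real.sqrt_mul hP0]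
          _ = 3 * φ * ((Real.sqrt P * Real.sqrt P) * Real.sqrt (1 - Real.log P)) := by ring
          _ = _ := by rw [Real.mul_self_sqrt hP0]

end Vale.Agent.P262.H703
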