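import Vale.Agent.P262.M2.Cls
import Vale.Agent.P262.H606.Floor
import Vale.Agent.P262.H703.CapU

/-!
# P262, milestone 2: class regions and the convexity floor on `M2.Sys`

* `Dw`, `A` are quasi-convex in the label, the region `{c ≤ kl}` is convex;
* `floor_kl`: if the label `x` of `p` has class `c`, then the label `x` of the child `c :: p` has
  class at least `c - 1`, or its own coordinates over the parent satisfy `4 ^ (c-1) / 16 ≤ ‖u‖²`.
-/

set_option linter.all false

open MeasureTheory ProbabilityTheory Set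
open scoped ENNReal NNReal RealInnerProductSpace
open Vale.Agent.P262.H118 (Iv st en ON rotE tau wd wrd Mg Piece K2 El2 paths)
open Vale.Agent.P262.H395 (fib mix Inv inv_fib fib_add)
open Vale.Agent.P262.H606 (df)

namespace Vale.Agent.P262.M2

namespace Sys

variable {E : Type*} [NormedAddCommGroup E] [InnerProductSpace ℝ E] [FiniteDimensional ℝ E]
  [MeasurableSpace E] [BorelSpace E] (S : Sys E)

/-- own coordinates of the child `c :: p` over `p` -/
noncomputable def ow (p : List ℕ) (c m : ℕ) (x : E) : E :=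
  (S.W (c :: p) m).starProjection x - (S.W p m).starProjection x

/-! ### quasi-convexity -/

/-- the deficit of a convex body is quasi-convex -/
lemma df_quasi {K : Set E} (hK : MeasurableSet K) (hKc : Convex ℝ K) (W : Submodule ℝ E)
    {x y : E} {s t : ℝ} (hs : 0 ≤ s) (ht : 0 ≤ t) (hst : s + t = 1) :
    df W K (s • x + t • y) ≤ max (df W K x) (df W K y) :=
  H606.convex_df_le hK hKc W (max (df W K x) (df W K y))
    (show df W K x ≤ _ from le_max_left _ _) (show df W K y ≤ _ from le_max_right _ _) hs ht hst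

lemma Dc_quasi (p : List ℕ) (m : ℕ) {x y : E} {s t : ℝ} (hs : 0 ≤ s) (ht : 0 ≤ t)
    (hst : s + t = 1) : S.Dc p m (s • x + t • y) ≤ max (S.Dc p m x) (S.Dc p m y) := by
  by_cases h : S.mv.IsRe m
  · rw [S.Dc_re h, S.Dc_re h, S.Dc_re h]
    exact df_quasi (S.measurableSet_X p m) (S.convex_X p m) _ hs ht hst
  · rw [S.Dc_active (S.not_re_iff.1 h), S.Dc_active (S.not_re_iff.1 h),
      S.Dc_active (S.not_re_iff.1 h)]
    exact df_quasi ((S.measurableSet_X p m).inter (S.measurableSet_X p (m + 1)))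
      ((S.convex_X p m).inter (S.convex_X p (m + 1))) _ hs ht hst

lemma Dw_quasi (p : List ℕ) (c m : ℕ) {x y : E} {s t : ℝ} (hs : 0 ≤ s) (ht : 0 ≤ t)
    (hst : s + t = 1) : S.Dw p c m (s • x + t • y) ≤ max (S.Dw p c m x) (S.Dw p c m y) := by
  unfold Sys.Dw
  refine Finset.sup_le fun k hk => (S.Dc_quasi p k hs ht hst).trans ?_
  exact max_le_max (Finset.le_sup (f := fun k => S.Dc p k x) hk)
    (Finset.le_sup (f := fun k => S.Dc p k y) hk)

lemma A_quasi (p : List ℕ) (m : ℕ) {x y : E} {s t : ℝ} (hs : 0 ≤ s) (ht : 0 ≤ t)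
    (hst : s + t = 1) : S.A p m (s • x + t • y) ≤ max (S.A p m x) (S.A p m y) :=
  H962.convex_capS_le S.hqq.le one_pos S.hA0 S.hkap (max (S.A p m x) (S.A p m y))
    (show S.A p m x ≤ _ from le_max_left _ _) (show S.A p m y ≤ _ from le_max_right _ _) hs ht hst

/-- **the class regions are convex** -/
theorem convex_kl (p : List ℕ) (m c : ℕ) : Convex ℝ {x | c ≤ S.kl p m x} := by
  intro x hx y hy s t hs ht hst
  simp only [mem_setOf_eq] at hx hy ⊢
  rw [le_kl_iff] at hx hy ⊢
  intro c' hc'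
  obtain ⟨h1, h2⟩ := hx c' hc'
  obtain ⟨h3, h4⟩ := hy c' hc'
  exact ⟨(S.Dw_quasi p c' m hs ht hst).trans_lt (max_lt h1 h3),
    (S.A_quasi p m hs ht hst).trans_lt (max_lt h2 h4)⟩

/-! ### facts below the class -/

lemma Dc_lt_thr {p : List ℕ} {m k c : ℕ} {x : E} (hm : S.mv.tm m < S.T) (hc : c < S.kl p m x)
    (h : S.Same (S.K.B p c) m k) : S.Dc p k x < S.thr c :=
  (Dc_le_Dw h x).trans_lt (lt_of_lt_kl hc).1

/-- mass outside the two bodies of the child, at the label of the parent -/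
lemma df_child_le {p : List ℕ} {k c : ℕ} (h : S.mv.IsStar k ∨ S.mv.IsRot k) (x : E) :
    df (S.W p k) (S.X (c :: p) k ∩ S.X (c :: p) (k + 1)) x ≤ S.De p k x + S.De p (k + 1) x := by
  have hW := S.W_succ_active h p
  have h1 : S.De p k x = fib (S.W p k) ((S.X (c :: p) k)ᶜ.indicator 1) x :=
    (S.mv.fib_Bd_compl S.measurableSet_Kt k (List.suffix_cons c p) x).symm
  have h2 : S.De p (k + 1) x = fib (S.W p k) ((S.X (c :: p) (k + 1))ᶜ.indicator 1) x := by
    have := (S.mv.fib_Bd_compl S.measurableSet_Kt (k + 1) (List.suffix_cons c p) x).symm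
    rw [← hW]
    exact this
  rw [h1, h2, ← fib_add (measurable_one.indicator (S.measurableSet_X _ _).compl)]
  unfold df
  refine lintegral_mono fun z => ?_
  simp only [compl_inter]
  by_cases ha : mix (S.W p k) x z ∈ (S.X (c :: p) k)ᶜ
  · rw [indicator_of_mem ha, indicator_of_mem (mem_union_left _ ha)]
    exact le_self_add
  · by_cases hb : mix (S.W p k) x z ∈ (S.X (c :: p) (k + 1))ᶜ
    · rw [indicator_of_mem hb, indicator_of_mem (mem_union_right _ hb)]
      exact le_add_self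
    · rw [indicator_of_notMem (s := (S.X (c :: p) k)ᶜ ∪ (S.X (c :: p) (k + 1))ᶜ)
        (fun h => h.elim ha hb)]
      exact bot_le

lemma A_child_le (c : ℕ) (p : List ℕ) (m : ℕ) {s : ℝ} (hs : 0 ≤ s) (x : E) :
    S.As s (c :: p) m x ≤ ENNReal.ofReal ((S.kap ^ (Module.finrank ℝ (S.W (c :: p) m) -
      Module.finrank ℝ (S.W p m)) * Real.exp (‖S.ow p c m x‖ ^ 2 / 8)) ^ s) * S.As s p m x :=
  capS_child_le' S c p m hs x
where
  capS_child_le' (S : Sys E) (c : ℕ) (p : List ℕ) (m : ℕ) {s : ℝ} (hs : 0 ≤ s) (x : E) :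
      H962.capS S.A0 S.kap S.qq s (S.chn p m ++ [S.W (c :: p) m]) (S.W (c :: p) m) x ≤
        ENNReal.ofReal ((S.kap ^ (Module.finrank ℝ (S.W (c :: p) m) -
      Module.finrank ℝ (S.W p m)) * Real.exp (‖S.ow p c m x‖ ^ 2 / 8)) ^ s) *
      H962.capS S.A0 S.kap S.qq s (S.chn p m) (S.W p m) x :=
    H703.capS_child_le (S.W_mem_chn p m) (fun V hV => S.le_of_mem_chn hV) (S.W_le c p m)
      S.hqq.le S.hA0 S.hkap hs x

/-! ### the floor -/

lemma four_pow_ge {b c : ℕ} (h : c + 1 ≤ b) : (4:ℝ) ^ c ≤ 4 ^ b / 4 := by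
  have h1 : (4:ℝ) ^ (c + 1) ≤ 4 ^ b := pow_le_pow_right₀ (by norm_num) h
  rw [pow_succ] at h1
  linarith

lemma log_two_le : Real.log 2 ≤ 7 / 10 := by
  have := Real.log_two_lt_d9
  linarith

/-- the two bodies of the child at an active move, the deficits of the parent being small -/
lemma floor_df {W W' : Submodule ℝ E} (h : W ≤ W') {K : Set E} (hK : IsClosed K)
    (hKc : Convex ℝ K) (x : E) {b c : ℕ} (hcb : c + 1 ≤ b)
    (h1 : S.thr c ≤ df W' K x) (h2 : df W K x ≤ 2 * S.thr b) :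
    (4:ℝ) ^ b / 16 ≤ ‖W'.starProjection x - W.starProjection x‖ ^ 2 := by
  rw [S.hthr] at h1 h2
  have ha : (0:ℝ) < Real.exp (1 - 4 ^ c) / 10 := by positivity
  have h3 : df W K x ≤ ENNReal.ofReal (Real.exp (1 - 4 ^ c) / 10 *
      Real.exp (-((4:ℝ) ^ b - 4 ^ c - Real.log 2))) := by
    refine h2.trans (le_of_eq ?_)
    rw [show (2:ℝ≥0∞) = ENNReal.ofReal 2 by norm_num, ← ENNReal.ofReal_mul (by norm_num)]
    congr 1
    have : Real.exp (-((4:ℝ) ^ b - 4 ^ c - Real.log 2)) = Real.exp (-((4:ℝ) ^ b - 4 ^ c)) * 2 := by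
      rw [show -((4:ℝ) ^ b - 4 ^ c - Real.log 2) = -((4:ℝ) ^ b - 4 ^ c) + Real.log 2 by ring,
        Real.exp_add, Real.exp_log (by norm_num)]
    rw [this, show (1:ℝ) - 4 ^ b = (1 - 4 ^ c) + -((4:ℝ) ^ b - 4 ^ c) by ring, Real.exp_add]
    ring
  have h4 := H606.floor_norm h hK hKc ha h1 h3
  have h5 := four_pow_ge hcb
  have h6 := log_two_le
  have h7 : (4:ℝ) ^ 1 ≤ 4 ^ b := pow_le_pow_right₀ (by norm_num) (by omega)
  norm_num at h7
  nlinarith

lemma norm_ow_congr (x : E) {A A' B B' : Submodule ℝ E} (hA : A = A') (hB : B = B') :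
    ‖A.starProjection x - B.starProjection x‖ = ‖A'.starProjection x - B'.starProjection x‖ := by
  subst hA hB
  rfl

/-- **the convexity floor on the system** -/
theorem floor_kl {m : ℕ} (hm : S.mv.tm m < S.T) (p : List ℕ) (x : E) :
    S.kl p m x ≤ S.kl (S.kl p m x :: p) m x + 1 ∨
      (4:ℝ) ^ (S.kl p m x - 1) / 16 ≤ ‖S.ow p (S.kl p m x) m x‖ ^ 2 := by
  set c := S.kl p m x with hc
  by_cases hcc : c ≤ S.kl (c :: p) m x + 1
  · exact Or.inl hcc
  right
  push Not at hcc
  set c' := S.kl (c :: p) m x with hc'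
  have hb : c' + 1 ≤ c - 1 := by omega
  have hlt : c - 1 < S.kl p m x := by omega
  rcases kl_spec (S := S) (c :: p) m x with h1 | h1
  · obtain ⟨k, hk, hD⟩ := exists_Dw (S := S) (c :: p) c' hm x
    rw [← hc', ← hD] at h1
    have hsub : S.K.B p (c - 1) ⊆ S.K.B (c :: p) c' :=
      ((S.K.B_mono p (Nat.sub_le c 1)).trans (S.K.B_sub_nw p c)).trans (S.K.nw_sub_B _ _)
    have hk2 : S.Same (S.K.B p (c - 1)) m k := hk.mono hsub (S.K.zero_mem_B _ _) hm
    have hP := S.Dc_lt_thr hm hlt hk2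
    have hWc : S.W (c :: p) k = S.W (c :: p) m := hk.W (S.K.nw_sub_B _ _) hm
    have hWp : S.W p k = S.W p m := hk2.W (S.K.nw_sub_B _ _) hm
    have hle := S.W_le c p k
    unfold ow
    rw [← norm_ow_congr x hWc hWp]
    by_cases hre : S.mv.IsRe k
    · rw [S.Dc_re hre] at h1 hP
      refine S.floor_df hle (S.isClosed_X (c :: p) k) (S.convex_X (c :: p) k) x hb h1 ?_
      have h2 : df (S.W p k) (S.X (c :: p) k) x = S.De p k x :=
        S.mv.fib_Bd_compl S.measurableSet_Kt k (List.suffix_cons c p) x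
      rw [h2, two_mul]
      exact hP.le.trans le_self_add
    · have hact := S.not_re_iff.1 hre
      rw [S.Dc_active hact] at h1
      refine S.floor_df hle ((S.isClosed_X (c :: p) k).inter (S.isClosed_X (c :: p) (k + 1)))
        ((S.convex_X (c :: p) k).inter (S.convex_X (c :: p) (k + 1))) x hb h1 ?_
      refine (S.df_child_le hact x).trans ?_
      rw [two_mul]
      exact add_le_add ((S.De_le_Dc p k x).trans hP.le) ((S.De_succ_le_Dc hact x).trans hP.le)
  · have h2 := (lt_of_lt_kl hlt).2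
    have h3 := S.A_child_le c p m (zero_le_one) x
    rw [← hc'] at h1
    have h4 : S.thr c' ≤ ENNReal.ofReal (Real.exp (‖S.ow p c m x‖ ^ 2 / 8)) * S.thr (c - 1) := by
      refine h1.trans (h3.trans (mul_le_mul' (ENNReal.ofReal_le_ofReal ?_) h2.le))
      rw [Real.rpow_one]
      have h5 : S.kap ^ (Module.finrank ℝ (S.W (c :: p) m) - Module.finrank ℝ (S.W p m)) ≤ 1 :=
        pow_le_one₀ S.hkap.le S.hkap1
      have := Real.exp_pos (‖S.ow p c m x‖ ^ 2 / 8)
      nlinarith
    rw [S.hthr, S.hthr, ← ENNReal.ofReal_mul (Real.exp_nonneg _),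
      ENNReal.ofReal_le_ofReal_iff (by positivity)] at h4
    have h5 : Real.exp (1 - 4 ^ c') ≤ Real.exp (‖S.ow p c m x‖ ^ 2 / 8 + (1 - 4 ^ (c - 1))) := by
      rw [Real.exp_add]
      linarith
    have h6 := Real.exp_le_exp.mp h5
    have h7 := four_pow_ge hb
    have h8 : (0:ℝ) < 4 ^ (c - 1) := by positivity
    linarith

end Sys

end Vale.Agent.P262.M2
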